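import Vale.Agent.Lib.P262S.TiltC

open Finset
open Vale.Agent.Lib.P262 (nm nm_nonneg nm_sq nm_add_le nm_mono nm_smul nm_le_of_sq sum_sq_le_of_nm exists_tilt)

namespace Vale.Agent.Lib.P262S

noncomputable section

variable {I D : Type} [Fintype I] [DecidableEq I] [Fintype D] [DecidableEq D]

variable (S : Sys I D)

/-- The clipping radius. -/
def kap (t : ℕ) (a : D) : ℝ :=
  Real.sqrt (2 ^ 129 * ((rk S.y (HH S.y t) a : ℝ) + 2 ^ 86 + (JJ S.y t : ℝ)))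

variable {S}

lemma kap_sq (t : ℕ) (a : D) :
    kap S t a ^ 2 = 2 ^ 129 * ((rk S.y (HH S.y t) a : ℝ) + 2 ^ 86 + (JJ S.y t : ℝ)) :=
  Real.sq_sqrt (by positivity)

lemma kap_nonneg (t : ℕ) (a : D) : 0 ≤ kap S t a := Real.sqrt_nonneg _

/-- The noise of the middle of a node on high coordinates. -/
lemma noise_H {t j' : ℕ} {x y : D → ℝ} {R Ex : Finset I} {v : Pc D → ℝ} {c : ℝ}
    (hv : Noise S t j' 7 x y R v) (hc : c ^ 2 ≤ 1 / 4) (hExc : (Ex.card : ℝ) ≤ 2 ^ 62) (r : ℕ) :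
    ∑ a ∈ pre S.y (HH S.y t) r, (vi v a + c * ∑ i ∈ Ex, S.z i a) ^ 2 ≤ 2 ^ 124 * (r : ℝ) := by
  rcases Nat.eq_zero_or_pos r with h0 | h0
  · subst h0
    rw [pre_zero]
    simp
  have hr : (1 : ℝ) ≤ r := by exact_mod_cast h0
  have h1 := hv.pre_all (by norm_num) r
  have h2 : ∑ a ∈ pre S.y (HH S.y t) r, (∑ i ∈ Ex, S.z i a) ^ 2 ≤ 2 ^ 124 := by
    refine (sum_h_sq _ Ex).trans ?_
    have h3 := Yy_le_card (S := S) (pre S.y (HH S.y t) r) Ex
    have h4 := S.Yy_nonneg (pre S.y (HH S.y t) r) Ex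
    calc (Ex.card : ℝ) * S.Yy (pre S.y (HH S.y t) r) Ex ≤ 2 ^ 62 * 2 ^ 62 :=
          mul_le_mul hExc (h3.trans hExc) h4 (by norm_num)
      _ = 2 ^ 124 := by norm_num
  have h3 : ∑ a ∈ pre S.y (HH S.y t) r, (vi v a + c * ∑ i ∈ Ex, S.z i a) ^ 2 ≤
      2 * ∑ a ∈ pre S.y (HH S.y t) r, vi v a ^ 2 + 2 * (1 / 4) * ∑ a ∈ pre S.y (HH S.y t) r, (∑ i ∈ Ex, S.z i a) ^ 2 := by
    rw [Finset.mul_sum, Finset.mul_sum, ← Finset.sum_add_distrib]
    refine Finset.sum_le_sum (fun a _ => ?_)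
    have h4 : (c * ∑ i ∈ Ex, S.z i a) ^ 2 ≤ 1 / 4 * (∑ i ∈ Ex, S.z i a) ^ 2 := by
      rw [mul_pow]
      exact mul_le_mul_of_nonneg_right hc (sq_nonneg _)
    nlinarith [sq_nonneg (vi v a - c * ∑ i ∈ Ex, S.z i a)]
  refine h3.trans ?_
  norm_num at h1 h2 ⊢
  nlinarith

/-- The bound at a binary midpoint. -/
lemma bin_point {t j j' : ℕ} {Yh Yh' ρx ρy c : ℝ} {x y m : D → ℝ} {s Ex C : Finset I} {v f : Pc D → ℝ}
    {R : Finset I}
    (hv : Noise S t j' 7 x y R v) (hc : c ^ 2 ≤ 1 / 4) (hExc : (Ex.card : ℝ) ≤ 2 ^ 62)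
    (hm : ∀ a, m a = 1 / 2 * x a + 1 / 2 * y a + (vi v a + c * ∑ i ∈ Ex, S.z i a + vi f a))
    (hfH : ∀ a ∈ HH S.y t, vi f a = - clip (1 / 2 * x a + 1 / 2 * y a) (kap S t a))
    (hP : Pot S t C Yh' m ≤ 1 / 2 * Pot S t s Yh x + 1 / 2 * Pot S t s Yh y)
    (hB : Bn S t j' m ≤ 1 / 2 * Bn S t j x + 1 / 2 * Bn S t j y + inc S t)
    (hx : TB S t j s Yh x ρx) (hy : TB S t j s Yh y ρy) :
    TB S t j' C Yh' m (1 / 2 * (ρx + ρy) + inc S t) ∧ TBp S t j' C Yh' m (1 / 2 * (ρx + ρy) + inc S t) := by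
  set H := HH S.y t with hH
  set avg : D → ℝ := fun a => 1 / 2 * x a + 1 / 2 * y a with havg
  set n : D → ℝ := fun a => vi v a + c * ∑ i ∈ Ex, S.z i a with hn
  set B := Pot S t C Yh' m + Bn S t j' m with hBd
  set ρ₁ := 1 / 2 * (ρx + ρy) + inc S t - B with hρ₁
  have hκ0 : ∀ a ∈ H, 0 ≤ kap S t a := fun a _ => kap_nonneg t a
  have hκ : ∀ a ∈ H, 2 ^ 129 * (rk S.y H a : ℝ) ≤ kap S t a ^ 2 := by
    intro a _
    rw [kap_sq]
    have : (0 : ℝ) ≤ (JJ S.y t : ℝ) := by positivity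
    nlinarith
  have hmH : ∀ a ∈ H, m a = avg a - clip (avg a) (kap S t a) + n a := by
    intro a ha
    rw [hm a, hfH a ha]
    simp only [havg, hn]
    ring
  have hbase : ∀ r : ℕ, 5 * ∑ a ∈ pre S.y H r, avg a ^ 2 ≤ ρ₁ + 2 ^ 130 * (r : ℝ) := by
    intro r
    have h1 := hx r
    have h2 := hy r
    have h3 : 5 * ∑ a ∈ pre S.y H r, avg a ^ 2 ≤
        1 / 2 * (5 * ∑ a ∈ pre S.y H r, x a ^ 2) + 1 / 2 * (5 * ∑ a ∈ pre S.y H r, y a ^ 2) := by
      simp only [Finset.mul_sum, ← Finset.sum_add_distrib]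
      refine Finset.sum_le_sum (fun a _ => ?_)
      simp only [havg]
      nlinarith [sq_nonneg (x a - y a)]
    simp only [hρ₁, hBd]
    linarith
  have hn2 : ∀ r : ℕ, ∑ a ∈ pre S.y H r, n a ^ 2 ≤ 2 ^ 124 * (r : ℝ) := fun r => noise_H hv hc hExc r
  have hmem : ∀ a ∈ H, a ∈ pre S.y H (rk S.y H a) := fun a ha =>
    Finset.mem_filter.mpr ⟨ha, le_rfl⟩
  have hJ : (0 : ℝ) ≤ (JJ S.y t : ℝ) := by positivity
  constructor
  · -- without room
    intro r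
    have hc0 : ∀ a ∈ H, |n a| + (0 : D → ℝ) a ≤ kap S t a / 2 := by
      intro a ha
      simp only [Pi.zero_apply, add_zero]
      refine abs_le_of_sq_le_sq' ?_ (by have := kap_nonneg (S := S) t a; positivity) |> abs_le.mpr
      have h1 := hn2 (rk S.y H a)
      have h2 : n a ^ 2 ≤ ∑ b ∈ pre S.y H (rk S.y H a), n b ^ 2 :=
        Finset.single_le_sum (f := fun b => n b ^ 2) (fun _ _ => sq_nonneg _) (hmem a ha)
      have h3 : (kap S t a / 2) ^ 2 = 2 ^ 127 * ((rk S.y H a : ℝ) + 2 ^ 86 + (JJ S.y t : ℝ)) := by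
        rw [div_pow, kap_sq]
        ring
      rw [h3]
      have h4 : (0 : ℝ) ≤ rk S.y H a := by positivity
      nlinarith
    have hsum0 : ∀ r : ℕ, ∑ a ∈ pre S.y H r, (|n a| + (0 : D → ℝ) a) ^ 2 ≤ 2 ^ 126 * (r : ℝ) + 0 := by
      intro r
      simp only [Pi.zero_apply, add_zero, sq_abs]
      have h1 := hn2 r
      have h2 : (0 : ℝ) ≤ r := by positivity
      nlinarith
    have h := clip_main (y := S.y) H (kap S t) avg n 0 m ρ₁ 0 hκ0 hκ (fun _ => le_rfl) le_rfl hmH hc0 hsum0 hbase r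
    simp only [Pi.zero_apply, add_zero, sq_abs, mul_zero] at h
    simp only [hρ₁, hBd] at h
    linarith
  · -- with room
    intro ν hν hνs r
    have hBd0 := Bd_pos (S := S) t
    have hsum1 : ∀ r : ℕ, ∑ a ∈ pre S.y H r, (|n a| + ν a) ^ 2 ≤ 2 ^ 126 * (r : ℝ) + 2 ^ 41 * Bd S t := by
      intro r
      have h1 := hn2 r
      have h2 := hνs r
      have h3 : ∑ a ∈ pre S.y H r, (|n a| + ν a) ^ 2 ≤
          2 * ∑ a ∈ pre S.y H r, n a ^ 2 + 2 * ∑ a ∈ pre S.y H r, ν a ^ 2 := by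
        rw [Finset.mul_sum, Finset.mul_sum, ← Finset.sum_add_distrib]
        refine Finset.sum_le_sum (fun a _ => ?_)
        have h4 := sq_abs (n a)
        nlinarith [sq_nonneg (|n a| - ν a)]
      refine h3.trans ?_
      have h5 : (0 : ℝ) ≤ r := by positivity
      nlinarith
    have hc1 : ∀ a ∈ H, |n a| + ν a ≤ kap S t a / 2 := by
      intro a ha
      have h0 : 0 ≤ |n a| + ν a := add_nonneg (abs_nonneg _) (hν a)
      refine (abs_le.mp (abs_le_of_sq_le_sq ?_ (by have := kap_nonneg (S := S) t a; positivity))).2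
      have h1 := hsum1 (rk S.y H a)
      have h2 : (|n a| + ν a) ^ 2 ≤ ∑ b ∈ pre S.y H (rk S.y H a), (|n b| + ν b) ^ 2 :=
        Finset.single_le_sum (f := fun b => (|n b| + ν b) ^ 2) (fun _ _ => sq_nonneg _) (hmem a ha)
      have h3 : (kap S t a / 2) ^ 2 = 2 ^ 127 * ((rk S.y H a : ℝ) + 2 ^ 86 + (JJ S.y t : ℝ)) := by
        rw [div_pow, kap_sq]
        ring
      rw [h3]
      unfold Bd at h1
      have h4 : (0 : ℝ) ≤ rk S.y H a := by positivity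
      nlinarith
    have h := clip_main (y := S.y) H (kap S t) avg n ν m ρ₁ (2 ^ 41 * Bd S t) hκ0 hκ hν (by positivity) hmH hc1 hsum1 hbase r
    simp only [hρ₁, hBd] at h
    nlinarith

/-- Sum over a group through its list. -/
lemma toList_sum {β : Type} [AddCommMonoid β] (C : Finset I) (g : I → β) :
    (C.toList.map g).sum = ∑ i ∈ C, g i := by
  have h := List.sum_toFinset g C.nodup_toList
  rw [← h, Finset.toList_toFinset]

/-- Bound of the leak in a binary step. -/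
lemma leak_inc {t j : ℕ} {Yh c : ℝ} {s Ex : Finset I} {τ : D → ℝ}
    (hI : Inv S t j s Yh) (hEx : Ex ⊆ s) (hExc : (Ex.card : ℝ) ≤ 2 ^ 62)
    (hτ0 : ∀ a, a ∉ HH S.y t → τ a = 0)
    (hA : ∑ a ∈ HH S.y t, S.gl j a * τ a ^ 2 ≤ 16 * ((1 / 2) ^ 250 / ((JJ S.y t : ℝ) + 1)))
    (hc : c ^ 2 ≤ 1 / 4) (hN : (NN S.y t).Nonempty) :
    2 ^ 132 * ((JJ S.y t : ℝ) + ((NN S.y t).card : ℝ) + 1) + 100 * ((JJ S.y t : ℝ) + 1) *
      ∑ a ∈ NN S.y t, (c * ∑ i ∈ s \ Ex, (∑ b, τ b * S.z i b) * S.z i a) ^ 2 ≤ inc S t := by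
  have hle : j ≤ jj S.y (t + 1) := hI.lev2.le
  have h1 := leak_N (A := 16 * ((1 / 2) ^ 250 / ((JJ S.y t : ℝ) + 1))) hle hEx hExc hτ0 hA
    (hI.i2 t le_rfl) (hI.i2 (t + 1) (by omega))
  set L := ∑ a ∈ NN S.y t, (∑ i ∈ s \ Ex, (∑ b, τ b * S.z i b) * S.z i a) ^ 2 with hL
  have hL0 : 0 ≤ L := Finset.sum_nonneg (fun _ _ => sq_nonneg _)
  have e : ∑ a ∈ NN S.y t, (c * ∑ i ∈ s \ Ex, (∑ b, τ b * S.z i b) * S.z i a) ^ 2 = c ^ 2 * L := by
    rw [hL, Finset.mul_sum]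
    exact Finset.sum_congr rfl (fun a _ => by ring)
  rw [e]
  set J := (JJ S.y t : ℝ) with hJ
  have hJ0 : (0 : ℝ) ≤ J := by positivity
  have hJ1 : (0 : ℝ) < J + 1 := by linarith
  set G := (1 / 2 : ℝ) ^ 250 with hG
  have hG2 : G ≤ (1 / 2) ^ 100 * ((1 / 2) ^ 100) := by
    rw [hG]
    norm_num
  have hG0 : 0 ≤ G := by rw [hG]; positivity
  clear_value G
  have hmul : (J + 1) * (16 * (G / (J + 1))) = 16 * G := by
    field_simp
  have hb := bt_nonneg S t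
  set n := ((WW S.y t).card : ℝ) with hn
  set n' := ((WW S.y (t + 1)).card : ℝ) with hn'
  set Nc := ((NN S.y t).card : ℝ) with hNc
  have hn0 : 0 ≤ n := by positivity
  have hn'0 : 0 ≤ n' := by positivity
  have hNc0 : 0 ≤ Nc := by positivity
  have hX1 : Xc S t t = n + 2 ^ 88 + bt S t := by
    unfold Xc
    ring
  have hX2 : Xc S t (t + 1) = n' + 1 + 2 ^ 88 + bt S t := by
    unfold Xc
    push_cast
    ring
  rw [hX1, hX2] at h1
  have h2 : (J + 1) * L ≤ 4 * (16 * G) * (2 ^ 43 * (n + 2 ^ 88 + bt S t) + 2 ^ 43 * (n' + 1 + 2 ^ 88 + bt S t)) +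
      2 * (2 ^ 124 * (16 * G)) := by
    have h3 := mul_le_mul_of_nonneg_left h1 hJ1.le
    refine h3.trans (le_of_eq ?_)
    rw [← hmul]
    field_simp
  have h3 : 100 * (J + 1) * (c ^ 2 * L) ≤ 25 * ((J + 1) * L) := by
    have h4 : 0 ≤ (J + 1) * L := by positivity
    nlinarith
  have h5 : 25 * (4 * (16 * G) * (2 ^ 43 * (n + 2 ^ 88 + bt S t) + 2 ^ 43 * (n' + 1 + 2 ^ 88 + bt S t)) +
      2 * (2 ^ 124 * (16 * G))) ≤ n + n' + bt S t + 1 := by
    have hx : 0 ≤ n + n' + bt S t := by positivity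
    have h6 : 25 * (4 * (16 * G) * (2 ^ 43 * (n + 2 ^ 88 + bt S t) + 2 ^ 43 * (n' + 1 + 2 ^ 88 + bt S t)) +
        2 * (2 ^ 124 * (16 * G))) ≤ G * (2 ^ 60 * (n + n' + bt S t) + 2 ^ 150) := by
      have : G * (n + n' + bt S t) ≥ 0 := by positivity
      nlinarith
    refine h6.trans ?_
    have h7 : G * (2 ^ 60 * (n + n' + bt S t) + 2 ^ 150) ≤
        (1 / 2) ^ 100 * ((1 / 2) ^ 100) * (2 ^ 60 * (n + n' + bt S t) + 2 ^ 150) :=
      mul_le_mul_of_nonneg_right hG2 (add_nonneg (mul_nonneg (by norm_num) hx) (by norm_num))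
    refine h7.trans ?_
    norm_num
    nlinarith
  unfold inc
  rw [if_pos hN]
  nlinarith

/-- **The binary step.** -/
theorem bin_step {t j : ℕ} {Yh : ℝ} {x y : D → ℝ} {s Ex : Finset I}
    (hI : Inv S t j s Yh) (hH : Heavy S t Yh x y s Ex) (hy : ∀ a, y a = x a + ∑ i ∈ s, S.z i a) :
    ∃ A B : Finset I, Disjoint A B ∧ A ∪ B = s \ Ex ∧
      InvC S t (j + 1) A (7 / 10 * Yh) 7 ∧ InvC S t (j + 1) B (7 / 10 * Yh) 7 ∧
      A.card < s.card ∧ B.card < s.card ∧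
      ∀ ρx ρy, TB S t j s Yh x ρx → TB S t j s Yh y ρy →
        (TB S t (j + 1) A (7 / 10 * Yh) (fun a => x a + ∑ i ∈ A, S.z i a) (1 / 2 * (ρx + ρy) + inc S t) ∧
          TBp S t (j + 1) A (7 / 10 * Yh) (fun a => x a + ∑ i ∈ A, S.z i a) (1 / 2 * (ρx + ρy) + inc S t)) ∧
        (TB S t (j + 1) B (7 / 10 * Yh) (fun a => x a + ∑ i ∈ A, S.z i a + ∑ i ∈ Ex, S.z i a) (1 / 2 * (ρx + ρy) + inc S t) ∧
          TBp S t (j + 1) B (7 / 10 * Yh) (fun a => x a + ∑ i ∈ A, S.z i a + ∑ i ∈ Ex, S.z i a) (1 / 2 * (ρx + ρy) + inc S t)) := by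
  set R := s \ Ex with hR
  set J := (JJ S.y t : ℝ) with hJ
  set Γ₀ : ℝ := (1 / 2) ^ 250 / (J + 1) with hΓ₀
  have hJ0 : (0 : ℝ) ≤ J := by positivity
  have hJ1 : (0 : ℝ) < J + 1 := by linarith
  have hΓ0 : 0 ≤ Γ₀ := by positivity
  have hΓle : Γ₀ ≤ (1 / 2) ^ 250 := by
    rw [hΓ₀]
    exact div_le_self (by positivity) (by linarith)
  set p := pv S.z with hp
  set avg : D → ℝ := fun a => 1 / 2 * x a + 1 / 2 * y a with havg
  set tgt : D → ℝ := fun a => -(2 * clip (avg a) (kap S t a)) with htgt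
  have hle : j ≤ jj S.y (t + 1) := hI.lev2.le
  have hle1 : j + 1 ≤ jj S.y (t + 1) := hI.lev2
  have hRs : R ⊆ s := Finset.sdiff_subset
  have hY0 : 0 ≤ Yh := (S.Yy_nonneg _ _).trans hI.i3
  have ht : ∀ a ∈ HH S.y t, tgt a ^ 2 ≤ 4 * (2 ^ 129 * ((rk S.y (HH S.y t) a : ℝ) + 2 ^ 86 + (JJ S.y t : ℝ))) := by
    intro a _
    simp only [htgt]
    rw [← kap_sq (S := S), neg_sq, mul_pow]
    have h1 := clip_abs (w := avg a) (kap_nonneg (S := S) t a)
    have h2 : clip (avg a) (kap S t a) ^ 2 ≤ kap S t a ^ 2 := by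
      rw [← sq_abs]
      exact pow_le_pow_left₀ (abs_nonneg _) h1 2
    norm_num
    linarith
  obtain ⟨τ, hτ0, hτ, hE, hA⟩ := tilt_exists hI.i1 hle hH.hsub hH.hcard tgt (Gam_bound hle ht)
  set tt : I → ℝ := fun i => ∑ b, τ b * S.z i b with htt
  have htt2 : ∀ i, |tt i| ≤ 1 / 2 := by
    intro i
    refine abs_le_of_sq_le_sq ?_ (by norm_num)
    simp only [htt]
    rw [sum_supp hτ0]
    refine (Finset.sum_mul_sq_le_sq_mul_sq _ _ _).trans ?_
    have h1 : ∑ a ∈ HH S.y t, S.z i a ^ 2 ≤ 1 :=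
      (Finset.sum_le_sum_of_subset_of_nonneg (Finset.subset_univ _) (fun _ _ _ => sq_nonneg _)).trans (S.hz i)
    have h2 : ∑ a ∈ HH S.y t, τ a ^ 2 ≤ 16 * Γ₀ := by
      refine le_trans (Finset.sum_le_sum (fun a ha => ?_)) hA
      have h3 := gl_large hle ha
      have h4 : (1 : ℝ) ≤ S.gl j a := le_trans (by norm_num) h3
      nlinarith [sq_nonneg (τ a)]
    have h3 : 0 ≤ ∑ a ∈ HH S.y t, τ a ^ 2 := Finset.sum_nonneg (fun _ _ => sq_nonneg _)
    have h4 : (16 : ℝ) * Γ₀ ≤ 1 / 4 := by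
      have : (16 : ℝ) * (1 / 2) ^ 250 ≤ 1 / 4 := by norm_num
      linarith
    have h5 : (1 / 2 : ℝ) ^ 2 = 1 / 4 := by norm_num
    rw [h5]
    calc (∑ a ∈ HH S.y t, τ a ^ 2) * ∑ a ∈ HH S.y t, S.z i a ^ 2 ≤ (1 / 4) * 1 :=
          mul_le_mul (h2.trans h4) h1 (Finset.sum_nonneg (fun _ _ => sq_nonneg _)) (by norm_num)
      _ = 1 / 4 := by norm_num
  set l := R.toList with hl
  have hbud : (((({l.length} : Finset ℕ).card : ℕ)) : ℝ) * (∑ a, Real.exp (- uFam S 7 a) + ∑ _a : Fin 2, Real.exp (- (7 : ℝ))) +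
      ∑ _a : AKt, 8 / (2 ^ 13 : ℝ) ≤ 1 / 40 := by
    have := budget_ok S 0 7 (by norm_num)
    simpa using this
  obtain ⟨ε, hε, h1, h2, h3⟩ := round_signs (I := I) l R.nodup_toList tt htt2 p (pv_sq S.z S.hz) {l.length}
    (wFam S t (j + 1)) (mFam S t) (uFam S 7) (mFam_pos t) (uFam_nonneg (by norm_num)) (wFam_nonneg t (j + 1))
    (wFam_le hle1) (fFam S t (j + 1) x y) (fun _ => 7) (fun _ => by norm_num) (lFam S t x y) (fun _ => 2 ^ 13)
    (fun _ => by positivity) hbud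
  set ξ := QQ ε tt p l with hξ
  have hlt : l.take l.length = l := List.take_length
  have hlF : l.toFinset = R := Finset.toList_toFinset R
  have hraw : Raw S t (j + 1) 7 x y R ξ := by
    refine ⟨fun a => ?_, fun a => ?_, fun a => ?_⟩
    · have := h1 l.length (Finset.mem_singleton_self _) le_rfl a
      rwa [hlt] at this
    · have := h2 l.length (Finset.mem_singleton_self _) le_rfl a
      rwa [hlt] at this
    · have := h3 l.length le_rfl a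
      rwa [hlt, hlF] at this
  have hraw0 : Raw S t (j + 1) 7 x y R 0 :=
    RawOK.zero (mFam_pos t) (uFam_nonneg (by norm_num)) (wFam_nonneg t (j + 1)) (fun _ => by norm_num)
      (fun _ => by positivity)
  set v : Pc D → ℝ := (1 / 2 : ℝ) • (ξ + 0) with hv
  have hn1 : Noise S t (j + 1) 7 x y R v := noise_of_raw (RawOK.half hraw hraw0)
  have hn0 : Noise S t (j + 1) 7 x y R 0 := noise_of_raw hraw0
  have hξv : ∀ α, ξ α = Se ε p R α - Tw S tt R α := by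
    intro α
    simp only [hξ, QQ, Se, Tw]
    rw [hl, toList_sum, ← Finset.sum_sub_distrib]
    exact Finset.sum_congr rfl (fun i _ => by ring)
  set f : Pc D → ℝ := fun α => (1 / 2) * Tw S tt R α with hf
  set f' : Pc D → ℝ := fun α => (-(1 / 2)) * Tw S tt R α with hf'
  set A := Gp ε R with hAd
  set B := Gm ε R with hBd
  have hSpA : ∀ α, Sp p A α = (1 / 2 ^ 1 : ℝ) * Sp p R α + v α - (0 : Pc D → ℝ) α + f α := by
    intro α
    rw [hAd, Sp_Gp ε hε]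
    simp only [Pi.smul_apply, Pi.add_apply, smul_eq_mul, hv, hf, Pi.zero_apply, hξv]
    ring
  have hSpB : ∀ α, Sp p B α = (1 / 2 ^ 1 : ℝ) * Sp p R α + (0 : Pc D → ℝ) α - v α + f' α := by
    intro α
    rw [hBd, Sp_Gm ε hε]
    simp only [Pi.smul_apply, Pi.sub_apply, Pi.add_apply, smul_eq_mul, hv, hf', Pi.zero_apply, hξv]
    ring
  have hEε : ∑ i ∈ R, tt i ^ 2 ≤ 4 * Γ₀ := hE
  have hεsm : 4 * Γ₀ ≤ (1 / 2) ^ 100 := by
    have : (4 : ℝ) * (1 / 2) ^ 250 ≤ (1 / 2) ^ 100 := by norm_num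
    linarith
  have hfOK : TiltOK S t (j + 1) Yh x y s R f := tiltOK hI hH hEε hεsm (by norm_num)
  have hfOK' : TiltOK S t (j + 1) Yh x y s R f' := tiltOK hI hH hEε hεsm (by norm_num)
  have hAR : A ⊆ R := Finset.filter_subset _ _
  have hBR : B ⊆ R := Finset.filter_subset _ _
  have hu1 : (7 : ℝ) ≤ 8 * (J + 1) := by linarith
  obtain ⟨cA, cA1, cA2, cA3⟩ := child_main hI hH (J' := 1) le_rfl hle1 hAR (by norm_num) hu1 hSpA hn1 hn0 hfOK
  obtain ⟨cB, cB1, cB2, cB3⟩ := child_main hI hH (J' := 1) le_rfl hle1 hBR (by norm_num) hu1 hSpB hn0 hn1 hfOK'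
  -- the new points
  set h : D → ℝ := fun a => ∑ i ∈ Ex, S.z i a with hh
  have hsR : ∀ a, ∑ i ∈ s, S.z i a = ∑ i ∈ R, S.z i a + h a := by
    intro a
    exact (Finset.sum_sdiff hH.hsub).symm
  have hAa : ∀ a, ∑ i ∈ A, S.z i a = 1 / 2 * ∑ i ∈ R, S.z i a + vi v a + vi f a := by
    intro a
    have := hSpA (Sum.inl a)
    have e1 : Sp p A (Sum.inl a) = ∑ i ∈ A, S.z i a := rfl
    have e2 : Sp p R (Sum.inl a) = ∑ i ∈ R, S.z i a := rfl
    rw [e1, e2] at this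
    rw [this]
    simp only [Pi.zero_apply, vi]
    norm_num
  have hm₁ : ∀ a, x a + ∑ i ∈ A, S.z i a = (1 - 1 / 2) * x a + 1 / 2 * y a + (vi v a + (-(1 / 2)) * ∑ i ∈ Ex, S.z i a + vi f a) := by
    intro a
    rw [hy a, hsR a, hAa a]
    simp only [hh]
    ring
  have hm₂ : ∀ a, x a + ∑ i ∈ A, S.z i a + ∑ i ∈ Ex, S.z i a = (1 - 1 / 2) * x a + 1 / 2 * y a + (vi v a + (1 / 2) * ∑ i ∈ Ex, S.z i a + vi f a) := by
    intro a
    rw [hy a, hsR a, hAa a]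
    simp only [hh]
    ring
  have hT₁ := point_T (τ := 1 / 2) (c := -(1 / 2)) (m := fun a => x a + ∑ i ∈ A, S.z i a) hI hH (by norm_num) (by norm_num)
    (by rw [abs_neg, abs_of_pos] <;> norm_num) hm₁ hn1 hfOK cA1 cA2 cA.i3
  have hT₂ := point_T (τ := 1 / 2) (c := 1 / 2) (m := fun a => x a + ∑ i ∈ A, S.z i a + ∑ i ∈ Ex, S.z i a) hI hH (by norm_num) (by norm_num)
    (by rw [abs_of_pos] <;> norm_num) hm₂ hn1 hfOK cB1 cB2 cB.i3
  have hN₀ : ∀ {c : ℝ} {m : D → ℝ}, |c| ≤ 1 →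
      (∀ a, m a = (1 - 1 / 2) * x a + 1 / 2 * y a + (vi v a + c * ∑ i ∈ Ex, S.z i a + vi f a)) →
      Bn S t (j + 1) m ≤ 1 / 2 * Bn S t j x + 1 / 2 * Bn S t j y + inc S t := by
    intro c m hc hm
    by_cases hN : (NN S.y t).Nonempty
    · have h5 := point_N (J' := 1) (τ := 1 / 2) (u := 7) (f := f) hI le_rfl hle1 hH.hcard (by norm_num) (by norm_num) hc hm
        (by norm_num) (by norm_num) hn1
      have h6 := leak_inc (c := 1 / 2) hI hH.hsub hH.hcard hτ0 hA (by norm_num) hN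
      have e : ∑ a ∈ NN S.y t, vi f a ^ 2 = ∑ a ∈ NN S.y t, (1 / 2 * ∑ i ∈ s \ Ex, (∑ b, τ b * S.z i b) * S.z i a) ^ 2 := rfl
      rw [e] at h5
      have e2 : (1 - 1 / 2 : ℝ) = 1 / 2 := by norm_num
      rw [e2] at h5
      linarith
    · rw [Finset.not_nonempty_iff_eq_empty] at hN
      unfold Bn inc
      simp [hN]
  have hfH : ∀ a ∈ HH S.y t, vi f a = - clip (1 / 2 * x a + 1 / 2 * y a) (kap S t a) := by
    intro a ha
    have e : vi f a = 1 / 2 * ∑ i ∈ s \ Ex, (∑ b, τ b * S.z i b) * S.z i a := rfl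
    rw [e, hτ a ha]
    simp only [htgt, havg]
    ring
  refine ⟨A, B, ?_, ?_, cA, cB, cA3, cB3, ?_⟩
  · rw [Finset.disjoint_left]
    intro i hi hi'
    exact (Finset.mem_filter.mp hi').2 (Finset.mem_filter.mp hi).2
  · exact Finset.filter_union_filter_not_eq _ _
  · intro ρx ρy hx hy'
    have e2 : (1 - 1 / 2 : ℝ) = 1 / 2 := by norm_num
    rw [e2] at hT₁ hT₂
    refine ⟨?_, ?_⟩
    · refine bin_point (c := -(1 / 2)) (f := f) hn1 (by norm_num) hH.hcard ?_ hfH hT₁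
        (hN₀ (c := -(1 / 2)) (by rw [abs_neg, abs_of_pos] <;> norm_num) hm₁) hx hy'
      intro a
      have := hm₁ a
      rw [e2] at this
      exact this
    · refine bin_point (c := 1 / 2) (f := f) hn1 (by norm_num) hH.hcard ?_ hfH hT₂
        (hN₀ (c := 1 / 2) (by rw [abs_of_pos] <;> norm_num) hm₂) hx hy'
      intro a
      have := hm₂ a
      rw [e2] at this
      exact this

end

end Vale.Agent.Lib.P262S
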