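import Vale.Agent.Lib.P262S.KStar

open MeasureTheory Set
open scoped ENNReal

namespace Vale.Agent.Lib.P262S

open Vale.Agent.P074 (E)

noncomputable section

variable {m : ℕ} {I : Type} [DecidableEq I]

/-- Partial signed sums along a list. -/
def LS (ε t : I → ℝ) (u : I → E m) (l : List I) : E m :=
  (l.map (fun i => (ε i - t i) • u i)).sum

lemma LS_cons (ε t : I → ℝ) (u : I → E m) (i : I) (l : List I) :
    LS ε t u (i :: l) = (ε i - t i) • u i + LS ε t u l := by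
  simp [LS]

lemma LS_congr {ε ε' t : I → ℝ} {u : I → E m} {l : List I} (h : ∀ i ∈ l, ε i = ε' i) :
    LS ε t u l = LS ε' t u l := by
  unfold LS
  congr 1
  refine List.map_congr_left (fun i hi => ?_)
  rw [h i hi]

/-- Backward induction along the list. -/
lemma chain_aux (t : I → ℝ) (u : I → E m) (hu : ∀ i, ‖u i‖ ≤ 1 / 2 ^ 14) (ht : ∀ i, |t i| ≤ 1 / 2)
    (Bod : ℕ → Set (E m)) (hBo : ∀ k, IsOpen (Bod k)) (hBc : ∀ k, Convex ℝ (Bod k)) :
    ∀ (l : List I) (_ : l.Nodup) (k₀ : ℕ) (f : ℝ≥0∞),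
      (∑ k ∈ Finset.Ico (k₀ + 1) (k₀ + l.length + 1), gam m (Bod k)ᶜ ≤ f) →
      (f + ENNReal.ofReal (9 / 10) * TT m ≤ TT m) →
      ∃ K₀ : Set (E m), IsOpen K₀ ∧ Convex ℝ K₀ ∧ TT m ≤ gam m K₀ + f ∧
        ∀ W ∈ K₀, ∃ ε : I → ℝ, (∀ i, ε i = 1 ∨ ε i = -1) ∧
          ∀ k ≤ l.length, 1 ≤ k → W + LS ε t u (l.take k) ∈ Bod (k₀ + k) := by
  intro l
  induction l with
  | nil =>
    intro _ k₀ f _ _
    refine ⟨univ, isOpen_univ, convex_univ, ?_, fun W _ => ⟨fun _ => 1, fun _ => Or.inl rfl, ?_⟩⟩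
    · exact le_add_right le_rfl
    · intro k hk hk1
      simp at hk
      omega
  | cons i l ih =>
    intro hnd k₀ f hf hmass
    obtain ⟨hi, hl⟩ := List.nodup_cons.mp hnd
    simp only [List.length_cons] at hf
    have hsplit : ∑ k ∈ Finset.Ico (k₀ + 1) (k₀ + (l.length + 1) + 1), gam m (Bod k)ᶜ =
        gam m (Bod (k₀ + 1))ᶜ + ∑ k ∈ Finset.Ico (k₀ + 1 + 1) (k₀ + 1 + l.length + 1), gam m (Bod k)ᶜ := by
      rw [show k₀ + (l.length + 1) + 1 = k₀ + 1 + l.length + 1 by ring]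
      rw [Finset.sum_eq_sum_Ico_succ_bot (by omega)]
    rw [hsplit] at hf
    set f₁ := ∑ k ∈ Finset.Ico (k₀ + 1 + 1) (k₀ + 1 + l.length + 1), gam m (Bod k)ᶜ with hf₁
    have hTfin := TT_ne_top m
    have hle1 : f₁ + ENNReal.ofReal (9 / 10) * TT m ≤ TT m := by
      refine le_trans ?_ hmass
      gcongr
      exact le_trans le_add_self hf
    obtain ⟨K₁, hK₁o, hK₁c, hK₁m, hK₁p⟩ := ih hl (k₀ + 1) f₁ le_rfl hle1
    set K₂ := K₁ ∩ Bod (k₀ + 1) with hK₂
    have hK₂o : IsOpen K₂ := hK₁o.inter (hBo _)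
    have hK₂c : Convex ℝ K₂ := hK₁c.inter (hBc _)
    have hK₂m : TT m ≤ gam m K₂ + f := by
      have h1 : gam m K₁ ≤ gam m K₂ + gam m (Bod (k₀ + 1))ᶜ := by
        have : K₁ ⊆ K₂ ∪ (Bod (k₀ + 1))ᶜ := by
          intro x hx
          by_cases hb : x ∈ Bod (k₀ + 1)
          · exact Or.inl ⟨hx, hb⟩
          · exact Or.inr hb
        exact (measure_mono this).trans (measure_union_le _ _)
      calc TT m ≤ gam m K₁ + f₁ := hK₁m
        _ ≤ (gam m K₂ + gam m (Bod (k₀ + 1))ᶜ) + f₁ := by gcongr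
        _ = gam m K₂ + (gam m (Bod (k₀ + 1))ᶜ + f₁) := by rw [add_assoc]
        _ ≤ gam m K₂ + f := by gcongr
    have hK₂big : ENNReal.ofReal (9 / 10) * TT m ≤ gam m K₂ := by
      have hffin : f ≠ ⊤ := by
        intro h
        rw [h, top_add] at hmass
        exact hTfin (top_le_iff.mp hmass)
      have h1 : ENNReal.ofReal (9 / 10) * TT m + f ≤ gam m K₂ + f := by
        rw [add_comm]
        exact hmass.trans hK₂m
      exact (ENNReal.add_le_add_iff_right hffin).mp h1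
    obtain ⟨K₀, hK₀o, hK₀c, hK₀m, hK₀p⟩ := kstar hK₂o hK₂c hK₂big (u i) (hu i) (ht i)
    refine ⟨K₀, hK₀o, hK₀c, hK₂m.trans (by gcongr), ?_⟩
    intro W hW
    -- one step
    have hstep : ∃ s : ℝ, (s = 1 ∨ s = -1) ∧ W + (s - t i) • u i ∈ K₂ := by
      rcases hK₀p W hW with h | h
      · exact ⟨1, Or.inl rfl, h⟩
      · exact ⟨-1, Or.inr rfl, h⟩
    obtain ⟨s, hs, hWs⟩ := hstep
    obtain ⟨ε, hε, hεp⟩ := hK₁p _ hWs.1
    refine ⟨Function.update ε i s, ?_, ?_⟩
    · intro j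
      by_cases hj : j = i
      · subst hj
        simpa using hs
      · simpa [Function.update_of_ne hj] using hε j
    · intro k hk hk1
      have hcongr : ∀ l' : List I, l' <+: l →
          LS (Function.update ε i s) t u l' = LS ε t u l' := by
        intro l' hl'
        refine LS_congr (fun j hj => ?_)
        have hjl : j ∈ l := hl'.subset hj
        have hne : j ≠ i := fun h => hi (h ▸ hjl)
        simp [Function.update_of_ne hne]
      obtain ⟨k', rfl⟩ : ∃ k', k = k' + 1 := ⟨k - 1, by omega⟩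
      rw [List.take_succ_cons, LS_cons, hcongr _ (List.take_prefix _ _)]
      simp only [Function.update_self]
      rcases Nat.eq_zero_or_pos k' with h0 | h0
      · subst h0
        have : W + ((s - t i) • u i + LS ε t u (l.take 0)) = W + (s - t i) • u i := by
          simp [LS]
        rw [this]
        exact hWs.2
      · have h2 := hεp k' (by simp at hk; omega) h0
        rw [show k₀ + (k' + 1) = k₀ + 1 + k' by ring, ← add_assoc]
        exact h2

/-- The signed balancing theorem for prefix bodies. -/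
theorem balance (l : List I) (hl : l.Nodup) (t : I → ℝ) (u : I → E m)
    (hu : ∀ i, ‖u i‖ ≤ 1 / 2 ^ 14) (ht : ∀ i, |t i| ≤ 1 / 2)
    (Bod : ℕ → Set (E m)) (hBo : ∀ k, IsOpen (Bod k)) (hBc : ∀ k, Convex ℝ (Bod k))
    (hBs : ∀ k x, x ∈ Bod k → -x ∈ Bod k)
    (hfail : ∑ k ∈ Finset.Ico 1 (l.length + 1), gam m (Bod k)ᶜ ≤ ENNReal.ofReal (1 / 40) * TT m) :
    ∃ ε : I → ℝ, (∀ i, ε i = 1 ∨ ε i = -1) ∧
      ∀ k ≤ l.length, 1 ≤ k → (1 / 2 : ℝ) • LS ε t u (l.take k) ∈ Bod k := by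
  have hTfin := TT_ne_top m
  set f := ENNReal.ofReal (1 / 40) * TT m with hf
  have hadd : f + ENNReal.ofReal (9 / 10) * TT m ≤ TT m := by
    rw [hf, ← add_mul, ← ENNReal.ofReal_add (by norm_num) (by norm_num)]
    calc ENNReal.ofReal (1 / 40 + 9 / 10) * TT m ≤ ENNReal.ofReal 1 * TT m := by
          gcongr
          norm_num
      _ = TT m := by simp
  obtain ⟨K₀, hK₀o, hK₀c, hK₀m, hK₀p⟩ := chain_aux t u hu ht Bod hBo hBc l hl 0 f
    (by simpa using hfail) hadd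
  -- choose a point of K₀ in all the bodies
  set G : Set (E m) := K₀ ∩ ⋂ k ∈ Finset.Ico 1 (l.length + 1), Bod k with hG
  have hGpos : G.Nonempty := by
    by_contra hne
    rw [Set.not_nonempty_iff_eq_empty] at hne
    have hsub : (univ : Set (E m)) ⊆ K₀ᶜ ∪ ⋃ k ∈ Finset.Ico 1 (l.length + 1), (Bod k)ᶜ := by
      intro x _
      by_cases hx : x ∈ K₀
      · have hxG : x ∉ G := by rw [hne]; simp
        have : ¬ ∀ k ∈ Finset.Ico 1 (l.length + 1), x ∈ Bod k := by
          intro hall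
          refine hxG ⟨hx, ?_⟩
          simp only [Set.mem_iInter]
          exact hall
        push Not at this
        obtain ⟨k, hk, hxk⟩ := this
        refine Or.inr ?_
        simp only [Set.mem_iUnion]
        exact ⟨k, hk, hxk⟩
      · exact Or.inl hx
    have h1 : TT m ≤ gam m K₀ᶜ + ∑ k ∈ Finset.Ico 1 (l.length + 1), gam m (Bod k)ᶜ :=
      calc TT m = gam m univ := rfl
        _ ≤ gam m (K₀ᶜ ∪ ⋃ k ∈ Finset.Ico 1 (l.length + 1), (Bod k)ᶜ) := measure_mono hsub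
        _ ≤ gam m K₀ᶜ + gam m (⋃ k ∈ Finset.Ico 1 (l.length + 1), (Bod k)ᶜ) := measure_union_le _ _
        _ ≤ _ := by
            gcongr
            exact measure_biUnion_finset_le _ _
    have h2 : gam m K₀ᶜ ≤ f := by
      have hK₀fin : gam m K₀ ≠ ⊤ := ne_top_of_le_ne_top hTfin (measure_mono (subset_univ _))
      have h3 : gam m K₀ᶜ = TT m - gam m K₀ := measure_compl hK₀o.measurableSet hK₀fin
      rw [h3]
      exact tsub_le_iff_left.mpr hK₀m
    have h3 : TT m ≤ f + f := h1.trans (add_le_add h2 hfail)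
    rw [hf, ← add_mul, ← ENNReal.ofReal_add (by norm_num) (by norm_num)] at h3
    have h4 := TT_pos m
    have h5 : ENNReal.ofReal (1 / 40 + 1 / 40) * TT m < 1 * TT m := by
      refine (ENNReal.mul_lt_mul_iff_left h4.ne' hTfin).mpr ?_
      rw [show (1 : ℝ≥0∞) = ENNReal.ofReal 1 by simp]
      exact (ENNReal.ofReal_lt_ofReal_iff (by norm_num)).mpr (by norm_num)
    rw [one_mul] at h5
    exact absurd h3 (not_le.mpr h5)
  obtain ⟨W, hWK, hWB⟩ := hGpos
  obtain ⟨ε, hε, hεp⟩ := hK₀p W hWK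
  refine ⟨ε, hε, fun k hk hk1 => ?_⟩
  simp only [Set.mem_iInter] at hWB
  have hW1 : W ∈ Bod k := hWB k (Finset.mem_Ico.mpr ⟨hk1, by omega⟩)
  have hW2 := hεp k hk hk1
  rw [zero_add] at hW2
  have hW3 := hBs k W hW1
  have := hBc k hW2 hW3 (by norm_num : (0:ℝ) ≤ 1 / 2) (by norm_num : (0:ℝ) ≤ 1 / 2) (by norm_num)
  convert this using 1
  rw [smul_add, smul_neg]
  abel

end

end Vale.Agent.Lib.P262S
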