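import Vale.Agent.Lib.P262S.Noise

open Finset
open Vale.Agent.Lib.P262 (nm nm_nonneg nm_sq nm_add_le nm_mono nm_smul nm_le_of_sq sum_sq_le_of_nm)

namespace Vale.Agent.Lib.P262S

noncomputable section

variable {I D : Type} [Fintype I] [DecidableEq I] [Fintype D] [DecidableEq D]

section QF

lemma qf_nonneg {w : D × D → ℝ} (hw : ∀ q, 0 ≤ w q) (f : D × D → ℝ) : 0 ≤ qf w f :=
  Finset.sum_nonneg (fun q _ => mul_nonneg (hw q) (sq_nonneg _))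

lemma qf_mono_w {w w' : D × D → ℝ} {κ : ℝ} (h : ∀ q, w' q ≤ κ * w q) (f : D × D → ℝ) :
    qf w' f ≤ κ * qf w f := by
  unfold qf
  rw [Finset.mul_sum]
  refine Finset.sum_le_sum (fun q _ => ?_)
  have := mul_le_mul_of_nonneg_right (h q) (sq_nonneg (f q))
  linarith

lemma qf_contr {w : D × D → ℝ} (hw : ∀ q, 0 ≤ w q) (c η : ℝ) (hη : 0 < η) (d o : D × D → ℝ) :
    qf w (fun q => c * d q + o q) ≤ (1 + η) * c ^ 2 * qf w d + (1 + 1 / η) * qf w o := by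
  unfold qf
  rw [Finset.mul_sum, Finset.mul_sum, ← Finset.sum_add_distrib]
  refine Finset.sum_le_sum (fun q _ => ?_)
  have h1 : (c * d q + o q) ^ 2 ≤ (1 + η) * c ^ 2 * d q ^ 2 + (1 + 1 / η) * o q ^ 2 := by
    have h2 : 0 ≤ η * (c * d q) ^ 2 + 1 / η * o q ^ 2 - 2 * (c * d q) * o q := by
      have h3 : η * (c * d q) ^ 2 + 1 / η * o q ^ 2 - 2 * (c * d q) * o q =
          (1 / η) * (η * (c * d q) - o q) ^ 2 := by
        field_simp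
        ring
      rw [h3]
      positivity
    nlinarith
  have h2 := mul_le_mul_of_nonneg_left h1 (hw q)
  calc w q * (c * d q + o q) ^ 2 ≤ w q * ((1 + η) * c ^ 2 * d q ^ 2 + (1 + 1 / η) * o q ^ 2) := h2
    _ = _ := by ring

lemma qf_four {w : D × D → ℝ} (hw : ∀ q, 0 ≤ w q) (a b c d : D × D → ℝ) :
    qf w (fun q => a q + b q + c q + d q) ≤ 4 * (qf w a + qf w b + qf w c + qf w d) := by
  unfold qf
  rw [← Finset.sum_add_distrib, ← Finset.sum_add_distrib, ← Finset.sum_add_distrib, Finset.mul_sum]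
  refine Finset.sum_le_sum (fun q _ => ?_)
  have h1 : (a q + b q + c q + d q) ^ 2 ≤ 4 * (a q ^ 2 + b q ^ 2 + c q ^ 2 + d q ^ 2) := by
    nlinarith [sq_nonneg (a q - b q), sq_nonneg (a q - c q), sq_nonneg (a q - d q),
      sq_nonneg (b q - c q), sq_nonneg (b q - d q), sq_nonneg (c q - d q)]
  have h2 := mul_le_mul_of_nonneg_left h1 (hw q)
  calc w q * (a q + b q + c q + d q) ^ 2 ≤ w q * (4 * (a q ^ 2 + b q ^ 2 + c q ^ 2 + d q ^ 2)) := h2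
    _ = _ := by ring

lemma qf_neg (w f : D × D → ℝ) : qf w (fun q => - f q) = qf w f := by
  unfold qf
  simp

lemma qf_smul (w f : D × D → ℝ) (c : ℝ) : qf w (fun q => c * f q) = c ^ 2 * qf w f := by
  unfold qf
  rw [Finset.mul_sum]
  refine Finset.sum_congr rfl (fun q _ => by ring)

end QF

section Inv

variable (S : Sys I D)

/-- Slack of the class invariants. -/
def bt : ℕ → ℝ
  | 0 => 0
  | t + 1 => 3 / 4 * bt t + (EJ S.y t : ℝ)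

lemma bt_nonneg (t : ℕ) : 0 ≤ bt S t := by
  induction t with
  | zero => exact le_rfl
  | succ t ih =>
    have : bt S (t + 1) = 3 / 4 * bt S t + (EJ S.y t : ℝ) := rfl
    rw [this]
    positivity

/-- Bound of the class invariants. -/
def Xc (t c : ℕ) : ℝ := ((WW S.y c).card : ℝ) + ((c : ℝ) - t) + 2 ^ 88 + bt S t

lemma Xc_pos {t c : ℕ} (h : t ≤ c) : 1 ≤ Xc S t c := by
  unfold Xc
  have h1 : (t : ℝ) ≤ c := by exact_mod_cast h
  have h2 := bt_nonneg S t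
  have h3 : (0 : ℝ) ≤ ((WW S.y c).card : ℝ) := by positivity
  have h4 : (1 : ℝ) ≤ 2 ^ 88 := by norm_num
  linarith

/-- The invariants of a node. -/
structure Inv (t j : ℕ) (s : Finset I) (Yh : ℝ) : Prop where
  lev1 : jj S.y t ≤ j
  lev2 : j < jj S.y (t + 1)
  i1 : qf (S.w1 t j) (S.dv j s) ≤ 1 / 16
  i2 : ∀ c, t ≤ c → qf (S.wc t c j) (S.dv j s) ≤ 2 ^ 43 * Xc S t c
  i3 : S.Yy (TF S.y t) s ≤ Yh

/-- The invariants after the step, before the end of the stage is checked. -/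
structure InvC (t j : ℕ) (s : Finset I) (Yh : ℝ) (u : ℝ) : Prop where
  lev1 : jj S.y t ≤ j
  lev2 : j ≤ jj S.y (t + 1)
  i1 : qf (S.w1 t j) (S.dv j s) ≤ 1 / 16
  i2 : ∀ c, t ≤ c → qf (S.wc t c j) (S.dv j s) ≤
    3 / 4 * (2 ^ 43 * Xc S t c) + 2 ^ 40 * (((WW S.y c).card : ℝ) + ((c : ℝ) - t) + u) + 2 ^ 128
  i3 : S.Yy (TF S.y t) s ≤ Yh

/-- The tilting vector: what the step needs from it. -/
structure TiltOK (t j : ℕ) (Yh : ℝ) (x y : D → ℝ) (s R : Finset I) (f : Pc D → ℝ) : Prop where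
  w1 : qf (S.w1 t j) (vp f) ≤ (1 / 2) ^ 30
  cl : ∀ c, t ≤ c → qf (S.wc t c j) (vp f) ≤ (1 / 2) ^ 10 * (1 + 2 ^ 43 * Xc S t c)
  ks : |∑ a ∈ TF S.y t, vp f (a, a)| ≤ (1 / 2) ^ 10 * Yh
  kpx : |∑ a ∈ TF S.y t, ∑ b ∈ TF S.y t, x a * x b * vp f (a, b)| ≤
    (1 / 2) ^ 10 * S.Nn (TF S.y t) s x ^ 2
  kpy : |∑ a ∈ TF S.y t, ∑ b ∈ TF S.y t, y a * y b * vp f (a, b)| ≤
    (1 / 2) ^ 10 * S.Nn (TF S.y t) s y ^ 2
  kT : ∑ a ∈ TF S.y t, vi f a ^ 2 ≤ Yh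
  kx : (∑ a ∈ TF S.y t, x a * vi f a) ^ 2 ≤ S.Nn (TF S.y t) s x ^ 2
  ky : (∑ a ∈ TF S.y t, y a * vi f a) ^ 2 ≤ S.Nn (TF S.y t) s y ^ 2
  kc : |vc f| ≤ (1 / 2) ^ 10 * (R.card : ℝ)

/-- The node data: the heavy atoms and the smallness of the others. -/
structure Heavy (t : ℕ) (Yh : ℝ) (x y : D → ℝ) (s Ex : Finset I) : Prop where
  hsub : Ex ⊆ s
  hcard : (Ex.card : ℝ) ≤ 2 ^ 62
  hY : ∀ i ∈ s \ Ex, ∑ a ∈ TF S.y t, S.z i a ^ 2 ≤ (1 / 2) ^ 60 * Yh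
  hx : ∀ i ∈ s \ Ex, (∑ a ∈ TF S.y t, x a * S.z i a) ^ 2 ≤ (1 / 2) ^ 60 * S.Nn (TF S.y t) s x ^ 2
  hy : ∀ i ∈ s \ Ex, (∑ a ∈ TF S.y t, y a * S.z i a) ^ 2 ≤ (1 / 2) ^ 60 * S.Nn (TF S.y t) s y ^ 2
  hs : (2 : ℝ) ^ 63 ≤ s.card

variable {S}

/-- Sum of the lifted atoms on a group, vector part. -/
lemma vi_Sp (C : Finset I) (a : D) : vi (Sp (pv S.z) C) a = ∑ i ∈ C, S.z i a := rfl
lemma vp_Sp (C : Finset I) (q : D × D) : vp (Sp (pv S.z) C) q = S.gr C q := rfl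
lemma vc_Sp (C : Finset I) : vc (Sp (pv S.z) C) = (C.card : ℝ) := by
  simp [vc, Sp, pv]

/-- The decomposition of the deviation of a child. -/
lemma dv_child {j J' : ℕ} {s Ex C : Finset I} (hEx : Ex ⊆ s) {v₁ v₂ f : Pc D → ℝ}
    (hSp : ∀ α, Sp (pv S.z) C α = (1 / 2 ^ J' : ℝ) * Sp (pv S.z) (s \ Ex) α + v₁ α - v₂ α + f α) (q : D × D) :
    S.dv (j + J') C q = (1 / 2 ^ J' : ℝ) * S.dv j s q +
      (vp v₁ q + (- vp v₂ q) + vp f q + (-((1 / 2 ^ J' : ℝ) * S.gr Ex q))) := by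
  have h1 := hSp (Sum.inr (Sum.inl q))
  have h2 : S.gr C q = (1 / 2 ^ J' : ℝ) * (S.gr s q - S.gr Ex q) + vp v₁ q - vp v₂ q + vp f q := by
    rw [← S.gr_sdiff hEx q]
    exact h1
  unfold Sys.dv
  rw [h2, S.gl_add]
  by_cases hq : q.1 = q.2
  · simp only [hq, if_true]
    field_simp
    ring
  · simp only [hq, if_false]
    ring

/-- Bound of the heavy second moment. -/
lemma qf_gr_le {w : D × D → ℝ} (hw : ∀ q, 0 ≤ w q) (Ex : Finset I) {μ : ℝ}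
    (hμ : ∀ i, ∑ q, w q * (S.z i q.1 * S.z i q.2) ^ 2 ≤ μ) :
    qf w (S.gr Ex) ≤ (Ex.card : ℝ) ^ 2 * μ := by
  unfold qf Sys.gr
  have h1 : ∀ q : D × D, w q * (∑ i ∈ Ex, S.z i q.1 * S.z i q.2) ^ 2 ≤
      (Ex.card : ℝ) * ∑ i ∈ Ex, w q * (S.z i q.1 * S.z i q.2) ^ 2 := by
    intro q
    have h2 := sq_sum_le_card_mul_sum_sq (s := Ex) (f := fun i => S.z i q.1 * S.z i q.2)
    have h3 := mul_le_mul_of_nonneg_left h2 (hw q)
    rw [Finset.mul_sum] at h3 ⊢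
    rw [Finset.mul_sum] at h3
    refine h3.trans (le_of_eq ?_)
    refine Finset.sum_congr rfl (fun i _ => by ring)
  calc ∑ q, w q * (∑ i ∈ Ex, S.z i q.1 * S.z i q.2) ^ 2
      ≤ ∑ q, (Ex.card : ℝ) * ∑ i ∈ Ex, w q * (S.z i q.1 * S.z i q.2) ^ 2 :=
        Finset.sum_le_sum (fun q _ => h1 q)
    _ = (Ex.card : ℝ) * ∑ i ∈ Ex, ∑ q, w q * (S.z i q.1 * S.z i q.2) ^ 2 := by
        rw [← Finset.mul_sum, Finset.sum_comm]
    _ ≤ (Ex.card : ℝ) * ∑ _i ∈ Ex, μ := by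
        gcongr with i _
        exact hμ i
    _ = _ := by
        rw [Finset.sum_const, nsmul_eq_mul]
        ring

/-- Product of an atom on itself. -/
lemma sum_zz (i : I) : ∑ q : D × D, (S.z i q.1 * S.z i q.2) ^ 2 ≤ 1 := by
  rw [Fintype.sum_prod_type]
  simp only [mul_pow]
  have h2 : ∑ a, ∑ b, S.z i a ^ 2 * S.z i b ^ 2 = (∑ a, S.z i a ^ 2) ^ 2 := by
    rw [sq, Finset.sum_mul_sum]
  rw [h2]
  have h0 : 0 ≤ ∑ a, S.z i a ^ 2 := Finset.sum_nonneg (fun _ _ => sq_nonneg _)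
  have h1 := S.hz i
  nlinarith

lemma w1_atom {t j : ℕ} (hj : j ≤ jj S.y (t + 1)) (i : I) :
    ∑ q, S.w1 t j q * (S.z i q.1 * S.z i q.2) ^ 2 ≤ (1 / 2) ^ 240 := by
  have h1 : ∀ q : D × D, S.w1 t j q * (S.z i q.1 * S.z i q.2) ^ 2 ≤ (1 / 2) ^ 240 * (S.z i q.1 * S.z i q.2) ^ 2 := by
    intro q
    refine mul_le_mul_of_nonneg_right ?_ (sq_nonneg _)
    have h2 := S.w1_small hj q
    have h3 : (1 / ((JJ S.y t : ℝ) + 1)) ≤ 1 := by
      rw [div_le_one (by positivity)]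
      have : (0 : ℝ) ≤ JJ S.y t := by positivity
      linarith
    have h4 : (1 / ((JJ S.y t : ℝ) + 1)) ^ 2 ≤ 1 := pow_le_one₀ (by positivity) h3
    have h5 : (0 : ℝ) < (1 / 2) ^ 240 := by positivity
    nlinarith
  refine (Finset.sum_le_sum (fun q _ => h1 q)).trans ?_
  rw [← Finset.mul_sum]
  have h2 := sum_zz (S := S) i
  have h5 : (0 : ℝ) < (1 / 2) ^ 240 := by positivity
  nlinarith

lemma wc_atom (t c j : ℕ) (i : I) : ∑ q, S.wc t c j q * (S.z i q.1 * S.z i q.2) ^ 2 ≤ 2 := by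
  have h1 : ∀ q : D × D, S.wc t c j q * (S.z i q.1 * S.z i q.2) ^ 2 ≤
      (S.z i q.1 * S.z i q.2) ^ 2 + (if q.2 = q.1 then (S.z i q.1 * S.z i q.2) ^ 2 else 0) := by
    intro q
    unfold Sys.wc
    have hu1 := S.ux_le_one j q.1
    have hu2 := S.ux_le_one j q.2
    have hp1 := S.ux_pos j q.1
    have hp2 := S.ux_pos j q.2
    have hs : 0 ≤ (S.z i q.1 * S.z i q.2) ^ 2 := sq_nonneg _
    split_ifs <;> nlinarith
  refine (Finset.sum_le_sum (fun q _ => h1 q)).trans ?_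
  rw [Finset.sum_add_distrib]
  have h2 := sum_zz (S := S) i
  have h3 : ∑ q : D × D, (if q.2 = q.1 then (S.z i q.1 * S.z i q.2) ^ 2 else 0) ≤ 1 := by
    rw [Fintype.sum_prod_type]
    have e : ∀ a, ∑ b, (if (a, b).2 = (a, b).1 then (S.z i (a, b).1 * S.z i (a, b).2) ^ 2 else 0) =
        (S.z i a * S.z i a) ^ 2 := by
      intro a
      simp
    simp only [e]
    have h4 : ∀ a, (S.z i a * S.z i a) ^ 2 ≤ S.z i a ^ 2 := by
      intro a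
      have h5 : S.z i a ^ 2 ≤ ∑ b, S.z i b ^ 2 :=
        Finset.single_le_sum (f := fun b => S.z i b ^ 2) (fun _ _ => sq_nonneg _) (Finset.mem_univ a)
      have h6 := S.hz i
      have h7 := sq_nonneg (S.z i a)
      nlinarith
    exact (Finset.sum_le_sum (fun a _ => h4 a)).trans (S.hz i)
  linarith

section NoiseForms

variable {t j : ℕ} {u : ℝ} {x y : D → ℝ} {R : Finset I} {v : Pc D → ℝ}

lemma Noise.pre_all (hn : Noise S t j u x y R v) (hu : 0 ≤ u) (r : ℕ) :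
    ∑ a ∈ pre S.y (HH S.y t) r, vi v a ^ 2 ≤ 2 ^ 35 * (r : ℝ) + 2 ^ 34 * u := by
  rcases Nat.eq_zero_or_pos r with h0 | h0
  · subst h0
    rw [pre_zero]
    simp
    positivity
  set d := Fintype.card D with hd
  by_cases hclog : Nat.clog 2 r < d + 1
  · have h1 := hn.pr _ hclog
    have h2 : pre S.y (HH S.y t) r ⊆ pre S.y (HH S.y t) (2 ^ Nat.clog 2 r) :=
      pre_mono S.y _ (Nat.le_pow_clog (by norm_num) r)
    have h3 : ∑ a ∈ pre S.y (HH S.y t) r, vi v a ^ 2 ≤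
        ∑ a ∈ pre S.y (HH S.y t) (2 ^ Nat.clog 2 r), vi v a ^ 2 :=
      Finset.sum_le_sum_of_subset_of_nonneg h2 (fun _ _ _ => sq_nonneg _)
    refine h3.trans (h1.trans ?_)
    have h4 : (2 : ℝ) ^ Nat.clog 2 r ≤ 2 * r := by
      rcases Nat.lt_or_ge r 2 with h5 | h5
      · have : r = 1 := by omega
        subst this
        simp
      · have h6 := Nat.pow_pred_clog_lt_self (b := 2) (x := r) (by norm_num) (by omega)
        rw [Nat.pred_eq_sub_one] at h6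
        have h7 : 0 < Nat.clog 2 r := Nat.clog_pos (by norm_num) (by omega)
        have h8 : 2 ^ Nat.clog 2 r = 2 * 2 ^ (Nat.clog 2 r - 1) := by
          rw [← pow_succ']
          congr 1
          omega
        have h9 : 2 ^ Nat.clog 2 r ≤ 2 * r := by omega
        exact_mod_cast h9
    have h5 : (Nat.clog 2 r : ℝ) ≤ r := by
      have h6 : Nat.clog 2 r ≤ r := by
        have := Nat.lt_two_pow_self (n := Nat.clog 2 r)
        rcases Nat.lt_or_ge r 2 with h5 | h5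
        · have : r = 1 := by omega
          subst this
          simp
        · have h6 := Nat.pow_pred_clog_lt_self (b := 2) (x := r) (by norm_num) (by omega)
          rw [Nat.pred_eq_sub_one] at h6
          have h7 : 0 < Nat.clog 2 r := Nat.clog_pos (by norm_num) (by omega)
          have h8 := Nat.lt_two_pow_self (n := Nat.clog 2 r - 1)
          omega
      exact_mod_cast h6
    nlinarith
  · push Not at hclog
    have h1 := hn.pr d (by omega)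
    have h2c : (HH S.y t).card ≤ d := Finset.card_le_univ _
    have h2d : d < 2 ^ d := Nat.lt_two_pow_self
    have h2 : pre S.y (HH S.y t) r ⊆ pre S.y (HH S.y t) (2 ^ d) := by
      intro a ha
      have h3 := Finset.mem_filter.mp ha
      refine Finset.mem_filter.mpr ⟨h3.1, ?_⟩
      have h4 := rk_le_card S.y (HH S.y t) a
      omega
    have h3 : ∑ a ∈ pre S.y (HH S.y t) r, vi v a ^ 2 ≤
        ∑ a ∈ pre S.y (HH S.y t) (2 ^ d), vi v a ^ 2 :=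
      Finset.sum_le_sum_of_subset_of_nonneg h2 (fun _ _ _ => sq_nonneg _)
    refine h3.trans (h1.trans ?_)
    have h4 : (2 : ℝ) ^ d ≤ r := by
      have h5 : 2 ^ d < r := (Nat.lt_clog_iff_pow_lt (by norm_num)).mp (by omega)
      exact_mod_cast h5.le
    have h5 : (d : ℝ) ≤ 2 ^ d := by exact_mod_cast h2d.le
    nlinarith

lemma Noise.cl_all (hn : Noise S t j u x y R v) (hu : 0 ≤ u) (hj : j ≤ jj S.y (t + 1)) {c : ℕ}
    (hc : t ≤ c) :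
    qf (S.wc t c j) (vp v) ≤ 2 ^ 32 * (4 * ((WW S.y c).card : ℝ) + 8 * (u + ((c : ℝ) - t))) := by
  have hcast : ((c - t : ℕ) : ℝ) = (c : ℝ) - t := by
    rw [Nat.cast_sub hc]
  by_cases hδ : c - t < S.cc
  · have h1 := hn.cl (c - t) hδ
    have e : t + (c - t) = c := by omega
    rw [e, hcast] at h1
    refine h1.trans ?_
    have h2 := S.sum_wc_le hj (t := t) c
    refine mul_le_mul_of_nonneg_left ?_ (by positivity)
    linarith
  · have h2 : WW S.y c = ∅ := WW_empty S (by omega)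
    have h3 : ∀ q, S.wc t c j q = 0 := by
      intro q
      unfold Sys.wc
      simp [h2]
    have h4 : qf (S.wc t c j) (vp v) = 0 := by
      unfold qf
      simp [h3]
    rw [h4, h2]
    have h5 : (0 : ℝ) ≤ (c : ℝ) - t := by rw [← hcast]; positivity
    simp
    positivity

lemma Noise.w1_tiny (hn : Noise S t j u x y R v) (hu0 : 0 ≤ u) (hu : u ≤ 8 * ((JJ S.y t : ℝ) + 1))
    (hj : j ≤ jj S.y (t + 1)) : qf (S.w1 t j) (vp v) ≤ (1 / 2) ^ 200 := by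
  refine hn.w1.trans ?_
  have h1 := S.sum_w1_le (t := t) hj
  have hJ : (0 : ℝ) < (JJ S.y t : ℝ) + 1 := by positivity
  have h2 : (1 / ((JJ S.y t : ℝ) + 1)) ≤ 1 := by
    rw [div_le_one hJ]
    have : (0 : ℝ) ≤ JJ S.y t := by positivity
    linarith
  have h3 : M1 S t * u ≤ 8 * (1 / 2) ^ 240 := by
    unfold M1
    have h4 : (1 / ((JJ S.y t : ℝ) + 1)) ^ 2 * (1 / 2) ^ 240 * u ≤
        (1 / ((JJ S.y t : ℝ) + 1)) ^ 2 * (1 / 2) ^ 240 * (8 * ((JJ S.y t : ℝ) + 1)) := by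
      gcongr
    have h5 : (1 / ((JJ S.y t : ℝ) + 1)) ^ 2 * (1 / 2) ^ 240 * (8 * ((JJ S.y t : ℝ) + 1)) =
        (1 / ((JJ S.y t : ℝ) + 1)) * (8 * (1 / 2) ^ 240) := by
      field_simp
    rw [h5] at h4
    have h6 : (1 / ((JJ S.y t : ℝ) + 1)) * (8 * (1 / 2) ^ 240) ≤ 1 * (8 * (1 / 2) ^ 240) := by
      gcongr
    linarith
  have h4 : ∑ q, S.w1 t j q ≤ (1 / 2) ^ 240 := by
    have h5 : (1 / ((JJ S.y t : ℝ) + 1)) * (1 / 2) ^ 240 ≤ 1 * (1 / 2) ^ 240 := by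
      gcongr
    linarith
  calc (2 : ℝ) ^ 32 * (2 * ∑ q, S.w1 t j q + 4 * (M1 S t * u))
      ≤ 2 ^ 32 * (2 * (1 / 2) ^ 240 + 4 * (8 * (1 / 2) ^ 240)) := by gcongr
    _ ≤ (1 / 2) ^ 200 := by norm_num

/-- Chaining test for the diagonal statistic. -/
lemma Noise.ks_abs (hn : Noise S t j u x y R v) {Yh : ℝ} (hY : S.Yy (TF S.y t) R ≤ Yh) (hY0 : 0 ≤ Yh)
    (hR : ∀ i ∈ R, ∑ a ∈ TF S.y t, S.z i a ^ 2 ≤ (1 / 2) ^ 60 * Yh) :
    |∑ a ∈ TF S.y t, vp v (a, a)| ≤ (1 / 128) * Yh := by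
  have h1 := hn.ks
  have h2 : ∑ i ∈ R, (∑ a ∈ TF S.y t, S.z i a ^ 2) ^ 2 ≤ (1 / 2) ^ 60 * Yh * Yh := by
    have h3 : ∀ i ∈ R, (∑ a ∈ TF S.y t, S.z i a ^ 2) ^ 2 ≤
        ((1 / 2) ^ 60 * Yh) * ∑ a ∈ TF S.y t, S.z i a ^ 2 := by
      intro i hi
      have h4 : 0 ≤ ∑ a ∈ TF S.y t, S.z i a ^ 2 := Finset.sum_nonneg (fun _ _ => sq_nonneg _)
      rw [sq]
      exact mul_le_mul_of_nonneg_right (hR i hi) h4
    refine (Finset.sum_le_sum h3).trans ?_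
    rw [← Finset.mul_sum]
    exact mul_le_mul_of_nonneg_left hY (by positivity)
  have h3 : (∑ a ∈ TF S.y t, vp v (a, a)) ^ 2 ≤ ((1 / 128) * Yh) ^ 2 := by
    calc (∑ a ∈ TF S.y t, vp v (a, a)) ^ 2
        ≤ 2 ^ 45 * ((1 / 2) ^ 60 * Yh * Yh) := h1.trans (by gcongr)
      _ ≤ ((1 / 128) * Yh) ^ 2 := by
        have : 0 ≤ Yh * Yh := mul_nonneg hY0 hY0
        have h4 : (2 : ℝ) ^ 45 * (1 / 2) ^ 60 ≤ (1 / 128) ^ 2 := by norm_num
        nlinarith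
  exact abs_le_of_sq_le_sq h3 (by positivity)

/-- Chaining test for a quadratic statistic. -/
lemma Noise.kp_abs {Nx : ℝ} (hNx : 0 ≤ Nx) {g : D → ℝ}
    (hk : (∑ a ∈ TF S.y t, ∑ b ∈ TF S.y t, g a * g b * vp v (a, b)) ^ 2 ≤
      2 ^ 45 * ∑ i ∈ R, ((∑ a ∈ TF S.y t, g a * S.z i a) ^ 2) ^ 2)
    (hN : ∑ i ∈ R, (∑ a ∈ TF S.y t, g a * S.z i a) ^ 2 ≤ Nx ^ 2)
    (hR : ∀ i ∈ R, (∑ a ∈ TF S.y t, g a * S.z i a) ^ 2 ≤ (1 / 2) ^ 60 * Nx ^ 2) :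
    |∑ a ∈ TF S.y t, ∑ b ∈ TF S.y t, g a * g b * vp v (a, b)| ≤ (1 / 128) * Nx ^ 2 := by
  have h2 : ∑ i ∈ R, ((∑ a ∈ TF S.y t, g a * S.z i a) ^ 2) ^ 2 ≤ (1 / 2) ^ 60 * Nx ^ 2 * Nx ^ 2 := by
    have h3 : ∀ i ∈ R, ((∑ a ∈ TF S.y t, g a * S.z i a) ^ 2) ^ 2 ≤
        ((1 / 2) ^ 60 * Nx ^ 2) * (∑ a ∈ TF S.y t, g a * S.z i a) ^ 2 := by
      intro i hi
      rw [sq ((∑ a ∈ TF S.y t, g a * S.z i a) ^ 2)]
      exact mul_le_mul_of_nonneg_right (hR i hi) (sq_nonneg _)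
    refine (Finset.sum_le_sum h3).trans ?_
    rw [← Finset.mul_sum]
    exact mul_le_mul_of_nonneg_left hN (by positivity)
  have h3 : (∑ a ∈ TF S.y t, ∑ b ∈ TF S.y t, g a * g b * vp v (a, b)) ^ 2 ≤ ((1 / 128) * Nx ^ 2) ^ 2 := by
    calc (∑ a ∈ TF S.y t, ∑ b ∈ TF S.y t, g a * g b * vp v (a, b)) ^ 2
        ≤ 2 ^ 45 * ((1 / 2) ^ 60 * Nx ^ 2 * Nx ^ 2) := hk.trans (by gcongr)
      _ ≤ ((1 / 128) * Nx ^ 2) ^ 2 := by
        have h5 : 0 ≤ Nx ^ 2 * Nx ^ 2 := by positivity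
        have h4 : (2 : ℝ) ^ 45 * (1 / 2) ^ 60 ≤ (1 / 128) ^ 2 := by norm_num
        nlinarith
  exact abs_le_of_sq_le_sq h3 (by positivity)

end NoiseForms

end Inv

end

end Vale.Agent.Lib.P262S
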