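import Vale.Agent.Lib.P262S.Child

open Finset
open Vale.Agent.Lib.P262 (nm nm_nonneg nm_sq nm_add_le nm_mono nm_smul nm_le_of_sq sum_sq_le_of_nm)

namespace Vale.Agent.Lib.P262S

noncomputable section

variable {I D : Type} [Fintype I] [DecidableEq I] [Fintype D] [DecidableEq D]

variable {S : Sys I D}

/-- Quadratic statistic of a group. -/
lemma Nn_sq_eq (T : Finset D) (C : Finset I) (g : D → ℝ) :
    S.Nn T C g ^ 2 = ∑ a ∈ T, ∑ b ∈ T, g a * g b * vp (Sp (pv S.z) C) (a, b) := by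
  rw [S.Nn_sq]
  have e : ∀ i, (∑ a ∈ T, g a * S.z i a) ^ 2 = ∑ a ∈ T, ∑ b ∈ T, g a * g b * (S.z i a * S.z i b) := by
    intro i
    rw [sq, Finset.sum_mul_sum]
    refine Finset.sum_congr rfl (fun a _ => Finset.sum_congr rfl (fun b _ => by ring))
  simp only [e]
  rw [Finset.sum_comm]
  refine Finset.sum_congr rfl (fun a _ => ?_)
  rw [Finset.sum_comm]
  refine Finset.sum_congr rfl (fun b _ => ?_)
  rw [← Finset.mul_sum]
  rfl

/-- Mass of the fallen coordinates of a group. -/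
lemma Yy_eq (T : Finset D) (C : Finset I) :
    S.Yy T C = ∑ a ∈ T, vp (Sp (pv S.z) C) (a, a) := by
  unfold Sys.Yy
  rw [Finset.sum_comm]
  refine Finset.sum_congr rfl (fun a _ => ?_)
  show _ = ∑ i ∈ C, S.z i a * S.z i a
  exact Finset.sum_congr rfl (fun i _ => by ring)

lemma quad_split (T : Finset D) (g : D → ℝ) (M : ℝ) (A B v₁ v₂ f : D × D → ℝ)
    (h : ∀ q, A q = M * B q + v₁ q - v₂ q + f q) :
    ∑ a ∈ T, ∑ b ∈ T, g a * g b * A (a, b) =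
      M * (∑ a ∈ T, ∑ b ∈ T, g a * g b * B (a, b)) + (∑ a ∈ T, ∑ b ∈ T, g a * g b * v₁ (a, b)) -
        (∑ a ∈ T, ∑ b ∈ T, g a * g b * v₂ (a, b)) + (∑ a ∈ T, ∑ b ∈ T, g a * g b * f (a, b)) := by
  rw [Finset.mul_sum, ← Finset.sum_add_distrib, ← Finset.sum_sub_distrib, ← Finset.sum_add_distrib]
  refine Finset.sum_congr rfl (fun a _ => ?_)
  rw [Finset.mul_sum, ← Finset.sum_add_distrib, ← Finset.sum_sub_distrib, ← Finset.sum_add_distrib]
  refine Finset.sum_congr rfl (fun b _ => ?_)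
  rw [h (a, b)]
  ring

/-- The contraction of the seminorm on a child. -/
lemma Nn_child {t : ℕ} {s R C : Finset I} (hRs : R ⊆ s) {g : D → ℝ} {M : ℝ} (hM0 : 0 ≤ M) (hM1 : M ≤ 1 / 2)
    {v₁ v₂ f : Pc D → ℝ}
    (hSp : ∀ q, vp (Sp (pv S.z) C) q = M * vp (Sp (pv S.z) R) q + vp v₁ q - vp v₂ q + vp f q)
    (h1 : (∑ a ∈ TF S.y t, ∑ b ∈ TF S.y t, g a * g b * vp v₁ (a, b)) ^ 2 ≤
      2 ^ 45 * ∑ i ∈ R, ((∑ a ∈ TF S.y t, g a * S.z i a) ^ 2) ^ 2)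
    (h2 : (∑ a ∈ TF S.y t, ∑ b ∈ TF S.y t, g a * g b * vp v₂ (a, b)) ^ 2 ≤
      2 ^ 45 * ∑ i ∈ R, ((∑ a ∈ TF S.y t, g a * S.z i a) ^ 2) ^ 2)
    (hf : |∑ a ∈ TF S.y t, ∑ b ∈ TF S.y t, g a * g b * vp f (a, b)| ≤
      (1 / 2) ^ 10 * S.Nn (TF S.y t) s g ^ 2)
    (hR : ∀ i ∈ R, (∑ a ∈ TF S.y t, g a * S.z i a) ^ 2 ≤ (1 / 2) ^ 60 * S.Nn (TF S.y t) s g ^ 2) :
    S.Nn (TF S.y t) C g ≤ 4 / 5 * S.Nn (TF S.y t) s g := by
  set T := TF S.y t
  set N := S.Nn T s g with hN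
  have hN0 : 0 ≤ N := S.Nn_nonneg _ _ _
  have hNR : S.Nn T R g ≤ N := S.Nn_mono T hRs g
  have hNR2 : S.Nn T R g ^ 2 ≤ N ^ 2 := pow_le_pow_left₀ (S.Nn_nonneg _ _ _) hNR 2
  have hsumR : ∑ i ∈ R, (∑ a ∈ T, g a * S.z i a) ^ 2 ≤ N ^ 2 := by
    rw [← S.Nn_sq]
    exact hNR2
  have a1 := Noise.kp_abs (S := S) (t := t) (v := v₁) hN0 h1 hsumR hR
  have a2 := Noise.kp_abs (S := S) (t := t) (v := v₂) hN0 h2 hsumR hR
  have e := quad_split T g M _ _ _ _ _ hSp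
  rw [← Nn_sq_eq, ← Nn_sq_eq] at e
  have h3 := abs_le.mp a1
  have h4 := abs_le.mp a2
  have h5 := abs_le.mp hf
  have h6 : S.Nn T R g ^ 2 ≥ 0 := sq_nonneg _
  have h7 : M * S.Nn T R g ^ 2 ≤ 1 / 2 * N ^ 2 := by
    have : M * S.Nn T R g ^ 2 ≤ M * N ^ 2 := by gcongr
    have h8 : M * N ^ 2 ≤ 1 / 2 * N ^ 2 := by gcongr
    linarith
  have h8 : S.Nn T C g ^ 2 ≤ (4 / 5 * N) ^ 2 := by
    rw [e]
    have h9 : (0 : ℝ) ≤ N ^ 2 := sq_nonneg _
    have h10 : (1 / 2 : ℝ) ^ 10 = 1 / 1024 := by norm_num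
    rw [h10] at h5
    nlinarith [h3.2, h4.1, h5.2]
  have h9 := abs_le_of_sq_le_sq h8 (by positivity)
  exact (abs_le.mp h9).2

/-- **The child step**: invariants at the children level. -/
theorem child_main {t j J' : ℕ} {Yh : ℝ} {x y : D → ℝ} {s Ex C : Finset I} {u : ℝ} {v₁ v₂ f : Pc D → ℝ}
    (hI : Inv S t j s Yh) (hH : Heavy S t Yh x y s Ex) (hJ1 : 1 ≤ J') (hle : j + J' ≤ jj S.y (t + 1))
    (hC : C ⊆ s \ Ex) (hu0 : 0 ≤ u) (hu1 : u ≤ 8 * ((JJ S.y t : ℝ) + 1))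
    (hSp : ∀ α, Sp (pv S.z) C α = (1 / 2 ^ J' : ℝ) * Sp (pv S.z) (s \ Ex) α + v₁ α - v₂ α + f α)
    (hn1 : Noise S t (j + J') u x y (s \ Ex) v₁) (hn2 : Noise S t (j + J') u x y (s \ Ex) v₂)
    (hf : TiltOK S t (j + J') Yh x y s (s \ Ex) f) :
    InvC S t (j + J') C (7 / 10 * Yh) u ∧ S.Nn (TF S.y t) C x ≤ 4 / 5 * S.Nn (TF S.y t) s x ∧
      S.Nn (TF S.y t) C y ≤ 4 / 5 * S.Nn (TF S.y t) s y ∧ C.card < s.card := by
  set T := TF S.y t with hT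
  set R := s \ Ex with hR
  set M : ℝ := 1 / 2 ^ J' with hM
  have hRs : R ⊆ s := Finset.sdiff_subset
  have hY0 : 0 ≤ Yh := (S.Yy_nonneg _ _).trans hI.i3
  have hM0 : 0 < M := by rw [hM]; positivity
  have hM1 : M ≤ 1 / 2 := by
    rw [hM]
    have h1 : (2 : ℝ) ^ 1 ≤ 2 ^ J' := pow_le_pow_right₀ (by norm_num) hJ1
    have h2 : (2 : ℝ) ≤ 2 ^ J' := by simpa using h1
    exact one_div_le_one_div_of_le (by norm_num) h2
  have hExc : ((Ex.card : ℝ)) ^ 2 ≤ 2 ^ 124 := by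
    have h1 := hH.hcard
    have h2 : (0 : ℝ) ≤ Ex.card := by positivity
    calc (Ex.card : ℝ) ^ 2 ≤ (2 ^ 62) ^ 2 := pow_le_pow_left₀ h2 h1 2
      _ = 2 ^ 124 := by norm_num
  -- the decomposition
  set D' := S.dv j s with hD'
  set o : D × D → ℝ := fun q => vp v₁ q + (- vp v₂ q) + vp f q + (-(M * S.gr Ex q)) with ho
  have hdec : S.dv (j + J') C = fun q => M * D' q + o q := by
    funext q
    exact dv_child hH.hsub hSp q
  refine ⟨⟨?_, hle, ?_, ?_, ?_⟩, ?_, ?_, ?_⟩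
  · have := hI.lev1
    omega
  · -- first invariant
    rw [hdec]
    have h1 := qf_contr (S.w1_nonneg t (j + J')) M (1 / 2) (by norm_num) D' o
    have h2 := qf_mono_w (S.w1_up t j J') D'
    have h3 : M ^ 2 * (9 / 4) ^ J' ≤ 9 / 16 := by
      have e : M ^ 2 * (9 / 4) ^ J' = (9 / 16) ^ J' := by
        rw [hM, div_pow, one_pow, ← pow_mul, mul_comm J' 2, pow_mul, one_div, mul_comm, ← div_eq_mul_inv,
          ← div_pow]
        norm_num
      rw [e]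
      calc (9 / 16 : ℝ) ^ J' ≤ (9 / 16) ^ 1 := pow_le_pow_of_le_one (by norm_num) (by norm_num) hJ1
        _ = 9 / 16 := by norm_num
    have h4 := hI.i1
    have h5 : M ^ 2 * qf (S.w1 t (j + J')) D' ≤ 9 / 16 * (1 / 16) := by
      have h6 : 0 ≤ qf (S.w1 t j) D' := qf_nonneg (S.w1_nonneg t j) D'
      calc M ^ 2 * qf (S.w1 t (j + J')) D' ≤ M ^ 2 * ((9 / 4) ^ J' * qf (S.w1 t j) D') := by gcongr
        _ = (M ^ 2 * (9 / 4) ^ J') * qf (S.w1 t j) D' := by ring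
        _ ≤ 9 / 16 * qf (S.w1 t j) D' := by gcongr
        _ ≤ 9 / 16 * (1 / 16) := by gcongr
    have h7 := qf_four (S.w1_nonneg t (j + J')) (vp v₁) (fun q => - vp v₂ q) (vp f) (fun q => -(M * S.gr Ex q))
    have h8 := hn1.w1_tiny hu0 hu1 hle
    have h9 := hn2.w1_tiny hu0 hu1 hle
    have h10 := hf.w1
    rw [qf_neg] at h7
    rw [qf_neg, qf_smul] at h7
    have h11 : qf (S.w1 t (j + J')) (S.gr Ex) ≤ 2 ^ 124 * (1 / 2) ^ 240 := by
      refine (qf_gr_le (S.w1_nonneg t (j + J')) Ex (w1_atom hle)).trans ?_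
      gcongr
    have h12 : M ^ 2 ≤ 1 := by nlinarith
    have h13 : M ^ 2 * qf (S.w1 t (j + J')) (S.gr Ex) ≤ 2 ^ 124 * (1 / 2) ^ 240 := by
      have h14 : 0 ≤ qf (S.w1 t (j + J')) (S.gr Ex) := qf_nonneg (S.w1_nonneg t (j + J')) _
      nlinarith
    have h15 : (3 / 2 : ℝ) * (9 / 16 * (1 / 16)) + 3 * (4 * ((1 / 2) ^ 200 + (1 / 2) ^ 200 + (1 / 2) ^ 30 +
        2 ^ 124 * (1 / 2) ^ 240)) ≤ 1 / 16 := by norm_num
    have h16 : (1 + 1 / (1 / 2 : ℝ)) = 3 := by norm_num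
    rw [h16] at h1
    have h17 : qf (S.w1 t (j + J')) o ≤ 4 * ((1 / 2) ^ 200 + (1 / 2) ^ 200 + (1 / 2) ^ 30 +
        2 ^ 124 * (1 / 2) ^ 240) := by
      refine h7.trans ?_
      gcongr
    have h18 : (1 + 1 / 2 : ℝ) * M ^ 2 * qf (S.w1 t (j + J')) D' ≤ 3 / 2 * (9 / 16 * (1 / 16)) := by
      have : (1 + 1 / 2 : ℝ) * M ^ 2 * qf (S.w1 t (j + J')) D' = 3 / 2 * (M ^ 2 * qf (S.w1 t (j + J')) D') := by
        ring
      rw [this]
      gcongr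
    linarith
  · -- class invariants
    intro c hc
    rw [hdec]
    have hX1 := Xc_pos S hc
    have h1 := qf_contr (S.wc_nonneg t c (j + J')) M (1 / 3) (by norm_num) D' o
    have h2 := qf_mono_w (S.wc_up t c j J') D'
    have h3 : M ^ 2 * 2 ^ J' ≤ 1 / 2 := by
      have h4 : M * 2 ^ J' = 1 := by
        rw [hM]
        field_simp
      calc M ^ 2 * 2 ^ J' = M * (M * 2 ^ J') := by ring
        _ = M := by rw [h4, mul_one]
        _ ≤ 1 / 2 := hM1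
    have h4 := hI.i2 c hc
    have h5 : M ^ 2 * qf (S.wc t c (j + J')) D' ≤ 1 / 2 * (2 ^ 43 * Xc S t c) := by
      have h6 : 0 ≤ qf (S.wc t c j) D' := qf_nonneg (S.wc_nonneg t c j) D'
      calc M ^ 2 * qf (S.wc t c (j + J')) D' ≤ M ^ 2 * (2 ^ J' * qf (S.wc t c j) D') := by gcongr
        _ = (M ^ 2 * 2 ^ J') * qf (S.wc t c j) D' := by ring
        _ ≤ 1 / 2 * qf (S.wc t c j) D' := by gcongr
        _ ≤ 1 / 2 * (2 ^ 43 * Xc S t c) := by gcongr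
    have h7 := qf_four (S.wc_nonneg t c (j + J')) (vp v₁) (fun q => - vp v₂ q) (vp f) (fun q => -(M * S.gr Ex q))
    have h8 := hn1.cl_all hu0 hle hc
    have h9 := hn2.cl_all hu0 hle hc
    have h10 := hf.cl c hc
    rw [qf_neg] at h7
    rw [qf_neg, qf_smul] at h7
    have h11 : qf (S.wc t c (j + J')) (S.gr Ex) ≤ 2 ^ 124 * 2 := by
      refine (qf_gr_le (S.wc_nonneg t c (j + J')) Ex (wc_atom t c (j + J'))).trans ?_
      gcongr
    have h12 : M ^ 2 ≤ 1 / 4 := by nlinarith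
    have h13 : M ^ 2 * qf (S.wc t c (j + J')) (S.gr Ex) ≤ 2 ^ 123 := by
      have h14 : 0 ≤ qf (S.wc t c (j + J')) (S.gr Ex) := qf_nonneg (S.wc_nonneg t c (j + J')) _
      have h15 : M ^ 2 * qf (S.wc t c (j + J')) (S.gr Ex) ≤ 1 / 4 * (2 ^ 124 * 2) := by
        gcongr
      refine h15.trans (by norm_num)
    have h16 : (1 + 1 / (1 / 3 : ℝ)) = 4 := by norm_num
    rw [h16] at h1
    have h18 : (1 + 1 / 3 : ℝ) * M ^ 2 * qf (S.wc t c (j + J')) D' ≤ 4 / 3 * (1 / 2 * (2 ^ 43 * Xc S t c)) := by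
      have : (1 + 1 / 3 : ℝ) * M ^ 2 * qf (S.wc t c (j + J')) D' = 4 / 3 * (M ^ 2 * qf (S.wc t c (j + J')) D') := by
        ring
      rw [this]
      gcongr
    have hn : (0 : ℝ) ≤ (WW S.y c).card := by positivity
    have hδ : (0 : ℝ) ≤ (c : ℝ) - t := by
      have : (t : ℝ) ≤ c := by exact_mod_cast hc
      linarith
    have hXX : (0 : ℝ) ≤ 2 ^ 43 * Xc S t c := by positivity
    norm_num at h8 h9 h10 ⊢
    norm_num at h1 h7 h18 h13
    nlinarith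
  · -- mass of the fallen coordinates
    have e2 : S.Yy T C = M * S.Yy T R +
        ∑ a ∈ T, vp v₁ (a, a) - ∑ a ∈ T, vp v₂ (a, a) + ∑ a ∈ T, vp f (a, a) := by
      rw [Yy_eq, Yy_eq, Finset.mul_sum, ← Finset.sum_add_distrib, ← Finset.sum_sub_distrib, ← Finset.sum_add_distrib]
      exact Finset.sum_congr rfl (fun a _ => hSp (Sum.inr (Sum.inl (a, a))))
    rw [e2]
    have hYR : S.Yy T R ≤ Yh := (S.Yy_mono T hRs).trans hI.i3
    have a1 := hn1.ks_abs hYR hY0 hH.hY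
    have a2 := hn2.ks_abs hYR hY0 hH.hY
    have a3 := hf.ks
    have h1 := abs_le.mp a1
    have h2 := abs_le.mp a2
    have h3 := abs_le.mp a3
    have h4 : M * S.Yy T R ≤ 1 / 2 * Yh := by
      have h5 := S.Yy_nonneg T R
      calc M * S.Yy T R ≤ 1 / 2 * S.Yy T R := by gcongr
        _ ≤ 1 / 2 * Yh := by gcongr
    have h10 : (1 / 2 : ℝ) ^ 10 = 1 / 1024 := by norm_num
    rw [h10] at h3
    nlinarith [h1.2, h2.1, h3.2]
  · refine Nn_child hRs hM0.le hM1 (fun q => hSp (Sum.inr (Sum.inl q))) hn1.kpx hn2.kpx hf.kpx hH.hx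
  · refine Nn_child hRs hM0.le hM1 (fun q => hSp (Sum.inr (Sum.inl q))) hn1.kpy hn2.kpy hf.kpy hH.hy
  · -- termination
    have e1 := hSp (Sum.inr (Sum.inr ()))
    have e2 : (C.card : ℝ) = M * (R.card : ℝ) + vc v₁ - vc v₂ + vc f := by
      rw [← vc_Sp (S := S), ← vc_Sp (S := S)]
      exact e1
    have hRc : (2 : ℝ) ^ 62 ≤ R.card := by
      have h1 : (R.card : ℝ) + Ex.card = s.card := by
        have := Finset.card_sdiff_add_card_eq_card hH.hsub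
        exact_mod_cast this
      have h2 := hH.hs
      have h3 := hH.hcard
      have h4 : (2 : ℝ) ^ 63 = 2 ^ 62 + 2 ^ 62 := by norm_num
      linarith
    have hcv : ∀ v : Pc D → ℝ, vc v ^ 2 ≤ 2 ^ 45 * (R.card : ℝ) → |vc v| ≤ (1 / 256) * (R.card : ℝ) := by
      intro v hv
      refine abs_le_of_sq_le_sq ?_ (by positivity)
      have h2 : (0 : ℝ) ≤ R.card := by positivity
      have h3 : (2 : ℝ) ^ 45 * (R.card : ℝ) ≤ ((1 / 256) * (R.card : ℝ)) ^ 2 := by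
        have h4 : ((1 / 256) * (R.card : ℝ)) ^ 2 = (1 / 2 ^ 16) * (R.card : ℝ) * R.card := by ring
        rw [h4]
        have h5 : (2 : ℝ) ^ 45 ≤ (1 / 2 ^ 16) * (R.card : ℝ) := by
          have h6 : (1 / 2 ^ 16 : ℝ) * 2 ^ 62 ≤ (1 / 2 ^ 16) * (R.card : ℝ) := by gcongr
          refine le_trans ?_ h6
          norm_num
        exact mul_le_mul_of_nonneg_right h5 h2
      linarith
    have a1 := abs_le.mp (hcv v₁ hn1.kc)
    have a2 := abs_le.mp (hcv v₂ hn2.kc)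
    have a3 := abs_le.mp hf.kc
    have h1 : (0 : ℝ) < R.card := lt_of_lt_of_le (by norm_num) hRc
    have h2 : M * (R.card : ℝ) ≤ 1 / 2 * (R.card : ℝ) := by gcongr
    have h10 : (1 / 2 : ℝ) ^ 10 = 1 / 1024 := by norm_num
    rw [h10] at a3
    have h3 : (C.card : ℝ) < R.card := by
      rw [e2]
      nlinarith [a1.2, a2.1, a3.2]
    have h4 : C.card < R.card := by exact_mod_cast h3
    exact lt_of_lt_of_le h4 (Finset.card_le_card hRs)

end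

end Vale.Agent.Lib.P262S
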