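import Mathlib

open Finset

namespace Vale.Agent.Lib.P262S

noncomputable section

variable {D : Type} [Fintype D] [DecidableEq D]

/-- The margin constant. -/
def L0 : ℕ := 1024

/-- Extra margin depending on the stage length. -/
def Dl (J : ℕ) : ℕ := 2 * Nat.clog 2 (J + 1)

lemma Dl_mono {J J' : ℕ} (h : J ≤ J') : Dl J ≤ Dl J' := by
  unfold Dl
  have := Nat.clog_mono_right 2 (by omega : J + 1 ≤ J' + 1)
  omega

lemma pow_Dl (J : ℕ) : ((J : ℝ) + 1) ^ 2 ≤ 2 ^ Dl J := by
  unfold Dl
  have h1 : J + 1 ≤ 2 ^ Nat.clog 2 (J + 1) := Nat.le_pow_clog (by norm_num) _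
  have h2 : ((J : ℝ) + 1) ≤ 2 ^ Nat.clog 2 (J + 1) := by exact_mod_cast h1
  rw [pow_mul', ]
  exact pow_le_pow_left₀ (by positivity) h2 2

lemma Dl_le (J : ℕ) : 2 * Dl J ≤ J + 48 := by
  unfold Dl
  set k := Nat.clog 2 (J + 1) with hk
  have h4 : ∀ k : ℕ, 4 * k ≤ 2 ^ (k - 1) + 48 := by
    intro k
    induction k with
    | zero => simp
    | succ k ih =>
      rcases Nat.eq_zero_or_pos k with h | h
      · subst h
        norm_num
      · obtain ⟨q, rfl⟩ : ∃ q, k = q + 1 := ⟨k - 1, by omega⟩
        simp only [Nat.add_sub_cancel] at ih ⊢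
        rw [pow_succ]
        have h5 : 4 * (q + 1) ≤ 2 ^ q + 48 := ih
        by_cases hq : q ≤ 5
        · interval_cases q <;> norm_num
        · have h6 : 4 ≤ 2 ^ q := by
            calc 4 = 2 ^ 2 := by norm_num
              _ ≤ 2 ^ q := Nat.pow_le_pow_right (by norm_num) (by omega)
          omega
  have h3 := h4 k
  rcases Nat.eq_zero_or_pos k with h0 | h0
  · rw [h0]
    omega
  · have h5 : 2 ^ (k - 1) ≤ J := by
      have h6 : 2 ^ (k - 1) < J + 1 := by
        have := Nat.pow_pred_clog_lt_self (b := 2) (x := J + 1) (by norm_num) (by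
          have : 2 ≤ J + 1 := by
            by_contra hh
            have : J + 1 = 1 := by omega
            rw [hk, this] at h0
            simp at h0
          omega)
        simpa [hk] using this
      omega
    omega

/-- End of the margin of a stage of length `J` started at `j`. -/
def e3 (j J : ℕ) : ℕ := j + J + Dl J

lemma e3_mono {j J J' : ℕ} (h : J ≤ J') : e3 j J + (J' - J) ≤ e3 j J' := by
  unfold e3
  have := Dl_mono h
  omega

variable (y : D → ℕ)

/-- The surviving set for a stage length. -/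
def HJ (H : Finset D) (j J : ℕ) : Finset D := H.filter (fun a => e3 j J < y a)

/-- The rank inside a set. -/
def rk (H : Finset D) (a : D) : ℕ := (H.filter (fun b => y b ≤ y a)).card

/-- The margin condition. -/
def Good (H : Finset D) (j J : ℕ) : Prop :=
  ∀ a ∈ HJ y H j J, e3 j J + L0 * rk y (HJ y H j J) a ≤ y a

/-- The leftover length. -/
def LP (P : Finset D) (j : ℕ) : ℕ := P.sup (fun a => y a - j)

lemma le_LP {P : Finset D} {j : ℕ} {a : D} (ha : a ∈ P) : y a - j ≤ LP y P j :=
  Finset.le_sup (f := fun a => y a - j) ha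

lemma exists_good (H P : Finset D) (j : ℕ) : ∃ J, max 1 (LP y P j) ≤ J ∧ Good y H j J := by
  set Y := H.sup y with hY
  refine ⟨max (max 1 (LP y P j)) Y, le_max_left _ _, ?_⟩
  intro a ha
  have h1 := (Finset.mem_filter.mp ha)
  have h2 : y a ≤ Y := Finset.le_sup (f := y) h1.1
  have h3 : Y ≤ max (max 1 (LP y P j)) Y := le_max_right _ _
  have h4 := h1.2
  unfold e3 at h4
  omega

open Classical in
/-- The stage length. -/
def Jn (H P : Finset D) (j : ℕ) : ℕ := Nat.find (exists_good y H P j)

lemma Jn_spec (H P : Finset D) (j : ℕ) :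
    max 1 (LP y P j) ≤ Jn y H P j ∧ Good y H j (Jn y H P j) := by
  classical
  exact Nat.find_spec (exists_good y H P j)

lemma Jn_min (H P : Finset D) (j J : ℕ) (h1 : max 1 (LP y P j) ≤ J) (h2 : J < Jn y H P j) :
    ¬ Good y H j J := by
  classical
  intro h3
  exact Nat.find_min (exists_good y H P j) h2 ⟨h1, h3⟩

/-- Coordinates fallen at stage length `J`. -/
def ff (H : Finset D) (j J : ℕ) : ℕ := (H \ HJ y H j J).card

lemma HJ_anti (H : Finset D) (j : ℕ) {J J' : ℕ} (h : J ≤ J') : HJ y H j J' ⊆ HJ y H j J := by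
  intro a ha
  have h1 := Finset.mem_filter.mp ha
  have h2 := e3_mono (j := j) h
  refine Finset.mem_filter.mpr ⟨h1.1, ?_⟩
  omega

lemma ff_diff (H : Finset D) (j : ℕ) {J J' : ℕ} (h : J ≤ J') :
    (HJ y H j J \ HJ y H j J').card = ff y H j J' - ff y H j J ∧ ff y H j J ≤ ff y H j J' := by
  have h1 := HJ_anti y H j h
  have h2 : (HJ y H j J).card + (H \ HJ y H j J).card = H.card := by
    rw [add_comm]
    exact Finset.card_sdiff_add_card_eq_card (Finset.filter_subset _ _)
  have h3 : (HJ y H j J').card + (H \ HJ y H j J').card = H.card := by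
    rw [add_comm]
    exact Finset.card_sdiff_add_card_eq_card (Finset.filter_subset _ _)
  have h4 : (HJ y H j J \ HJ y H j J').card + (HJ y H j J').card = (HJ y H j J).card :=
    Finset.card_sdiff_add_card_eq_card h1
  unfold ff
  omega

/-- The charging lemma for a stage length. -/
lemma charge_aux (H : Finset D) (j J₀ J₁ : ℕ) (hgood : Good y H j J₁)
    (hmin : ∀ J, J₀ ≤ J → J < J₁ → ¬ Good y H j J) :
    ∀ (m J : ℕ), J₁ - J = m → J₀ ≤ J → J ≤ J₁ →
      J₁ - J ≤ (L0 + 1) * (ff y H j J₁ - ff y H j J) := by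
  intro m
  induction m using Nat.strong_induction_on with
  | _ m ih =>
    intro J hm hJ1 hJ2
    rcases eq_or_lt_of_le hJ2 with hEq | hlt
    · rw [hEq]
      simp
    have hbad := hmin J hJ1 hlt
    unfold Good at hbad
    push Not at hbad
    obtain ⟨a, ha, hay⟩ := hbad
    have hcount : ∀ J' : ℕ, J ≤ J' → (∀ b ∈ HJ y H j J, y b ≤ y a → b ∉ HJ y H j J') →
        rk y (HJ y H j J) a ≤ ff y H j J' - ff y H j J := by
      intro J' hJ' hall
      rw [← (ff_diff y H j hJ').1]
      refine Finset.card_le_card (fun b hb => ?_)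
      have hb1 := Finset.mem_filter.mp hb
      exact Finset.mem_sdiff.mpr ⟨hb1.1, hall b hb1.1 hb1.2⟩
    by_cases haJ₁ : a ∈ HJ y H j J₁
    · -- `a` survives until the end
      have h1 := hgood a haJ₁
      have h2 : rk y (HJ y H j J) a ≤ rk y (HJ y H j J₁) a + (ff y H j J₁ - ff y H j J) := by
        rw [← (ff_diff y H j hJ2).1]
        have hsub : (HJ y H j J).filter (fun b => y b ≤ y a) ⊆
            (HJ y H j J₁).filter (fun b => y b ≤ y a) ∪ (HJ y H j J \ HJ y H j J₁) := by
          intro b hb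
          have hb1 := Finset.mem_filter.mp hb
          by_cases hb2 : b ∈ HJ y H j J₁
          · exact Finset.mem_union_left _ (Finset.mem_filter.mpr ⟨hb2, hb1.2⟩)
          · exact Finset.mem_union_right _ (Finset.mem_sdiff.mpr ⟨hb1.1, hb2⟩)
        exact (Finset.card_le_card hsub).trans (Finset.card_union_le _ _)
      have h3 := e3_mono (j := j) hJ2
      have h4 : L0 * rk y (HJ y H j J) a ≤ L0 * rk y (HJ y H j J₁) a + L0 * (ff y H j J₁ - ff y H j J) := by
        rw [← Nat.mul_add]
        exact Nat.mul_le_mul_left _ h2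
      have h5 : J₁ - J ≤ L0 * (ff y H j J₁ - ff y H j J) := by omega
      calc J₁ - J ≤ L0 * (ff y H j J₁ - ff y H j J) := h5
        _ ≤ (L0 + 1) * (ff y H j J₁ - ff y H j J) := Nat.mul_le_mul_right _ (by omega)
    · -- `a` falls before the end: jump
      have hex : ∃ J', J < J' ∧ y a ≤ e3 j J' := by
        refine ⟨J₁, hlt, ?_⟩
        by_contra hc
        push Not at hc
        exact haJ₁ (Finset.mem_filter.mpr ⟨(Finset.mem_filter.mp ha).1, hc⟩)
      classical
      obtain ⟨J', hJ'1, hJ'2, hJ'3, hJ'4⟩ : ∃ J', J < J' ∧ y a ≤ e3 j J' ∧ J' ≤ J₁ ∧ e3 j (J' - 1) < y a := by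
        refine ⟨Nat.find hex, (Nat.find_spec hex).1, (Nat.find_spec hex).2, ?_, ?_⟩
        · refine Nat.find_min' hex ⟨hlt, ?_⟩
          by_contra hc
          push Not at hc
          exact haJ₁ (Finset.mem_filter.mpr ⟨(Finset.mem_filter.mp ha).1, hc⟩)
        · have h0 := (Nat.find_spec hex).1
          have hlt2 : Nat.find hex - 1 < Nat.find hex := by omega
          have h1 := Nat.find_min hex hlt2
          by_cases h2 : J < Nat.find hex - 1
          · by_contra hc
            push Not at hc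
            exact h1 ⟨h2, hc⟩
          · have h3 : Nat.find hex - 1 = J := by omega
            rw [h3]
            exact (Finset.mem_filter.mp ha).2
      have hc2 := hcount J' hJ'1.le (by
        intro b hb hby hb2
        have h7 := (Finset.mem_filter.mp hb2).2
        omega)
      have h8 := e3_mono (j := j) (show J ≤ J' - 1 by omega)
      have h9 : J' - J ≤ L0 * (ff y H j J' - ff y H j J) := by
        have h10 : L0 * rk y (HJ y H j J) a ≤ L0 * (ff y H j J' - ff y H j J) := Nat.mul_le_mul_left _ hc2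
        omega
      have hIH := ih (J₁ - J') (by omega) J' rfl (by omega) hJ'3
      have h11 := (ff_diff y H j hJ'1.le).2
      have h12 := (ff_diff y H j hJ'3).2
      have h13 : (L0 + 1) * (ff y H j J₁ - ff y H j J) =
          (L0 + 1) * (ff y H j J₁ - ff y H j J') + (L0 + 1) * (ff y H j J' - ff y H j J) := by
        rw [← Nat.mul_add]
        congr 1
        omega
      have h14 : L0 * (ff y H j J' - ff y H j J) ≤ (L0 + 1) * (ff y H j J' - ff y H j J) :=
        Nat.mul_le_mul_right _ (by omega)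
      omega

lemma Jn_bound (H P : Finset D) (j : ℕ) :
    Jn y H P j ≤ max 1 (LP y P j) + (L0 + 1) * ff y H j (Jn y H P j) := by
  have h1 := (Jn_spec y H P j).1
  have h2 := charge_aux y H j (max 1 (LP y P j)) (Jn y H P j) (Jn_spec y H P j).2
    (fun J hJ hlt => Jn_min y H P j J hJ hlt) _ (max 1 (LP y P j)) rfl le_rfl h1
  have h3 : (L0 + 1) * (ff y H j (Jn y H P j) - ff y H j (max 1 (LP y P j))) ≤
      (L0 + 1) * ff y H j (Jn y H P j) := Nat.mul_le_mul_left _ (Nat.sub_le _ _)
  omega

/-- The state at the start of a stage. -/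
structure St (D : Type) where
  j : ℕ
  H : Finset D
  P : Finset D

/-- One stage. -/
def nx (S : St D) : St D :=
  let J := Jn y S.H S.P S.j
  ⟨S.j + J, HJ y S.H S.j J, S.H.filter (fun a => S.j + J < y a ∧ y a ≤ e3 S.j J)⟩

/-- The state sequence. -/
def st : ℕ → St D
  | 0 => ⟨0, univ.filter (fun a => 0 < y a), ∅⟩
  | t + 1 => nx y (st t)

/-- Start level of a stage. -/
def jj (t : ℕ) : ℕ := (st y t).j
/-- Length of a stage. -/
def JJ (t : ℕ) : ℕ := Jn y (st y t).H (st y t).P (st y t).j
/-- High coordinates of stage `t`. -/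
def HH (t : ℕ) : Finset D := (st y (t + 1)).H
/-- Leftover coordinates of stage `t`. -/
def PP (t : ℕ) : Finset D := (st y (t + 1)).P
/-- Coordinates that fall at the end of stage `t`. -/
def WW (t : ℕ) : Finset D := (st y t).P ∪ (st y t).H.filter (fun a => y a ≤ jj y (t + 1))
/-- New entrants of stage `t`. -/
def Lv (t : ℕ) : Finset D := (st y t).H \ HH y t
/-- Transition coordinates of stage `t`. -/
def NN (t : ℕ) : Finset D := WW y t ∪ PP y t
/-- Fallen coordinates at the start of stage `t`. -/
def TF : ℕ → Finset D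
  | 0 => univ.filter (fun a => y a = 0)
  | t + 1 => TF t ∪ WW y t

lemma jj_zero : jj y 0 = 0 := rfl
lemma jj_succ (t : ℕ) : jj y (t + 1) = jj y t + JJ y t := rfl
lemma JJ_pos (t : ℕ) : 1 ≤ JJ y t := by
  have := (Jn_spec y (st y t).H (st y t).P (st y t).j).1
  have h2 := le_max_left 1 (LP y (st y t).P (st y t).j)
  exact h2.trans this

lemma jj_ge (t : ℕ) : t ≤ jj y t := by
  induction t with
  | zero => exact Nat.zero_le _
  | succ t ih =>
    rw [jj_succ]
    have := JJ_pos y t
    omega

lemma mem_HH {t : ℕ} {a : D} : a ∈ HH y t ↔ a ∈ (st y t).H ∧ e3 (jj y t) (JJ y t) < y a := by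
  simp [HH, st, nx, HJ, jj, JJ]

lemma mem_PP {t : ℕ} {a : D} : a ∈ PP y t ↔
    a ∈ (st y t).H ∧ jj y (t + 1) < y a ∧ y a ≤ e3 (jj y t) (JJ y t) := by
  simp [PP, st, nx, jj, JJ]

lemma mem_WW {t : ℕ} {a : D} : a ∈ WW y t ↔
    a ∈ (st y t).P ∨ (a ∈ (st y t).H ∧ y a ≤ jj y (t + 1)) := by
  simp [WW]

lemma st_succ_P (t : ℕ) : (st y (t + 1)).P = PP y t := rfl
lemma st_succ_H (t : ℕ) : (st y (t + 1)).H = HH y t := rfl

/-- The `H` and `P` parts at the start of a stage are disjoint. -/
lemma st_disj (t : ℕ) : Disjoint (st y t).H (st y t).P := by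
  induction t with
  | zero => simp [st]
  | succ t _ =>
    rw [st_succ_H, st_succ_P, Finset.disjoint_left]
    intro a h1 h2
    have h3 := (mem_HH y).mp h1
    have h4 := (mem_PP y).mp h2
    omega

lemma e3_ge (j J : ℕ) : j + J ≤ e3 j J := by
  unfold e3
  omega

lemma y_HH {t : ℕ} {a : D} (h : a ∈ HH y t) : jj y (t + 1) < y a := by
  have h1 := ((mem_HH y).mp h).2
  have h2 := e3_ge (jj y t) (JJ y t)
  rw [jj_succ]
  omega

/-- The margin at the end of a stage. -/
lemma margin {t : ℕ} {a : D} (h : a ∈ HH y t) :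
    jj y (t + 1) + Dl (JJ y t) + L0 * rk y (HH y t) a ≤ y a := by
  have h1 := (Jn_spec y (st y t).H (st y t).P (st y t).j).2 a
  have h2 : a ∈ HJ y (st y t).H (st y t).j (Jn y (st y t).H (st y t).P (st y t).j) := h
  have h3 := h1 h2
  have h4 : HJ y (st y t).H (st y t).j (Jn y (st y t).H (st y t).P (st y t).j) = HH y t := rfl
  rw [h4] at h3
  have h5 : e3 (st y t).j (Jn y (st y t).H (st y t).P (st y t).j) = jj y (t + 1) + Dl (JJ y t) := rfl
  rw [h5] at h3
  exact h3

/-- Falling coordinates have no energy left at the end of the stage. -/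
lemma y_WW {t : ℕ} {a : D} (h : a ∈ WW y t) : y a ≤ jj y (t + 1) := by
  rcases (mem_WW y).mp h with h1 | h1
  · have h2 := le_LP y (j := (st y t).j) h1
    have h3 := (Jn_spec y (st y t).H (st y t).P (st y t).j).1
    have h4 := le_max_right 1 (LP y (st y t).P (st y t).j)
    have : y a - (st y t).j ≤ JJ y t := h2.trans (h4.trans h3)
    rw [jj_succ]
    have e : jj y t = (st y t).j := rfl
    omega
  · exact h1.2

lemma y_TF {t : ℕ} {a : D} (h : a ∈ TF y t) : y a ≤ jj y t := by
  induction t with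
  | zero =>
    simp only [TF, Finset.mem_filter, Finset.mem_univ, true_and] at h
    rw [h]
    exact Nat.zero_le _
  | succ t ih =>
    simp only [TF, Finset.mem_union] at h
    rcases h with h | h
    · have := ih h
      rw [jj_succ]
      omega
    · exact y_WW y h

/-- Every coordinate is fallen, in the `H` part or the `P` part at the start of a stage. -/
lemma st_cover (t : ℕ) (a : D) : a ∈ TF y t ∨ a ∈ (st y t).H ∨ a ∈ (st y t).P := by
  induction t with
  | zero =>
    by_cases h : y a = 0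
    · left
      simp [TF, h]
    · right; left
      simp [st]
      omega
  | succ t ih =>
    rcases ih with h | h | h
    · left
      simp only [TF, Finset.mem_union]
      exact Or.inl h
    · by_cases h1 : e3 (jj y t) (JJ y t) < y a
      · right; left
        rw [st_succ_H]
        exact (mem_HH y).mpr ⟨h, h1⟩
      · by_cases h2 : jj y (t + 1) < y a
        · right; right
          rw [st_succ_P]
          exact (mem_PP y).mpr ⟨h, h2, by omega⟩
        · left
          simp only [TF, Finset.mem_union]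
          exact Or.inr ((mem_WW y).mpr (Or.inr ⟨h, by omega⟩))
    · left
      simp only [TF, Finset.mem_union]
      exact Or.inr ((mem_WW y).mpr (Or.inl h))

/-- Fallen coordinates are not in the `H` or `P` part. -/
lemma TF_disj (t : ℕ) : Disjoint (TF y t) ((st y t).H ∪ (st y t).P) := by
  induction t with
  | zero =>
    rw [Finset.disjoint_left]
    intro a h1 h2
    simp only [TF, Finset.mem_filter, Finset.mem_univ, true_and] at h1
    simp only [st, Finset.mem_union, Finset.mem_filter, Finset.mem_univ, true_and, Finset.notMem_empty, or_false] at h2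
    omega
  | succ t ih =>
    rw [Finset.disjoint_left] at ih ⊢
    intro a h1 h2
    rw [st_succ_H, st_succ_P, Finset.mem_union] at h2
    have h3 : a ∈ (st y t).H := by
      rcases h2 with h | h
      · exact ((mem_HH y).mp h).1
      · exact ((mem_PP y).mp h).1
    simp only [TF, Finset.mem_union] at h1
    rcases h1 with h1 | h1
    · exact ih h1 (Finset.mem_union_left _ h3)
    · rcases (mem_WW y).mp h1 with h4 | h4
      · exact Finset.disjoint_left.mp (st_disj y t) h3 h4
      · rcases h2 with h | h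
        · have := y_HH y h
          omega
        · have := ((mem_PP y).mp h).2.1
          omega

/-! ### Structure of a stage -/

lemma mem_Lv {t : ℕ} {a : D} : a ∈ Lv y t ↔ a ∈ (st y t).H ∧ y a ≤ e3 (jj y t) (JJ y t) := by
  simp only [Lv, Finset.mem_sdiff, mem_HH]
  constructor
  · rintro ⟨h1, h2⟩
    refine ⟨h1, ?_⟩
    by_contra h3
    exact h2 ⟨h1, by omega⟩
  · rintro ⟨h1, h2⟩
    exact ⟨h1, fun h3 => by omega⟩

lemma HH_sub (t : ℕ) : HH y t ⊆ (st y t).H := fun _ h => ((mem_HH y).mp h).1

lemma HH_anti (t : ℕ) : HH y (t + 1) ⊆ HH y t := HH_sub y (t + 1)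

lemma HH_not_W {t : ℕ} {a : D} (h : a ∈ HH y t) : a ∉ WW y t := by
  intro h2
  have h3 := y_WW y h2
  have h4 := y_HH y h
  omega

lemma PP_sub_Lv (t : ℕ) : PP y t ⊆ Lv y t := by
  intro a h
  have h1 := (mem_PP y).mp h
  exact (mem_Lv y).mpr ⟨h1.1, h1.2.2⟩

lemma WW_PP_disj (t : ℕ) : Disjoint (WW y t) (PP y t) := by
  rw [Finset.disjoint_left]
  intro a h1 h2
  have h3 := y_WW y h1
  have h4 := ((mem_PP y).mp h2).2.1
  omega

/-- The transition set splits into the old leftover and the new entrants. -/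
lemma NN_eq (t : ℕ) : NN y t = (st y t).P ∪ Lv y t := by
  ext a
  simp only [NN, Finset.mem_union, mem_WW, mem_Lv, mem_PP]
  constructor
  · rintro ((h | h) | h)
    · exact Or.inl h
    · refine Or.inr ⟨h.1, ?_⟩
      have h2 := h.2
      have h3 := e3_ge (jj y t) (JJ y t)
      rw [jj_succ] at h2
      omega
    · exact Or.inr ⟨h.1, h.2.2⟩
  · rintro (h | h)
    · exact Or.inl (Or.inl h)
    · by_cases h2 : y a ≤ jj y (t + 1)
      · exact Or.inl (Or.inr ⟨h.1, h2⟩)
      · exact Or.inr ⟨h.1, by omega, h.2⟩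

lemma NN_succ (t : ℕ) : NN y (t + 1) = PP y t ∪ Lv y (t + 1) := by
  rw [NN_eq, st_succ_P]

lemma st_P_Lv_disj (t : ℕ) : Disjoint (st y t).P (Lv y t) := by
  rw [Finset.disjoint_left]
  intro a h1 h2
  exact Finset.disjoint_left.mp (st_disj y t) ((mem_Lv y).mp h2).1 h1

/-- The three parts cover everything. -/
lemma cover3 (t : ℕ) (a : D) : a ∈ TF y t ∨ a ∈ NN y t ∨ a ∈ HH y t := by
  rcases st_cover y t a with h | h | h
  · exact Or.inl h
  · by_cases h2 : a ∈ HH y t
    · exact Or.inr (Or.inr h2)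
    · refine Or.inr (Or.inl ?_)
      rw [NN_eq]
      exact Finset.mem_union_right _ (Finset.mem_sdiff.mpr ⟨h, h2⟩)
  · refine Or.inr (Or.inl ?_)
    rw [NN_eq]
    exact Finset.mem_union_left _ h

lemma TF_NN_disj (t : ℕ) : Disjoint (TF y t) (NN y t) := by
  rw [NN_eq]
  refine Finset.disjoint_of_subset_right ?_ (TF_disj y t)
  refine Finset.union_subset Finset.subset_union_right ?_
  exact (Finset.sdiff_subset).trans Finset.subset_union_left

lemma TF_HH_disj (t : ℕ) : Disjoint (TF y t) (HH y t) := by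
  refine Finset.disjoint_of_subset_right ?_ (TF_disj y t)
  exact (HH_sub y t).trans Finset.subset_union_left

lemma NN_HH_disj (t : ℕ) : Disjoint (NN y t) (HH y t) := by
  rw [NN_eq, Finset.disjoint_left]
  intro a h1 h2
  rcases Finset.mem_union.mp h1 with h | h
  · exact Finset.disjoint_left.mp (st_disj y t) (HH_sub y t h2) h
  · exact (Finset.mem_sdiff.mp h).2 h2

lemma WW_sub_NN (t : ℕ) : WW y t ⊆ NN y t := Finset.subset_union_left

lemma PP_sub_NN (t : ℕ) : PP y t ⊆ NN y t := Finset.subset_union_right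

lemma TF_WW_disj (t : ℕ) : Disjoint (TF y t) (WW y t) :=
  Finset.disjoint_of_subset_right (WW_sub_NN y t) (TF_NN_disj y t)

/-- The `H` part at the start of stage `t+1` loses `Lv (t+1)` to the next `H`. -/
lemma HH_split (t : ℕ) : HH y t = Lv y (t + 1) ∪ HH y (t + 1) := by
  have h1 : HH y (t + 1) ⊆ HH y t := HH_anti y t
  unfold Lv
  rw [st_succ_H, Finset.sdiff_union_of_subset h1]

lemma Lv_HH_disj (t : ℕ) : Disjoint (Lv y t) (HH y t) := Finset.sdiff_disjoint

/-! ### Ranks -/

/-- Rank prefixes. -/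
def pre (H : Finset D) (r : ℕ) : Finset D := H.filter (fun a => rk y H a ≤ r)

lemma rk_pos {H : Finset D} {a : D} (h : a ∈ H) : 1 ≤ rk y H a :=
  Finset.card_pos.mpr ⟨a, Finset.mem_filter.mpr ⟨h, le_rfl⟩⟩

lemma pre_card (H : Finset D) (r : ℕ) : (pre y H r).card ≤ r := by
  by_cases hne : (pre y H r).Nonempty
  · obtain ⟨a, ha, hmax⟩ := Finset.exists_max_image _ y hne
    have h1 := Finset.mem_filter.mp ha
    calc (pre y H r).card ≤ (H.filter (fun b => y b ≤ y a)).card := by
          refine Finset.card_le_card (fun b hb => ?_)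
          exact Finset.mem_filter.mpr ⟨(Finset.mem_filter.mp hb).1, hmax b hb⟩
      _ ≤ r := h1.2
  · rw [Finset.not_nonempty_iff_eq_empty] at hne
    rw [hne]
    simp

lemma pre_mono (H : Finset D) {r r' : ℕ} (h : r ≤ r') : pre y H r ⊆ pre y H r' := by
  intro a ha
  have h1 := Finset.mem_filter.mp ha
  exact Finset.mem_filter.mpr ⟨h1.1, h1.2.trans h⟩

lemma pre_zero (H : Finset D) : pre y H 0 = ∅ := by
  ext a
  simp only [pre, Finset.mem_filter, Finset.notMem_empty, iff_false, not_and]
  intro h1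
  have := rk_pos y h1
  omega

lemma rk_le_card (H : Finset D) (a : D) : rk y H a ≤ H.card :=
  Finset.card_le_card (Finset.filter_subset _ _)

lemma pre_card_eq (H : Finset D) : pre y H H.card = H := by
  ext a
  simp only [pre, Finset.mem_filter, and_iff_left_iff_imp]
  exact fun _ => rk_le_card y H a

/-- The shift of ranks when passing to the next stage. -/
lemma rk_shift {t : ℕ} {a : D} (h : a ∈ HH y (t + 1)) :
    rk y (HH y t) a = rk y (HH y (t + 1)) a + (Lv y (t + 1)).card := by
  have hsplit := HH_split y t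
  unfold rk
  rw [hsplit, Finset.filter_union, Finset.card_union_of_disjoint, add_comm]
  · congr 1
    have h3 : (Lv y (t + 1)).filter (fun b => y b ≤ y a) = Lv y (t + 1) := by
      refine Finset.filter_eq_self.mpr (fun b hb => ?_)
      have h1 := ((mem_Lv y).mp hb).2
      have h2 := ((mem_HH y).mp h).2
      omega
    rw [h3]
  · rw [Finset.disjoint_left]
    intro b hb1 hb2
    exact Finset.disjoint_left.mp (Lv_HH_disj y (t + 1)) (Finset.mem_filter.mp hb1).1 (Finset.mem_filter.mp hb2).1

lemma rk_Lv {t : ℕ} {a : D} (h : a ∈ Lv y (t + 1)) :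
    rk y (HH y t) a ≤ (Lv y (t + 1)).card := by
  refine Finset.card_le_card (fun b hb => ?_)
  have h1 := Finset.mem_filter.mp hb
  have h2 := ((mem_Lv y).mp h).2
  have h3 : b ∈ (st y (t + 1)).H := by
    rw [st_succ_H]
    exact h1.1
  exact (mem_Lv y).mpr ⟨h3, by omega⟩

/-- The prefixes of consecutive stages. -/
lemma pre_succ (t r : ℕ) :
    pre y (HH y t) (r + (Lv y (t + 1)).card) = Lv y (t + 1) ∪ pre y (HH y (t + 1)) r := by
  ext a
  simp only [pre, Finset.mem_union, Finset.mem_filter]
  constructor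
  · rintro ⟨h1, h2⟩
    rw [HH_split y t] at h1
    rcases Finset.mem_union.mp h1 with h | h
    · exact Or.inl h
    · refine Or.inr ⟨h, ?_⟩
      have := rk_shift y h
      omega
  · rintro (h | ⟨h1, h2⟩)
    · have h3 : a ∈ HH y t := by
        rw [HH_split y t]
        exact Finset.mem_union_left _ h
      refine ⟨h3, ?_⟩
      have := rk_Lv y h
      omega
    · have h3 : a ∈ HH y t := HH_anti y t h1
      refine ⟨h3, ?_⟩
      have := rk_shift y h1
      omega

lemma geom_aux (q : ℝ) (hq0 : 0 ≤ q) (hq : q ≤ 1 / 2) (n : ℕ) :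
    ∑ k ∈ Finset.range n, q ^ (k + 1) ≤ 2 * q - 2 * q ^ (n + 1) := by
  induction n with
  | zero => simp
  | succ n ih =>
    rw [Finset.sum_range_succ]
    have h1 : 0 ≤ q ^ (n + 1) := pow_nonneg hq0 _
    have h2 : 2 * q ^ (n + 1 + 1) ≤ q ^ (n + 1) := by
      rw [pow_succ q (n + 1)]
      nlinarith
    linarith

lemma sum_rank_aux (H : Finset D) (q : ℝ) (hq0 : 0 ≤ q) (hq : q ≤ 1 / 2) :
    ∑ a ∈ H, q ^ rk y H a ≤ ∑ k ∈ Finset.range H.card, q ^ (k + 1) := by
  induction hn : H.card using Nat.strong_induction_on generalizing H with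
  | _ n ih =>
    by_cases hne : H.Nonempty
    · obtain ⟨a, ha, hmax⟩ := Finset.exists_max_image _ y hne
      have hc : (H.erase a).card + 1 = n := by
        rw [Finset.card_erase_of_mem ha, ← hn]
        have := Finset.card_pos.mpr hne
        omega
      have hrka : rk y H a = n := by
        rw [← hn]
        unfold rk
        congr 1
        exact Finset.filter_eq_self.mpr hmax
      have hIH := ih (H.erase a).card (by omega) (H.erase a) rfl
      have hmono : ∀ b ∈ H.erase a, q ^ rk y H b ≤ q ^ rk y (H.erase a) b := by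
        intro b _
        refine pow_le_pow_of_le_one hq0 (by linarith) ?_
        refine Finset.card_le_card (fun c hc => ?_)
        have h1 := Finset.mem_filter.mp hc
        exact Finset.mem_filter.mpr ⟨Finset.mem_of_mem_erase h1.1, h1.2⟩
      rw [← Finset.add_sum_erase H _ ha, hrka, ← hc, Finset.sum_range_succ, add_comm]
      have h2 := (Finset.sum_le_sum hmono).trans hIH
      have h3 : q ^ ((H.erase a).card + 1) = q ^ rk y H a := by rw [hc, hrka]
      rw [hc] 
      linarith
    · rw [Finset.not_nonempty_iff_eq_empty] at hne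
      subst hne
      simp at hn
      subst hn
      simp

lemma sum_geom_rank (H : Finset D) (q : ℝ) (hq0 : 0 ≤ q) (hq : q ≤ 1 / 2) :
    ∑ a ∈ H, q ^ rk y H a ≤ 2 * q := by
  have h1 := sum_rank_aux y H q hq0 hq
  have h2 := geom_aux q hq0 hq H.card
  have h3 : 0 ≤ q ^ (H.card + 1) := pow_nonneg hq0 _
  linarith

/-! ### Charges -/

lemma st_H_card (t : ℕ) : (HH y t).card + (Lv y t).card = (st y t).H.card := by
  rw [add_comm]
  exact Finset.card_sdiff_add_card_eq_card (HH_sub y t)

lemma sum_Lv_le (n : ℕ) : ∑ t ∈ Finset.range n, (Lv y t).card ≤ Fintype.card D := by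
  have h : ∀ n, ∑ t ∈ Finset.range n, (Lv y t).card + (st y n).H.card = (st y 0).H.card := by
    intro n
    induction n with
    | zero => simp
    | succ n ih =>
      rw [Finset.sum_range_succ, st_succ_H]
      have := st_H_card y n
      omega
  have h1 := h n
  have h2 : (st y 0).H.card ≤ Fintype.card D := Finset.card_le_univ _
  omega

lemma sum_WW_le (n : ℕ) : ∑ t ∈ Finset.range n, (WW y t).card ≤ Fintype.card D := by
  have h : ∀ n, ∑ t ∈ Finset.range n, (WW y t).card + (TF y 0).card = (TF y n).card := by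
    intro n
    induction n with
    | zero => simp
    | succ n ih =>
      rw [Finset.sum_range_succ]
      have h1 : (TF y (n + 1)).card = (TF y n).card + (WW y n).card :=
        Finset.card_union_of_disjoint (TF_WW_disj y n)
      omega
  have h1 := h n
  have h2 : (TF y n).card ≤ Fintype.card D := Finset.card_le_univ _
  omega

lemma PP_card (t : ℕ) : (PP y t).card ≤ (Lv y t).card := Finset.card_le_card (PP_sub_Lv y t)

lemma NN_card (t : ℕ) : (NN y t).card ≤ (st y t).P.card + (Lv y t).card := by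
  rw [NN_eq]
  exact Finset.card_union_le _ _

lemma sum_stP_le (n : ℕ) : ∑ t ∈ Finset.range n, (st y t).P.card ≤ ∑ t ∈ Finset.range n, (Lv y t).card := by
  rcases n with _ | n
  · simp
  · rw [Finset.sum_range_succ', Finset.sum_range_succ]
    have h0 : (st y 0).P.card = 0 := by simp [st]
    rw [h0, add_zero]
    have h1 : ∑ t ∈ Finset.range n, (st y (t + 1)).P.card ≤ ∑ t ∈ Finset.range n, (Lv y t).card :=
      Finset.sum_le_sum (fun t _ => PP_card y t)
    omega

lemma sum_NN_le (n : ℕ) : ∑ t ∈ Finset.range n, (NN y t).card ≤ 2 * Fintype.card D := by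
  have h1 : ∑ t ∈ Finset.range n, (NN y t).card ≤
      ∑ t ∈ Finset.range n, ((st y t).P.card + (Lv y t).card) :=
    Finset.sum_le_sum (fun t _ => NN_card y t)
  rw [Finset.sum_add_distrib] at h1
  have h2 := sum_stP_le y n
  have h3 := sum_Lv_le y n
  omega

lemma ff_eq (t : ℕ) : ff y (st y t).H (st y t).j (JJ y t) = (Lv y t).card := rfl

lemma JJ_le (t : ℕ) : JJ y t ≤ 1 + LP y (st y t).P (jj y t) + (L0 + 1) * (Lv y t).card := by
  have h := Jn_bound y (st y t).H (st y t).P (st y t).j
  have h1 : max 1 (LP y (st y t).P (st y t).j) ≤ 1 + LP y (st y t).P (st y t).j :=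
    max_le (by omega) (by omega)
  exact h.trans (by
    have : ff y (st y t).H (st y t).j (Jn y (st y t).H (st y t).P (st y t).j) = (Lv y t).card := rfl
    rw [this]
    have e : (st y t).j = jj y t := rfl
    rw [e] at h1 ⊢
    omega)

lemma LP_succ (t : ℕ) :
    LP y (st y (t + 1)).P (jj y (t + 1)) ≤ if (NN y t).Nonempty then Dl (JJ y t) else 0 := by
  rw [st_succ_P]
  unfold LP
  refine Finset.sup_le (fun a ha => ?_)
  have h1 : (NN y t).Nonempty := ⟨a, PP_sub_NN y t ha⟩
  rw [if_pos h1]
  have h2 := ((mem_PP y).mp ha).2.2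
  have h3 : e3 (jj y t) (JJ y t) = jj y (t + 1) + Dl (JJ y t) := rfl
  omega

/-- Gate for stages with a nonempty transition set. -/
def EJ (t : ℕ) : ℕ := if (NN y t).Nonempty then JJ y t else 0

/-- The number of nontrivial stages. -/
def cN (t : ℕ) : ℕ := if (NN y t).Nonempty then 1 else 0

lemma cN_le (t : ℕ) : cN y t ≤ (NN y t).card := by
  unfold cN
  split_ifs with h
  · exact Finset.card_pos.mpr h
  · exact Nat.zero_le _

lemma EJ_rec (t : ℕ) :
    2 * EJ y (t + 1) ≤ 2 * cN y (t + 1) + EJ y t + 48 * cN y t + 2 * (L0 + 1) * (Lv y (t + 1)).card := by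
  unfold EJ cN
  by_cases h1 : (NN y (t + 1)).Nonempty
  · rw [if_pos h1, if_pos h1]
    have h2 := JJ_le y (t + 1)
    have h3 := LP_succ y t
    by_cases h4 : (NN y t).Nonempty
    · rw [if_pos h4] at h3 ⊢
      rw [if_pos h4]
      have h5 := Dl_le (JJ y t)
      have h6 : 2 * ((L0 + 1) * (Lv y (t + 1)).card) = 2 * (L0 + 1) * (Lv y (t + 1)).card := by ring
      omega
    · rw [if_neg h4] at h3 ⊢
      rw [if_neg h4]
      have h6 : 2 * ((L0 + 1) * (Lv y (t + 1)).card) = 2 * (L0 + 1) * (Lv y (t + 1)).card := by ring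
      omega
  · rw [if_neg h1]
    omega

lemma EJ_zero : 2 * EJ y 0 ≤ 2 * cN y 0 + 2 * (L0 + 1) * (Lv y 0).card := by
  unfold EJ cN
  by_cases h1 : (NN y 0).Nonempty
  · rw [if_pos h1, if_pos h1]
    have h2 := JJ_le y 0
    have h3 : LP y (st y 0).P (jj y 0) = 0 := by
      simp [LP, st]
    have h6 : 2 * ((L0 + 1) * (Lv y 0).card) = 2 * (L0 + 1) * (Lv y 0).card := by ring
    omega
  · rw [if_neg h1]
    omega

lemma sum_EJ_aux (n : ℕ) :
    2 * ∑ t ∈ Finset.range (n + 1), EJ y t ≤ ∑ t ∈ Finset.range n, EJ y t +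
      2 * ∑ t ∈ Finset.range (n + 1), cN y t + 48 * ∑ t ∈ Finset.range n, cN y t +
      2 * (L0 + 1) * ∑ t ∈ Finset.range (n + 1), (Lv y t).card := by
  induction n with
  | zero =>
    have := EJ_zero y
    simp only [zero_add, Finset.sum_range_one, Finset.range_zero, Finset.sum_empty]
    omega
  | succ n ih =>
    have hs := Finset.sum_range_succ (EJ y) n
    have hs2 := Finset.sum_range_succ (cN y) n
    rw [Finset.sum_range_succ _ (n + 1), Finset.sum_range_succ _ (n + 1), Finset.sum_range_succ _ (n + 1)]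
    have h1 := EJ_rec y n
    have h2 : 2 * (L0 + 1) * (∑ t ∈ Finset.range (n + 1), (Lv y t).card + (Lv y (n + 1)).card) =
        2 * (L0 + 1) * ∑ t ∈ Finset.range (n + 1), (Lv y t).card + 2 * (L0 + 1) * (Lv y (n + 1)).card := by ring
    omega

/-- The total length of the nontrivial stages is linear in the dimension. -/
lemma sum_EJ_le (n : ℕ) : ∑ t ∈ Finset.range n, EJ y t ≤ 2150 * Fintype.card D := by
  have h1 : ∀ n, ∑ t ∈ Finset.range n, cN y t ≤ 2 * Fintype.card D := fun n =>
    (Finset.sum_le_sum (fun t _ => cN_le y t)).trans (sum_NN_le y n)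
  have hmono : ∑ t ∈ Finset.range n, EJ y t ≤ ∑ t ∈ Finset.range (n + 1), EJ y t := by
    rw [Finset.sum_range_succ]
    omega
  have h2 := sum_EJ_aux y n
  have h3 := h1 (n + 1)
  have h3' := h1 n
  have h4 := sum_Lv_le y (n + 1)
  have h5 : 2 * (L0 + 1) * ∑ t ∈ Finset.range (n + 1), (Lv y t).card ≤ 2 * (L0 + 1) * Fintype.card D :=
    Nat.mul_le_mul_left _ h4
  have h6 : L0 = 1024 := rfl
  rw [h6] at h2 h5
  omega

end

end Vale.Agent.Lib.P262S
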