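import Vale.Agent.Lib.P262S.FoldG
import Vale.Agent.Lib.P262S.Sched
import Vale.Agent.Lib.P262.HS
import Vale.Agent.Lib.P262.Tilt

open Finset
open Vale.Agent.Lib.P262 (nm nm_nonneg nm_sq nm_add_le nm_mono nm_smul nm_le_of_sq sum_sq_le_of_nm)

namespace Vale.Agent.Lib.P262S

noncomputable section

variable {I D : Type} [Fintype I] [DecidableEq I] [Fintype D] [DecidableEq D]

/-- The system: coordinates in which the second moment is diagonal. -/
structure Sys (I D : Type) [Fintype I] [Fintype D] [DecidableEq D] where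
  z : I → D → ℝ
  hz : ∀ i, ∑ a, z i a ^ 2 ≤ 1
  Λ : D → ℝ
  hΛ0 : ∀ a, 0 ≤ Λ a
  hsec : ∀ a b, ∑ i, z i a * z i b = if a = b then Λ a else 0
  hsum : ∀ a, ∑ i, z i a = 0
  y : D → ℕ
  hy1 : ∀ a, Λ a ≤ 2 ^ y a
  hy2 : ∀ a, 1 ≤ y a → (2 : ℝ) ^ y a < 2 * Λ a

/-- Weighted square sum on pairs. -/
def qf (w f : D × D → ℝ) : ℝ := ∑ q, w q * f q ^ 2

namespace Sys

variable (S : Sys I D)

/-- Group second moment. -/
def gr (s : Finset I) (q : D × D) : ℝ := ∑ i ∈ s, S.z i q.1 * S.z i q.2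
/-- Expected diagonal at a level. -/
def gl (j : ℕ) (a : D) : ℝ := S.Λ a / 2 ^ j
/-- Deviation. -/
def dv (j : ℕ) (s : Finset I) (q : D × D) : ℝ := S.gr s q - if q.1 = q.2 then S.gl j q.1 else 0
/-- Inverse-gain weight. -/
def ux (j : ℕ) (a : D) : ℝ := (1 / 2) ^ (S.y a - j)
/-- Slow weight. -/
def vx (j : ℕ) (a : D) : ℝ := (2 / 3) ^ (S.y a - j)
/-- Weights of the first invariant. -/
def w1 (t j : ℕ) (q : D × D) : ℝ :=
  if q.1 ∈ HH S.y t ∧ q.2 ∈ HH S.y t then S.vx j q.1 * S.vx j q.2 else 0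
/-- Weights of the class invariants. -/
def wc (t c j : ℕ) (q : D × D) : ℝ :=
  if q.1 ∈ WW S.y c then
    (if q.2 ∈ HH S.y t then S.ux j q.2 else 0) + (if q.2 = q.1 then S.ux j q.1 else 0)
  else 0

lemma ux_pos (j : ℕ) (a : D) : 0 < S.ux j a := by unfold ux; positivity
lemma vx_pos (j : ℕ) (a : D) : 0 < S.vx j a := by unfold vx; positivity
lemma ux_le_one (j : ℕ) (a : D) : S.ux j a ≤ 1 := by
  unfold ux
  exact pow_le_one₀ (by norm_num) (by norm_num)
lemma vx_le_one (j : ℕ) (a : D) : S.vx j a ≤ 1 := by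
  unfold vx
  exact pow_le_one₀ (by norm_num) (by norm_num)

lemma ux_up (j J : ℕ) (a : D) : S.ux (j + J) a ≤ 2 ^ J * S.ux j a := by
  unfold ux
  have h1 : (2 : ℝ) ^ J * (1 / 2) ^ J = 1 := by
    rw [← mul_pow]; norm_num
  by_cases h : J ≤ S.y a - j
  · have e : S.y a - j = (S.y a - (j + J)) + J := by omega
    rw [e, pow_add]
    nlinarith [pow_pos (by norm_num : (0 : ℝ) < 1 / 2) (S.y a - (j + J))]
  · have e : S.y a - (j + J) = 0 := by omega
    rw [e, pow_zero]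
    have h2 : (1 / 2 : ℝ) ^ J ≤ (1 / 2) ^ (S.y a - j) :=
      pow_le_pow_of_le_one (by norm_num) (by norm_num) (by omega)
    have h3 : (0 : ℝ) < 2 ^ J := by positivity
    nlinarith

lemma vx_up (j J : ℕ) (a : D) : S.vx (j + J) a ≤ (3 / 2) ^ J * S.vx j a := by
  unfold vx
  have h1 : (3 / 2 : ℝ) ^ J * (2 / 3) ^ J = 1 := by
    rw [← mul_pow]; norm_num
  by_cases h : J ≤ S.y a - j
  · have e : S.y a - j = (S.y a - (j + J)) + J := by omega
    rw [e, pow_add]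
    nlinarith [pow_pos (by norm_num : (0 : ℝ) < 2 / 3) (S.y a - (j + J))]
  · have e : S.y a - (j + J) = 0 := by omega
    rw [e, pow_zero]
    have h2 : (2 / 3 : ℝ) ^ J ≤ (2 / 3) ^ (S.y a - j) :=
      pow_le_pow_of_le_one (by norm_num) (by norm_num) (by omega)
    have h3 : (0 : ℝ) < (3 / 2) ^ J := by positivity
    nlinarith

lemma ux_anti {j j' : ℕ} (h : j ≤ j') (a : D) : S.ux j a ≤ S.ux j' a := by
  unfold ux
  exact pow_le_pow_of_le_one (by norm_num) (by norm_num) (by omega)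

lemma w1_nonneg (t j : ℕ) (q : D × D) : 0 ≤ S.w1 t j q := by
  unfold w1
  split_ifs
  · exact mul_nonneg (S.vx_pos _ _).le (S.vx_pos _ _).le
  · exact le_rfl

lemma wc_nonneg (t c j : ℕ) (q : D × D) : 0 ≤ S.wc t c j q := by
  unfold wc
  have h := S.ux_pos j q.1
  have h' := S.ux_pos j q.2
  split_ifs <;> positivity

lemma w1_up (t j J : ℕ) (q : D × D) : S.w1 t (j + J) q ≤ (9 / 4) ^ J * S.w1 t j q := by
  unfold w1
  split_ifs
  · have h1 := S.vx_up j J q.1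
    have h2 := S.vx_up j J q.2
    have h3 := S.vx_pos (j + J) q.1
    have h4 := S.vx_pos (j + J) q.2
    calc S.vx (j + J) q.1 * S.vx (j + J) q.2
        ≤ ((3 / 2) ^ J * S.vx j q.1) * ((3 / 2) ^ J * S.vx j q.2) :=
          mul_le_mul h1 h2 h4.le (by have := S.vx_pos j q.1; positivity)
      _ = (9 / 4) ^ J * (S.vx j q.1 * S.vx j q.2) := by
        have : (9 / 4 : ℝ) ^ J = (3 / 2) ^ J * (3 / 2) ^ J := by
          rw [← mul_pow]; norm_num
        rw [this]; ring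
  · simp

lemma wc_up (t c j J : ℕ) (q : D × D) : S.wc t c (j + J) q ≤ 2 ^ J * S.wc t c j q := by
  unfold wc
  have h1 := S.ux_up j J q.1
  have h2 := S.ux_up j J q.2
  have h3 : (0 : ℝ) < 2 ^ J := by positivity
  by_cases h4 : q.1 ∈ WW S.y c
  · simp only [h4, if_true]
    rw [mul_add]
    refine add_le_add ?_ ?_
    · by_cases h5 : q.2 ∈ HH S.y t
      · simpa [h5] using h2
      · simp [h5]
    · by_cases h5 : q.2 = q.1
      · simpa [h5] using h1
      · simp [h5]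
  · simp [h4]

/-- Second moment of the whole family. -/
lemma gr_univ (q : D × D) : S.gr univ q = if q.1 = q.2 then S.Λ q.1 else 0 := S.hsec q.1 q.2

lemma gr_union {s s' : Finset I} (h : Disjoint s s') (q : D × D) :
    S.gr (s ∪ s') q = S.gr s q + S.gr s' q := by
  unfold gr
  exact Finset.sum_union h

lemma gr_sdiff {s e : Finset I} (h : e ⊆ s) (q : D × D) :
    S.gr (s \ e) q = S.gr s q - S.gr e q := by
  unfold gr
  have := Finset.sum_sdiff (f := fun i => S.z i q.1 * S.z i q.2) h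
  linarith

/-- `gl` halves along levels. -/
lemma gl_add (j J : ℕ) (a : D) : S.gl (j + J) a = S.gl j a / 2 ^ J := by
  unfold gl
  rw [pow_add]
  field_simp

/-- The product of the weight with the expected diagonal. -/
lemma ux_gl_le (j : ℕ) (a : D) : S.ux j a * S.gl j a ≤ 1 := by
  unfold ux gl
  have h1 := S.hy1 a
  have h0 := S.hΛ0 a
  have h2 : (0 : ℝ) < 2 ^ j := by positivity
  rw [← mul_div_assoc, div_le_one h2]
  by_cases h : S.y a ≤ j
  · have e : S.y a - j = 0 := by omega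
    rw [e, pow_zero, one_mul]
    exact h1.trans (pow_le_pow_right₀ (by norm_num) h)
  · have e : S.y a = (S.y a - j) + j := by omega
    have h3 : (1 / 2 : ℝ) ^ (S.y a - j) * 2 ^ (S.y a - j) = 1 := by
      rw [← mul_pow]; norm_num
    have h4 : (0 : ℝ) < (1 / 2) ^ (S.y a - j) := by positivity
    calc (1 / 2 : ℝ) ^ (S.y a - j) * S.Λ a ≤ (1 / 2) ^ (S.y a - j) * 2 ^ S.y a := by gcongr
      _ = 2 ^ j := by
        nth_rw 2 [e]
        rw [pow_add, ← mul_assoc, h3, one_mul]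

/-- Lower bound of the gain on high coordinates. -/
lemma gl_lower {j : ℕ} {a : D} (h : j < S.y a) : (2 : ℝ) ^ (S.y a - j) < 2 * S.gl j a := by
  unfold gl
  have h1 := S.hy2 a (by omega)
  have h2 : (0 : ℝ) < 2 ^ j := by positivity
  rw [← mul_div_assoc, lt_div_iff₀ h2, ← pow_add]
  have e : S.y a - j + j = S.y a := by omega
  rw [e]
  exact h1

lemma gl_upper {j : ℕ} {a : D} (h : j ≤ S.y a) : S.gl j a ≤ (2 : ℝ) ^ (S.y a - j) := by
  unfold gl
  have h1 := S.hy1 a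
  have h2 : (0 : ℝ) < 2 ^ j := by positivity
  rw [div_le_iff₀ h2, ← pow_add]
  have e : S.y a - j + j = S.y a := by omega
  rw [e]
  exact h1

/-- `1/ux ≤ 2 gl` on high coordinates. -/
lemma one_le_ux_gl {j : ℕ} {a : D} (h : j < S.y a) : 1 ≤ 2 * (S.ux j a * S.gl j a) := by
  have h1 := S.gl_lower h
  have h3 : (1 / 2 : ℝ) ^ (S.y a - j) * 2 ^ (S.y a - j) = 1 := by
    rw [← mul_pow]; norm_num
  have h4 : (0 : ℝ) < (1 / 2) ^ (S.y a - j) := by positivity
  unfold ux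
  nlinarith

/-- `1/vx ≤ 2 gl` on high coordinates, in multiplied form. -/
lemma one_le_vx_gl {j : ℕ} {a : D} (h : j < S.y a) : 1 ≤ 2 * (S.vx j a * S.gl j a) := by
  have h1 := S.one_le_ux_gl h
  have h2 : S.ux j a ≤ S.vx j a := by
    unfold ux vx
    exact pow_le_pow_left₀ (by norm_num) (by norm_num) _
  have h3 : 0 ≤ S.gl j a := div_nonneg (S.hΛ0 a) (by positivity)
  nlinarith

section Margin

variable {t j : ℕ}

/-- Size of the slow weight on high coordinates. -/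
lemma vx_margin (hj : j ≤ jj S.y (t + 1)) {a : D} (ha : a ∈ HH S.y t) :
    S.vx j a ≤ (1 / ((JJ S.y t : ℝ) + 1)) * ((1 / 2) ^ 250) ^ rk S.y (HH S.y t) a := by
  have hm := margin S.y ha
  unfold vx
  have h1 : Dl (JJ S.y t) + L0 * rk S.y (HH S.y t) a ≤ S.y a - j := by omega
  have h2 : (2 / 3 : ℝ) ^ (S.y a - j) ≤ (2 / 3) ^ (Dl (JJ S.y t) + L0 * rk S.y (HH S.y t) a) :=
    pow_le_pow_of_le_one (by norm_num) (by norm_num) h1
  refine h2.trans ?_
  rw [pow_add]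
  have h3 : (2 / 3 : ℝ) ^ Dl (JJ S.y t) ≤ 1 / ((JJ S.y t : ℝ) + 1) := by
    have h4 := pow_Dl (JJ S.y t)
    unfold Dl at h4 ⊢
    rw [pow_mul] at h4 ⊢
    have h5 : ((2 : ℝ) ^ 2) ^ Nat.clog 2 (JJ S.y t + 1) = 2 ^ (2 * Nat.clog 2 (JJ S.y t + 1)) := by
      rw [pow_mul]
    have h6 : ((JJ S.y t : ℝ) + 1) ≤ 2 ^ Nat.clog 2 (JJ S.y t + 1) := by
      have := Nat.le_pow_clog (b := 2) (by norm_num) (JJ S.y t + 1)
      exact_mod_cast this
    have h7 : ((2 / 3 : ℝ) ^ 2) ^ Nat.clog 2 (JJ S.y t + 1) * 2 ^ Nat.clog 2 (JJ S.y t + 1) ≤ 1 := by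
      rw [← mul_pow]
      exact pow_le_one₀ (by norm_num) (by norm_num)
    have h8 : (0 : ℝ) < (JJ S.y t : ℝ) + 1 := by positivity
    rw [le_div_iff₀ h8]
    have h9 : (0 : ℝ) < ((2 / 3 : ℝ) ^ 2) ^ Nat.clog 2 (JJ S.y t + 1) := by positivity
    nlinarith
  have h4 : (2 / 3 : ℝ) ^ (L0 * rk S.y (HH S.y t) a) ≤ ((1 / 2) ^ 250) ^ rk S.y (HH S.y t) a := by
    rw [pow_mul]
    refine pow_le_pow_left₀ (by positivity) ?_ _
    have e : L0 = 4 * 256 := rfl
    rw [e, pow_mul]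
    have h41 : ((2 / 3 : ℝ) ^ 4) ^ 256 ≤ (1 / 2) ^ 256 :=
      pow_le_pow_left₀ (by norm_num) (by norm_num) _
    exact h41.trans (pow_le_pow_of_le_one (by norm_num) (by norm_num) (by norm_num))
  have h5 : (0 : ℝ) ≤ (2 / 3) ^ (L0 * rk S.y (HH S.y t) a) := by positivity
  have h6 : (0 : ℝ) ≤ 1 / ((JJ S.y t : ℝ) + 1) := by positivity
  exact mul_le_mul h3 h4 h5 h6

lemma ux_le_vx (j : ℕ) (a : D) : S.ux j a ≤ S.vx j a := by
  unfold ux vx
  exact pow_le_pow_left₀ (by norm_num) (by norm_num) _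

/-- Pointwise smallness of the slow weight. -/
lemma vx_small (hj : j ≤ jj S.y (t + 1)) {a : D} (ha : a ∈ HH S.y t) :
    S.vx j a ≤ (1 / ((JJ S.y t : ℝ) + 1)) * (1 / 2) ^ 250 := by
  refine (S.vx_margin hj ha).trans ?_
  have h1 : 1 ≤ rk S.y (HH S.y t) a := rk_pos S.y ha
  have h2 : ((1 / 2 : ℝ) ^ 250) ^ rk S.y (HH S.y t) a ≤ ((1 / 2) ^ 250) ^ 1 :=
    pow_le_pow_of_le_one (by positivity) (by norm_num) h1
  rw [pow_one] at h2
  have h6 : (0 : ℝ) ≤ 1 / ((JJ S.y t : ℝ) + 1) := by positivity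
  exact mul_le_mul_of_nonneg_left h2 h6

/-- Total mass of the slow weight on high coordinates. -/
lemma sum_vx_le (hj : j ≤ jj S.y (t + 1)) :
    ∑ a ∈ HH S.y t, S.vx j a ≤ (1 / ((JJ S.y t : ℝ) + 1)) * (2 * (1 / 2) ^ 250) := by
  have h1 : ∑ a ∈ HH S.y t, S.vx j a ≤
      ∑ a ∈ HH S.y t, (1 / ((JJ S.y t : ℝ) + 1)) * ((1 / 2) ^ 250) ^ rk S.y (HH S.y t) a :=
    Finset.sum_le_sum (fun a ha => S.vx_margin hj ha)
  refine h1.trans ?_
  rw [← Finset.mul_sum]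
  have h2 := sum_geom_rank S.y (HH S.y t) ((1 / 2 : ℝ) ^ 250) (by positivity) (by norm_num)
  have h6 : (0 : ℝ) ≤ 1 / ((JJ S.y t : ℝ) + 1) := by positivity
  exact mul_le_mul_of_nonneg_left h2 h6

lemma sum_ux_le (hj : j ≤ jj S.y (t + 1)) : ∑ a ∈ HH S.y t, S.ux j a ≤ 1 := by
  have h1 : ∑ a ∈ HH S.y t, S.ux j a ≤ ∑ a ∈ HH S.y t, S.vx j a :=
    Finset.sum_le_sum (fun a _ => S.ux_le_vx j a)
  refine h1.trans ((S.sum_vx_le hj).trans ?_)
  have h2 : (1 / ((JJ S.y t : ℝ) + 1)) ≤ 1 := by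
    rw [div_le_one (by positivity)]
    have : (0 : ℝ) ≤ JJ S.y t := by positivity
    linarith
  have h3 : (0 : ℝ) ≤ 2 * (1 / 2) ^ 250 := by positivity
  have h4 : (2 : ℝ) * (1 / 2) ^ 250 ≤ 1 := by norm_num
  nlinarith

/-- The mass of the first family of weights. -/
lemma sum_w1_le (hj : j ≤ jj S.y (t + 1)) :
    ∑ q, S.w1 t j q ≤ (1 / ((JJ S.y t : ℝ) + 1)) * (1 / 2) ^ 240 := by
  have h1 : ∑ q, S.w1 t j q = (∑ a ∈ HH S.y t, S.vx j a) ^ 2 := by
    rw [sq, Finset.sum_mul_sum, Fintype.sum_prod_type]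
    have e : ∀ a, ∑ b, S.w1 t j (a, b) = if a ∈ HH S.y t then ∑ b ∈ HH S.y t, S.vx j a * S.vx j b else 0 := by
      intro a
      unfold w1
      by_cases ha : a ∈ HH S.y t
      · simp only [ha, true_and, if_true]
        rw [← Finset.sum_filter]
        simp
      · simp [ha]
    simp only [e]
    rw [← Finset.sum_filter]
    simp
  rw [h1]
  have h2 := S.sum_vx_le (t := t) hj
  have h3 : 0 ≤ ∑ a ∈ HH S.y t, S.vx j a := Finset.sum_nonneg (fun a _ => (S.vx_pos _ _).le)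
  have h4 : (0 : ℝ) < (JJ S.y t : ℝ) + 1 := by positivity
  have h5 : (1 / ((JJ S.y t : ℝ) + 1)) ≤ 1 := by
    rw [div_le_one h4]
    have : (0 : ℝ) ≤ JJ S.y t := by positivity
    linarith
  have h6 : (0 : ℝ) < 1 / ((JJ S.y t : ℝ) + 1) := by positivity
  calc (∑ a ∈ HH S.y t, S.vx j a) ^ 2
      ≤ ((1 / ((JJ S.y t : ℝ) + 1)) * (2 * (1 / 2) ^ 250)) ^ 2 := pow_le_pow_left₀ h3 h2 2
    _ = (1 / ((JJ S.y t : ℝ) + 1)) * ((1 / ((JJ S.y t : ℝ) + 1)) * (2 * (1 / 2) ^ 250) ^ 2) := by ring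
    _ ≤ (1 / ((JJ S.y t : ℝ) + 1)) * (1 * (2 * (1 / 2) ^ 250) ^ 2) := by gcongr
    _ ≤ (1 / ((JJ S.y t : ℝ) + 1)) * (1 / 2) ^ 240 := by
        gcongr
        norm_num

/-- The pointwise size of the first family of weights. -/
lemma w1_small (hj : j ≤ jj S.y (t + 1)) (q : D × D) :
    S.w1 t j q ≤ (1 / ((JJ S.y t : ℝ) + 1)) ^ 2 * (1 / 2) ^ 240 := by
  unfold w1
  split_ifs with h
  · have h1 := S.vx_small hj h.1
    have h2 := S.vx_small hj h.2
    have h3 := S.vx_pos j q.1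
    have h4 := S.vx_pos j q.2
    have h6 : (0 : ℝ) ≤ 1 / ((JJ S.y t : ℝ) + 1) := by positivity
    calc S.vx j q.1 * S.vx j q.2 ≤
        ((1 / ((JJ S.y t : ℝ) + 1)) * (1 / 2) ^ 250) * ((1 / ((JJ S.y t : ℝ) + 1)) * (1 / 2) ^ 250) :=
          mul_le_mul h1 h2 h4.le (by positivity)
      _ = (1 / ((JJ S.y t : ℝ) + 1)) ^ 2 * ((1 / 2) ^ 250 * (1 / 2) ^ 250) := by ring
      _ ≤ _ := by
        gcongr
        norm_num
  · positivity

lemma wc_le_two (t c j : ℕ) (q : D × D) : S.wc t c j q ≤ 2 := by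
  unfold wc
  have h1 := S.ux_le_one j q.1
  have h2 := S.ux_le_one j q.2
  have h3 := S.ux_pos j q.1
  have h4 := S.ux_pos j q.2
  split_ifs <;> linarith

/-- The total mass of the class weights. -/
lemma sum_wc_le (hj : j ≤ jj S.y (t + 1)) (c : ℕ) :
    ∑ q, S.wc t c j q ≤ 2 * ((WW S.y c).card : ℝ) := by
  rw [Fintype.sum_prod_type]
  have h1 : ∀ a, ∑ b, S.wc t c j (a, b) ≤ if a ∈ WW S.y c then 2 else 0 := by
    intro a
    unfold wc
    by_cases ha : a ∈ WW S.y c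
    · simp only [ha, if_true]
      rw [Finset.sum_add_distrib]
      have e1 : ∑ b, (if b ∈ HH S.y t then S.ux j b else 0) = ∑ b ∈ HH S.y t, S.ux j b := by
        rw [← Finset.sum_filter]
        simp
      have e2 : ∑ b, (if b = a then S.ux j a else 0) = S.ux j a := by
        simp
      rw [e1, e2]
      have h2 := S.sum_ux_le (t := t) hj
      have h3 := S.ux_le_one j a
      linarith
    · simp [ha]
  refine (Finset.sum_le_sum (fun a _ => h1 a)).trans (le_of_eq ?_)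
  rw [← Finset.sum_filter]
  simp [mul_comm]

end Margin

/-- Fallen-coordinates mass of a group. -/
def Yy (T : Finset D) (s : Finset I) : ℝ := ∑ i ∈ s, ∑ a ∈ T, S.z i a ^ 2

lemma Yy_nonneg (T : Finset D) (s : Finset I) : 0 ≤ S.Yy T s :=
  Finset.sum_nonneg (fun _ _ => Finset.sum_nonneg (fun _ _ => sq_nonneg _))

lemma Yy_mono (T : Finset D) {s s' : Finset I} (h : s ⊆ s') : S.Yy T s ≤ S.Yy T s' :=
  Finset.sum_le_sum_of_subset_of_nonneg h
    (fun _ _ _ => Finset.sum_nonneg (fun _ _ => sq_nonneg _))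

/-- Seminorm of the action of a vector on the fallen coordinates on a group. -/
def Nn (T : Finset D) (s : Finset I) (u : D → ℝ) : ℝ := nm s (fun i => ∑ a ∈ T, u a * S.z i a)

lemma Nn_nonneg (T : Finset D) (s : Finset I) (u : D → ℝ) : 0 ≤ S.Nn T s u := nm_nonneg _ _

lemma Nn_mono (T : Finset D) {s s' : Finset I} (h : s ⊆ s') (u : D → ℝ) :
    S.Nn T s u ≤ S.Nn T s' u := nm_mono h _

lemma Nn_sq (T : Finset D) (s : Finset I) (u : D → ℝ) :
    S.Nn T s u ^ 2 = ∑ i ∈ s, (∑ a ∈ T, u a * S.z i a) ^ 2 := nm_sq _ _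

/-- Cauchy-Schwarz for the action on a group. -/
lemma Nn_le (T : Finset D) (s : Finset I) (u : D → ℝ) :
    S.Nn T s u ^ 2 ≤ (∑ a ∈ T, u a ^ 2) * S.Yy T s := by
  rw [S.Nn_sq]
  unfold Yy
  rw [Finset.mul_sum]
  refine Finset.sum_le_sum (fun i _ => ?_)
  exact Finset.sum_mul_sq_le_sq_mul_sq T u (S.z i)

end Sys

end

end Vale.Agent.Lib.P262S
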