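import Vale.Agent.Lib.P262S.Main
import Vale.Agent.Lib.P262.Perm

open Finset
open Vale.Agent.Lib.P262L (OkL greedy list_sum_eq)

namespace Vale.Agent.Lib.P262S

noncomputable section

section Budget

variable {I D : Type} [Fintype I] [DecidableEq I] [Fintype D] [DecidableEq D]

variable {S : Sys I D}

/-- Sum of the slacks. -/
lemma sum_bt_le (n : ℕ) : ∑ t ∈ Finset.range n, bt S t ≤ 4 * ∑ t ∈ Finset.range n, (EJ S.y t : ℝ) := by
  have h : ∑ t ∈ Finset.range n, bt S t + 4 * bt S n ≤ 4 * ∑ t ∈ Finset.range n, (EJ S.y t : ℝ) := by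
    induction n with
    | zero =>
      simp [bt]
    | succ n ih =>
      rw [Finset.sum_range_succ, Finset.sum_range_succ, bt_succ]
      linarith
  have := bt_nonneg S n
  linarith

/-- The cost of a stage without the fallen mass. -/
lemma Rc_diff (R : ℝ) (t : ℕ) : Rc S R t ≤ R + 2 ^ 135 * ((EJ S.y t : ℝ) + ((NN S.y t).card : ℝ) +
    ((WW S.y t).card : ℝ) + ((WW S.y (t + 1)).card : ℝ) + (cN S.y t : ℝ) + bt S t) := by
  have hb := bt_nonneg S t
  have h1 : (0 : ℝ) ≤ (NN S.y t).card := by positivity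
  have h2 : (0 : ℝ) ≤ (WW S.y t).card := by positivity
  have h3 : (0 : ℝ) ≤ (WW S.y (t + 1)).card := by positivity
  have h4 : (0 : ℝ) ≤ EJ S.y t := by positivity
  have h5 : (0 : ℝ) ≤ cN S.y t := by positivity
  unfold Rc
  by_cases hN : (NN S.y t).Nonempty
  · rw [if_pos hN]
    have e1 : EJ S.y t = JJ S.y t := by
      unfold EJ
      rw [if_pos hN]
    have e2 : cN S.y t = 1 := by
      unfold cN
      rw [if_pos hN]
    unfold inc Bd
    rw [if_pos hN, e1, e2]
    have h6 : (0 : ℝ) ≤ JJ S.y t := by positivity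
    push_cast
    norm_num
    linarith
  · rw [if_neg hN]
    nlinarith

/-- The new fallen mass of a stage. -/
lemma Yst_diff (t : ℕ) : 2 ^ 71 * Yst S t ≤ 2 ^ 202 * ((WW S.y t).card : ℝ) +
    2 ^ 113 * ((EJ S.y t : ℝ) + bt S t) := by
  have hb := bt_nonneg S t
  have h2 : (0 : ℝ) ≤ (WW S.y t).card := by positivity
  have h4 : (0 : ℝ) ≤ EJ S.y t := by positivity
  unfold Yst
  by_cases hW : (WW S.y t).Nonempty
  · rw [if_pos hW]
    have hN : (NN S.y t).Nonempty := hW.mono (WW_sub_NN S.y t)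
    have e1 : EJ S.y t = JJ S.y t := by
      unfold EJ
      rw [if_pos hN]
    have h1 : (1 : ℝ) ≤ (WW S.y t).card := by
      exact_mod_cast Finset.card_pos.mpr hW
    rw [← e1]
    norm_num
    nlinarith
  · rw [if_neg hW]
    have : (0 : ℝ) ≤ 2 ^ 202 * ((WW S.y t).card : ℝ) + 2 ^ 113 * ((EJ S.y t : ℝ) + bt S t) := by positivity
    simpa using this

variable (S) in
/-- The cost of a stage. -/
def Dc (t : ℕ) : ℝ := 2 ^ 136 * ((EJ S.y t : ℝ) + ((NN S.y t).card : ℝ) +
    ((WW S.y t).card : ℝ) + ((WW S.y (t + 1)).card : ℝ) + (cN S.y t : ℝ) + bt S t) +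
    2 ^ 130 * ((Lv S.y (t + 1)).card : ℝ) + 2 ^ 202 * ((WW S.y t).card : ℝ)

lemma Rr_step (t : ℕ) : Rr S (t + 1) ≤ Rr S t + Dc S t := by
  have h1 := Rc_diff (S := S) (Rr S t) t
  have h2 := Yst_diff (S := S) t
  have hb := bt_nonneg S t
  have h3 : (0 : ℝ) ≤ (NN S.y t).card := by positivity
  have h4 : (0 : ℝ) ≤ (WW S.y t).card := by positivity
  have h5 : (0 : ℝ) ≤ (WW S.y (t + 1)).card := by positivity
  have h6 : (0 : ℝ) ≤ EJ S.y t := by positivity
  have h7 : (0 : ℝ) ≤ cN S.y t := by positivity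
  show Rc S (Rr S t) t + 2 ^ 130 * ((Lv S.y (t + 1)).card : ℝ) + 2 ^ 71 * Yst S t ≤ _
  unfold Dc
  norm_num at h1 h2 ⊢
  nlinarith

lemma Rr_le_sum (n : ℕ) : Rr S n ≤ 2 ^ 70 * (Fintype.card D : ℝ) + ∑ t ∈ Finset.range n, Dc S t := by
  induction n with
  | zero =>
    simp only [Finset.range_zero, Finset.sum_empty, add_zero]
    exact le_rfl
  | succ n ih =>
    rw [Finset.sum_range_succ]
    have := Rr_step (S := S) n
    linarith

/-- **The total cost.** -/
theorem Rr_bound (n : ℕ) : Rr S n ≤ 2 ^ 203 * (Fintype.card D : ℝ) := by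
  set d : ℝ := (Fintype.card D : ℝ) with hd
  have hd0 : 0 ≤ d := by positivity
  have hE : ∑ t ∈ Finset.range n, (EJ S.y t : ℝ) ≤ 2150 * d := by
    have := sum_EJ_le S.y n
    rw [hd]
    exact_mod_cast this
  have hN : ∑ t ∈ Finset.range n, ((NN S.y t).card : ℝ) ≤ 2 * d := by
    have := sum_NN_le S.y n
    rw [hd]
    exact_mod_cast this
  have hW : ∑ t ∈ Finset.range n, ((WW S.y t).card : ℝ) ≤ d := by
    have := sum_WW_le S.y n
    rw [hd]
    exact_mod_cast this
  have hW' : ∑ t ∈ Finset.range n, ((WW S.y (t + 1)).card : ℝ) ≤ d := by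
    have h1 := sum_WW_le S.y (n + 1)
    rw [Finset.sum_range_succ'] at h1
    have h2 : ∑ t ∈ Finset.range n, (WW S.y (t + 1)).card ≤ Fintype.card D := by omega
    rw [hd]
    exact_mod_cast h2
  have hL' : ∑ t ∈ Finset.range n, ((Lv S.y (t + 1)).card : ℝ) ≤ d := by
    have h1 := sum_Lv_le S.y (n + 1)
    rw [Finset.sum_range_succ'] at h1
    have h2 : ∑ t ∈ Finset.range n, (Lv S.y (t + 1)).card ≤ Fintype.card D := by omega
    rw [hd]
    exact_mod_cast h2
  have hc : ∑ t ∈ Finset.range n, (cN S.y t : ℝ) ≤ 2 * d := by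
    have h1 : ∑ t ∈ Finset.range n, cN S.y t ≤ 2 * Fintype.card D :=
      (Finset.sum_le_sum (fun t _ => cN_le S.y t)).trans (sum_NN_le S.y n)
    rw [hd]
    exact_mod_cast h1
  have hb : ∑ t ∈ Finset.range n, bt S t ≤ 8600 * d := by
    have := sum_bt_le (S := S) n
    linarith
  have hsum : ∑ t ∈ Finset.range n, Dc S t = 2 ^ 136 * (∑ t ∈ Finset.range n, (EJ S.y t : ℝ) +
      ∑ t ∈ Finset.range n, ((NN S.y t).card : ℝ) + ∑ t ∈ Finset.range n, ((WW S.y t).card : ℝ) +
      ∑ t ∈ Finset.range n, ((WW S.y (t + 1)).card : ℝ) + ∑ t ∈ Finset.range n, (cN S.y t : ℝ) +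
      ∑ t ∈ Finset.range n, bt S t) + 2 ^ 130 * ∑ t ∈ Finset.range n, ((Lv S.y (t + 1)).card : ℝ) +
      2 ^ 202 * ∑ t ∈ Finset.range n, ((WW S.y t).card : ℝ) := by
    unfold Dc
    rw [Finset.sum_add_distrib, Finset.sum_add_distrib, ← Finset.mul_sum, ← Finset.mul_sum, ← Finset.mul_sum]
    simp only [Finset.sum_add_distrib]
  have h1 := Rr_le_sum (S := S) n
  rw [hsum] at h1
  refine h1.trans ?_
  norm_num
  linarith

/-- The root of the recursion. -/
lemma root_inv : Inv S 0 0 univ (S.Yy (TF S.y 0) univ) := by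
  have hdv : ∀ q, S.dv 0 univ q = 0 := by
    intro q
    unfold Sys.dv
    rw [S.gr_univ]
    split_ifs
    · simp [Sys.gl]
    · simp
  have hq : ∀ w : D × D → ℝ, qf w (S.dv 0 univ) = 0 := by
    intro w
    unfold qf
    simp [hdv]
  refine ⟨?_, ?_, ?_, ?_, le_rfl⟩
  · exact le_rfl
  · rw [jj_succ, jj_zero]
    have := JJ_pos S.y 0
    omega
  · rw [hq]
    norm_num
  · intro c hc
    rw [hq]
    have := Xc_pos S hc
    positivity

/-- The fallen mass of the root. -/
lemma root_Y : S.Yy (TF S.y 0) univ ≤ (Fintype.card D : ℝ) := by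
  have h1 : S.Yy (TF S.y 0) univ = ∑ a ∈ TF S.y 0, S.Λ a := by
    unfold Sys.Yy
    rw [Finset.sum_comm]
    refine Finset.sum_congr rfl (fun a _ => ?_)
    have := S.hsec a a
    simp only [if_true] at this
    rw [← this]
    exact Finset.sum_congr rfl (fun i _ => by ring)
  rw [h1]
  have h2 : ∑ a ∈ TF S.y 0, S.Λ a ≤ ∑ _a ∈ TF S.y 0, (1 : ℝ) := by
    refine Finset.sum_le_sum (fun a ha => ?_)
    have h3 : S.y a = 0 := (Finset.mem_filter.mp ha).2
    have h4 := S.hy1 a
    rw [h3, pow_zero] at h4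
    exact h4
  refine h2.trans ?_
  simp only [Finset.sum_const, nsmul_eq_mul, mul_one]
  exact_mod_cast Finset.card_le_univ _

/-- The bound at the root. -/
lemma root_TB : TB S 0 0 univ (S.Yy (TF S.y 0) univ) (fun _ => 0) (Rr S 0) := by
  intro r
  have h1 : Pot S 0 univ (S.Yy (TF S.y 0) univ) (fun _ => 0) = 2 ^ 70 * S.Yy (TF S.y 0) univ := by
    unfold Pot Sys.Nn
    simp [Vale.Agent.Lib.P262.nm]
  have h2 : Bn S 0 0 (fun _ => 0) = 0 := by
    unfold Bn
    simp
  rw [h1, h2]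
  simp only [ne_eq, OfNat.ofNat_ne_zero, not_false_eq_true, zero_pow, Finset.sum_const_zero, mul_zero, add_zero]
  have h3 := root_Y (S := S)
  have h4 : (0 : ℝ) ≤ 2 ^ 130 * (r : ℝ) := mul_nonneg (by norm_num) (Nat.cast_nonneg r)
  show _ ≤ 2 ^ 70 * (Fintype.card D : ℝ) + _
  linarith

variable (S) in
/-- **The ordering for a system.** -/
theorem sys_main : ∃ l : List I, l.Nodup ∧ l.toFinset = univ ∧
    OkL S.z (fun _ => 0) (2 ^ 203 * (Fintype.card D : ℝ) + 2 ^ 130 * (Fintype.card D : ℝ) + 2 ^ 63) l := by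
  refine main_rec (S := S) Rr_bound (univ : Finset I).card univ rfl 0 0 _ (fun _ => 0) (fun _ => 0) root_inv
    (Or.inl root_TB) (Or.inl root_TB) ?_
  intro a
  rw [S.hsum a]
  simp

end Budget

section Coord

variable {ι D : Type} [Fintype ι] [DecidableEq ι] [Fintype D] [DecidableEq D]

/-- The main theorem in diagonalizing coordinates. -/
theorem coord_main (z : ι → D → ℝ) (hz : ∀ i, ∑ a, z i a ^ 2 ≤ 1) (hsum : ∀ a, ∑ i, z i a = 0)
    (hdiag : ∀ a b, a ≠ b → ∑ i, z i a * z i b = 0) (hd : 1 ≤ Fintype.card D) :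
    ∃ l : List ι, l.Nodup ∧ l.toFinset = univ ∧ ∀ l₁, l₁ <+: l →
      ∑ a, ((l₁.map (fun i => z i a)).sum) ^ 2 ≤ 2 ^ 204 * (Fintype.card D : ℝ) := by
  classical
  have hex : ∀ a, ∃ k : ℕ, ∑ i, z i a ^ 2 ≤ 2 ^ k := fun a =>
    let ⟨k, hk⟩ := pow_unbounded_of_one_lt (∑ i, z i a ^ 2) (by norm_num : (1 : ℝ) < 2)
    ⟨k, hk.le⟩
  let S : Sys ι D :=
    { z := z
      hz := hz
      Λ := fun a => ∑ i, z i a ^ 2
      hΛ0 := fun a => Finset.sum_nonneg (fun _ _ => sq_nonneg _)
      hsec := by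
        intro a b
        by_cases hab : a = b
        · subst hab
          simp only [if_true]
          exact Finset.sum_congr rfl (fun i _ => by ring)
        · rw [if_neg hab]
          exact hdiag a b hab
      hsum := hsum
      y := fun a => Nat.find (hex a)
      hy1 := fun a => Nat.find_spec (hex a)
      hy2 := by
        intro a ha
        have ha' : 1 ≤ Nat.find (hex a) := ha
        have h1 : Nat.find (hex a) - 1 < Nat.find (hex a) := by
          omega
        have h2 := Nat.find_min (hex a) h1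
        push Not at h2
        obtain ⟨k, hk⟩ : ∃ k, Nat.find (hex a) = k + 1 := ⟨Nat.find (hex a) - 1, by omega⟩
        show (2 : ℝ) ^ Nat.find (hex a) < 2 * ∑ i, z i a ^ 2
        rw [hk] at h2 ⊢
        simp only [Nat.add_sub_cancel] at h2
        rw [pow_succ]
        linarith }
  obtain ⟨l, hnd, hl, hok⟩ := sys_main S
  refine ⟨l, hnd, hl, fun l₁ hl₁ => ?_⟩
  have h1 := hok l₁ hl₁
  simp only [zero_add] at h1
  refine h1.trans ?_
  have hd' : (1 : ℝ) ≤ (Fintype.card D : ℝ) := by exact_mod_cast hd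
  norm_num
  linarith

end Coord

/-- The main theorem: every zero-sum family in the Euclidean unit ball of `ℝ^d` has an ordering
whose partial sums have squared norm at most `2 ^ 204 * d`. -/
theorem steinitz_sq (d N : ℕ) (v : Fin N → EuclideanSpace ℝ (Fin d)) (hv : ∀ i, ‖v i‖ ≤ 1)
    (hsum : ∑ i, v i = 0) :
    ∃ π : Equiv.Perm (Fin N), ∀ k : ℕ, k ≤ N →
      ‖∑ i ∈ Finset.univ.filter (fun i : Fin N => i.val < k), v (π i)‖ ^ 2 ≤ 2 ^ 204 * (d : ℝ) := by
  by_cases hd : d = 0
  · subst hd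
    refine ⟨Equiv.refl _, fun k _ => ?_⟩
    have h0 : ∀ x : EuclideanSpace ℝ (Fin 0), x = 0 := fun x => Subsingleton.elim x 0
    rw [h0 (∑ i ∈ Finset.univ.filter (fun i : Fin N => i.val < k), v ((Equiv.refl _) i))]
    simp
  have hd1 : 1 ≤ d := Nat.one_le_iff_ne_zero.mpr hd
  let E := EuclideanSpace ℝ (Fin d)
  let T : E →ₗ[ℝ] E :=
    { toFun := fun x => ∑ i, (inner ℝ (v i) x) • v i
      map_add' := by
        intro x y
        simp only [inner_add_right, add_smul, Finset.sum_add_distrib]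
      map_smul' := by
        intro c x
        simp only [real_inner_smul_right, RingHom.id_apply, Finset.smul_sum, mul_smul] }
  have hT : T.IsSymmetric := by
    intro x y
    show inner ℝ (∑ i, (inner ℝ (v i) x) • v i) y = inner ℝ x (∑ i, (inner ℝ (v i) y) • v i)
    rw [sum_inner, inner_sum]
    refine Finset.sum_congr rfl (fun i _ => ?_)
    rw [real_inner_smul_left, real_inner_smul_right, real_inner_comm x (v i)]
    ring
  have hn : Module.finrank ℝ E = d := finrank_euclideanSpace_fin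
  let b := hT.eigenvectorBasis hn
  let z : Fin N → Fin d → ℝ := fun i a => inner ℝ (b a) (v i)
  have hz : ∀ i, ∑ a, z i a ^ 2 ≤ 1 := by
    intro i
    have h1 := b.sum_sq_inner_right (v i)
    simp only [z]
    rw [h1]
    have := hv i
    have h2 := norm_nonneg (v i)
    nlinarith
  have hzsum : ∀ a, ∑ i, z i a = 0 := by
    intro a
    simp only [z]
    rw [← inner_sum, hsum, inner_zero_right]
  have hdiag : ∀ a a', a ≠ a' → ∑ i, z i a * z i a' = 0 := by
    intro a a' hne
    have h1 : inner ℝ (b a) (T (b a')) = ∑ i, z i a * z i a' := by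
      show inner ℝ (b a) (∑ i, (inner ℝ (v i) (b a')) • v i) = _
      rw [inner_sum]
      refine Finset.sum_congr rfl (fun i _ => ?_)
      rw [real_inner_smul_right, real_inner_comm (b a') (v i)]
      ring
    rw [← h1, hT.apply_eigenvectorBasis hn a', real_inner_smul_right]
    have h2 : inner ℝ (b a) (b a') = 0 := b.orthonormal.2 hne
    show _ * inner ℝ (b a) (b a') = 0
    rw [h2, mul_zero]
  have hcard : Fintype.card (Fin d) = d := Fintype.card_fin d
  obtain ⟨l, hnd, hl, hok⟩ := coord_main z hz hzsum hdiag (by rw [hcard]; exact hd1)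
  rw [hcard] at hok
  obtain ⟨π, hπ⟩ := Vale.Agent.Lib.P262.exists_perm_of_list l hnd hl v
  refine ⟨π, fun k hk => ?_⟩
  rw [hπ k hk]
  have h1 := hok (l.take k) (List.take_prefix k l)
  refine le_trans (le_of_eq ?_) h1
  have hinner : ∀ (m : List (Fin N)) (a : Fin d),
      inner ℝ (b a) (m.map v).sum = (m.map (fun i => z i a)).sum := by
    intro m a
    induction m with
    | nil => simp
    | cons x m ih =>
      simp only [List.map_cons, List.sum_cons, inner_add_right, ih]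
      rfl
  rw [← b.sum_sq_inner_right]
  exact Finset.sum_congr rfl (fun a _ => by rw [hinner])

/-- **The Euclidean Steinitz conjecture.** Every zero-sum family in the Euclidean unit ball of `ℝ^d`
has an ordering whose partial sums have norm at most `2 ^ 102 * √d`. -/
theorem steinitz_sqrt (d N : ℕ) (v : Fin N → EuclideanSpace ℝ (Fin d)) (hv : ∀ i, ‖v i‖ ≤ 1)
    (hsum : ∑ i, v i = 0) :
    ∃ π : Equiv.Perm (Fin N), ∀ k : ℕ, k ≤ N →
      ‖∑ i ∈ Finset.univ.filter (fun i : Fin N => i.val < k), v (π i)‖ ≤ 2 ^ 102 * Real.sqrt (d : ℝ) := by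
  obtain ⟨π, hπ⟩ := steinitz_sq d N v hv hsum
  refine ⟨π, fun k hk => ?_⟩
  have h1 := hπ k hk
  refine (abs_le_of_sq_le_sq' ?_ (mul_nonneg (by norm_num) (Real.sqrt_nonneg _))).2
  rw [mul_pow, Real.sq_sqrt (Nat.cast_nonneg d)]
  refine h1.trans (le_of_eq ?_)
  norm_num

end

end Vale.Agent.Lib.P262S
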