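import Vale.Agent.Lib.P262S.RoundSigns

open Finset

namespace Vale.Agent.Lib.P262S

noncomputable section

section Bd

variable {P : Type} [Fintype P]

lemma lsn_avg (L : Mat P) (β : ℝ) {u v : P → ℝ} (hu : lsn L u ^ 2 ≤ β) (hv : lsn L v ^ 2 ≤ β) :
    lsn L ((1 / 2 : ℝ) • (u + v)) ^ 2 ≤ β := by
  have h1 := lsn_smul L (1 / 2) (u + v)
  have h2 := lsn_add L u v
  have h3 := lsn_nonneg L u
  have h4 := lsn_nonneg L v
  have h5 := lsn_nonneg L ((1 / 2 : ℝ) • (u + v))
  rw [abs_of_pos (by norm_num : (0:ℝ) < 1 / 2)] at h1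
  have h6 : lsn L ((1 / 2 : ℝ) • (u + v)) ≤ (1 / 2) * (lsn L u + lsn L v) := by
    rw [h1]
    nlinarith
  calc lsn L ((1 / 2 : ℝ) • (u + v)) ^ 2 ≤ ((1 / 2) * (lsn L u + lsn L v)) ^ 2 := by gcongr
    _ ≤ (lsn L u ^ 2 + lsn L v ^ 2) / 2 := by nlinarith [sq_nonneg (lsn L u - lsn L v)]
    _ ≤ β := by linarith

lemma lsn_neg (L : Mat P) (v : P → ℝ) : lsn L (-v) = lsn L v := by
  have h := lsn_smul L (-1) v
  simpa using h

lemma lsn_zero (L : Mat P) : lsn L (0 : P → ℝ) = 0 := by
  simp [lsn]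

end Bd

section Groups

variable {I P : Type} [DecidableEq I] [Fintype P]

/-- Sum of a vector family over a group. -/
def Sp (p : I → P → ℝ) (C : Finset I) : P → ℝ := fun α => ∑ i ∈ C, p i α

/-- Sum over the first `b` groups. -/
def Pre (p : I → P → ℝ) (G : List (Finset I)) (b : ℕ) : P → ℝ := ((G.take b).map (Sp p)).sum

/-- Signed sum of a group. -/
def Se (ε : I → ℝ) (p : I → P → ℝ) (C : Finset I) : P → ℝ := fun α => ∑ i ∈ C, ε i * p i α

/-- Signed sum over the first `b` groups. -/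
def PreS (ε : I → ℝ) (p : I → P → ℝ) (G : List (Finset I)) (b : ℕ) : P → ℝ :=
  ((G.take b).map (Se ε p)).sum

/-- Deviation of the first `b` groups from the proportional part. -/
def DevG (p : I → P → ℝ) (R : Finset I) (G : List (Finset I)) (M b : ℕ) : P → ℝ :=
  Pre p G b - ((b : ℝ) / (M : ℝ)) • Sp p R

/-- Upper part of a group. -/
def Gp (ε : I → ℝ) (C : Finset I) : Finset I := C.filter (fun i => ε i = 1)
/-- Lower part of a group. -/
def Gm (ε : I → ℝ) (C : Finset I) : Finset I := C.filter (fun i => ¬ ε i = 1)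

lemma Sp_Gp (ε : I → ℝ) (hε : ∀ i, ε i = 1 ∨ ε i = -1) (p : I → P → ℝ) (C : Finset I) :
    Sp p (Gp ε C) = (1 / 2 : ℝ) • (Sp p C + Se ε p C) := by
  funext α
  simp only [Sp, Se, Gp, Pi.smul_apply, Pi.add_apply, smul_eq_mul]
  rw [Finset.sum_filter, ← Finset.sum_add_distrib, Finset.mul_sum]
  refine Finset.sum_congr rfl (fun i _ => ?_)
  rcases hε i with h | h <;> rw [h] <;> norm_num <;> ring

lemma Sp_Gm (ε : I → ℝ) (hε : ∀ i, ε i = 1 ∨ ε i = -1) (p : I → P → ℝ) (C : Finset I) :
    Sp p (Gm ε C) = (1 / 2 : ℝ) • (Sp p C - Se ε p C) := by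
  funext α
  simp only [Sp, Se, Gm, Pi.smul_apply, Pi.sub_apply, smul_eq_mul]
  rw [Finset.sum_filter, ← Finset.sum_sub_distrib, Finset.mul_sum]
  refine Finset.sum_congr rfl (fun i _ => ?_)
  rcases hε i with h | h <;> rw [h] <;> norm_num <;> ring

/-- The new order of the groups. -/
def GNext (ε : I → ℝ) (G : List (Finset I)) : List (Finset I) :=
  G.map (Gp ε) ++ (G.map (Gm ε)).reverse

lemma GNext_length (ε : I → ℝ) (G : List (Finset I)) : (GNext ε G).length = 2 * G.length := by
  simp [GNext]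
  ring

lemma listsum_map_smul {α : Type} (f g h : α → P → ℝ) (c : ℝ) (l : List α)
    (hf : ∀ a ∈ l, f a = c • (g a + h a)) :
    (l.map f).sum = c • ((l.map g).sum + (l.map h).sum) := by
  induction l with
  | nil => simp
  | cons a l ih =>
    simp only [List.map_cons, List.sum_cons]
    rw [hf a List.mem_cons_self, ih (fun b hb => hf b (List.mem_cons_of_mem _ hb))]
    simp only [smul_add]
    abel

lemma Pre_Gp (ε : I → ℝ) (hε : ∀ i, ε i = 1 ∨ ε i = -1) (p : I → P → ℝ) (G : List (Finset I)) (b : ℕ) :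
    Pre p (G.map (Gp ε)) b = (1 / 2 : ℝ) • (Pre p G b + PreS ε p G b) := by
  unfold Pre PreS
  rw [← List.map_take, List.map_map]
  exact listsum_map_smul _ _ _ _ _ (fun C _ => Sp_Gp ε hε p C)

lemma listsum_map_neg {α : Type} (g : α → P → ℝ) (l : List α) :
    (l.map (fun C => - g C)).sum = - (l.map g).sum := by
  induction l with
  | nil => simp
  | cons a l ih =>
    simp only [List.map_cons, List.sum_cons, ih]
    abel

lemma Pre_Gm (ε : I → ℝ) (hε : ∀ i, ε i = 1 ∨ ε i = -1) (p : I → P → ℝ) (G : List (Finset I)) (b : ℕ) :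
    Pre p (G.map (Gm ε)) b = (1 / 2 : ℝ) • (Pre p G b - PreS ε p G b) := by
  unfold Pre PreS
  rw [← List.map_take, List.map_map]
  have : ∀ C ∈ G.take b, (Sp p ∘ Gm ε) C = (1 / 2 : ℝ) • (Sp p C + (fun C => -Se ε p C) C) := by
    intro C _
    simp only [Function.comp]
    rw [Sp_Gm ε hε, sub_eq_add_neg]
  rw [listsum_map_smul _ _ _ _ _ this, listsum_map_neg, sub_eq_add_neg]

lemma Pre_all (p : I → P → ℝ) (G : List (Finset I)) : Pre p G G.length = (G.map (Sp p)).sum := by
  unfold Pre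
  rw [List.take_length]

lemma Pre_reverse (p : I → P → ℝ) (G : List (Finset I)) (c : ℕ) (hc : c ≤ G.length) :
    Pre p G.reverse c = Pre p G G.length - Pre p G (G.length - c) := by
  unfold Pre
  rw [List.take_reverse, List.map_reverse, List.sum_reverse, List.take_length]
  have h := List.take_append_drop (G.length - c) G
  have h2 : (G.map (Sp p)).sum = ((G.take (G.length - c)).map (Sp p)).sum +
      ((G.drop (G.length - c)).map (Sp p)).sum := by
    rw [← List.sum_append, ← List.map_append, h]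
  rw [h2]
  abel

end Groups

section Rounds

variable {I P : Type} [Fintype I] [DecidableEq I] [Fintype P] [DecidableEq P]

/-- The union of a list of groups. -/
def bigU (G : List (Finset I)) : Finset I := G.foldr (· ∪ ·) ∅

omit [Fintype I] in
lemma mem_bigU {G : List (Finset I)} {i : I} : i ∈ bigU G ↔ ∃ C ∈ G, i ∈ C := by
  induction G with
  | nil => simp [bigU]
  | cons C G ih =>
    have e : bigU (C :: G) = C ∪ bigU G := rfl
    rw [e, Finset.mem_union, ih]
    simp

omit [Fintype I] [DecidableEq P] in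
lemma Sp_bigU (p : I → P → ℝ) {G : List (Finset I)} (hG : G.Pairwise Disjoint) :
    (G.map (Sp p)).sum = Sp p (bigU G) := by
  induction G with
  | nil =>
    funext α
    simp [bigU, Sp]
  | cons C G ih =>
    have hG' := List.pairwise_cons.mp hG
    have e : bigU (C :: G) = C ∪ bigU G := rfl
    have hd : Disjoint C (bigU G) := by
      rw [Finset.disjoint_left]
      intro i hi hi'
      obtain ⟨C', hC', hiC'⟩ := mem_bigU.mp hi'
      exact Finset.disjoint_left.mp (hG'.1 C' hC') hi hiC'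
    rw [List.map_cons, List.sum_cons, ih hG'.2, e]
    funext α
    simp only [Sp, Pi.add_apply]
    rw [Finset.sum_union hd]

omit [Fintype I] [Fintype P] [DecidableEq P] in
lemma toList_sum_aux (ε : I → ℝ) (p : I → P → ℝ) (C : Finset I) (α : P) :
    (C.toList.map (fun i => ε i * p i α)).sum = ∑ i ∈ C, ε i * p i α := by
  have h := List.sum_toFinset (fun i => ε i * p i α) C.nodup_toList
  rw [← h, Finset.toList_toFinset]

/-- Flat list of the atoms of the groups. -/
def flat (G : List (Finset I)) : List I := G.flatMap Finset.toList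

/-- Position of a group boundary in the flat list. -/
def posn (G : List (Finset I)) (b : ℕ) : ℕ := ((G.take b).map Finset.card).sum

omit [Fintype I] [DecidableEq I] in
lemma flat_cons (C : Finset I) (G : List (Finset I)) : flat (C :: G) = C.toList ++ flat G := by
  simp [flat]

omit [Fintype I] [DecidableEq I] in
lemma flat_length (G : List (Finset I)) : (flat G).length = (G.map Finset.card).sum := by
  induction G with
  | nil => simp [flat]
  | cons C G ih =>
    rw [flat_cons, List.length_append, ih]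
    simp

omit [Fintype I] [DecidableEq I] in
lemma flat_take (G : List (Finset I)) (b : ℕ) : (flat G).take (posn G b) = flat (G.take b) := by
  induction G generalizing b with
  | nil => simp [flat, posn]
  | cons C G ih =>
    cases b with
    | zero => simp [flat, posn]
    | succ b =>
      have e : posn (C :: G) (b + 1) = C.toList.length + posn G b := by
        simp [posn]
      rw [e, flat_cons, List.take_length_add_append, ih]
      simp [flat_cons]

omit [Fintype I] in
lemma flat_nodup {G : List (Finset I)} (hG : G.Pairwise Disjoint) : (flat G).Nodup := by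
  induction G with
  | nil => simp [flat]
  | cons C G ih =>
    have hG' := List.pairwise_cons.mp hG
    rw [flat_cons]
    refine List.Nodup.append C.nodup_toList (ih hG'.2) ?_
    intro i hi hi'
    have h1 : i ∈ C := Finset.mem_toList.mp hi
    obtain ⟨C', hC', hiC'⟩ := List.mem_flatMap.mp hi'
    exact Finset.disjoint_left.mp (hG'.1 C' hC') h1 (Finset.mem_toList.mp hiC')

omit [Fintype I] in
lemma flat_toFinset (G : List (Finset I)) : (flat G).toFinset = bigU G := by
  ext i
  rw [List.mem_toFinset, mem_bigU]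
  simp [flat]

omit [Fintype I] [DecidableEq I] [DecidableEq P] in
lemma QQ_append' (ε : I → ℝ) (p : I → P → ℝ) (l₁ l₂ : List I) [Fintype I] [DecidableEq I] [DecidableEq P]:
    QQ ε 0 p (l₁ ++ l₂) = QQ ε 0 p l₁ + QQ ε 0 p l₂ := by
  funext α
  simp [QQ]

omit [DecidableEq P] in
lemma QQ_flat [DecidableEq P] (ε : I → ℝ) (p : I → P → ℝ) (G : List (Finset I)) :
    QQ ε 0 p (flat G) = (G.map (Se ε p)).sum := by
  induction G with
  | nil =>
    funext α
    simp [QQ, flat]
  | cons C G ih =>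
    rw [flat_cons, QQ_append', ih, List.map_cons, List.sum_cons]
    congr 1
    funext α
    simp only [QQ, Se, Pi.zero_apply, sub_zero]
    exact toList_sum_aux ε p C α

/-- The tests that survive the rounds. -/
def RawOK {AW AF AK : Type} [Fintype AW] [Fintype AF] [Fintype AK]
    (w : AW → P → ℝ) (M uW : AW → ℝ) (f : AF → P → ℝ) (uF : AF → ℝ)
    (L : AK → Mat P) (c : AK → ℝ) (p : I → P → ℝ) (R : Finset I) (v : P → ℝ) : Prop :=
  (∀ a, lsn (wmat (w a)) v ^ 2 ≤ 2 ^ 32 * (2 * ∑ α, w a α + 4 * M a * uW a)) ∧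
  (∀ a, lsn (rmat (f a)) v ^ 2 ≤ 2 ^ 32 * ((2 + 4 * uF a) * ∑ α, f a α ^ 2)) ∧
  (∀ a, lsn (L a) v ^ 2 ≤ 2 ^ 32 * (c a * ∑ i ∈ R, ∑ ξ, (∑ α, L a ξ α * p i α) ^ 2))

section RawClosure

variable {AW AF AK : Type} [Fintype AW] [Fintype AF] [Fintype AK]
    {w : AW → P → ℝ} {M uW : AW → ℝ} {f : AF → P → ℝ} {uF : AF → ℝ}
    {L : AK → Mat P} {c : AK → ℝ} {p : I → P → ℝ} {R : Finset I}

omit [Fintype I] in
lemma RawOK.half {u v : P → ℝ} (hu : RawOK w M uW f uF L c p R u) (hv : RawOK w M uW f uF L c p R v) :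
    RawOK w M uW f uF L c p R ((1 / 2 : ℝ) • (u + v)) :=
  ⟨fun a => lsn_avg _ _ (hu.1 a) (hv.1 a), fun a => lsn_avg _ _ (hu.2.1 a) (hv.2.1 a),
    fun a => lsn_avg _ _ (hu.2.2 a) (hv.2.2 a)⟩

omit [Fintype I] in
lemma RawOK.neg {v : P → ℝ} (hv : RawOK w M uW f uF L c p R v) :
    RawOK w M uW f uF L c p R (-v) := by
  refine ⟨fun a => ?_, fun a => ?_, fun a => ?_⟩
  · rw [lsn_neg]; exact hv.1 a
  · rw [lsn_neg]; exact hv.2.1 a
  · rw [lsn_neg]; exact hv.2.2 a

omit [Fintype I] in
lemma RawOK.zero (hM : ∀ a, 0 < M a) (hu : ∀ a, 0 ≤ uW a) (hw0 : ∀ a α, 0 ≤ w a α)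
    (huF : ∀ a, 0 ≤ uF a) (hc : ∀ a, 0 < c a) :
    RawOK w M uW f uF L c p R 0 := by
  refine ⟨fun a => ?_, fun a => ?_, fun a => ?_⟩
  · rw [lsn_zero]
    have h1 : 0 ≤ ∑ α, w a α := Finset.sum_nonneg (fun α _ => hw0 a α)
    have h2 := mul_nonneg (hM a).le (hu a)
    norm_num
    nlinarith
  · rw [lsn_zero]
    have h1 : 0 ≤ ∑ α, f a α ^ 2 := Finset.sum_nonneg (fun α _ => sq_nonneg _)
    have h2 := huF a
    norm_num
    positivity
  · rw [lsn_zero]
    have h1 : 0 ≤ ∑ i ∈ R, ∑ ξ, (∑ α, L a ξ α * p i α) ^ 2 :=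
      Finset.sum_nonneg (fun i _ => Finset.sum_nonneg (fun ξ _ => sq_nonneg _))
    have h2 := (hc a).le
    norm_num
    positivity

end RawClosure

/-- One more step of the fold identities. -/
lemma DevG_next_low (ε : I → ℝ) (hε : ∀ i, ε i = 1 ∨ ε i = -1) (p : I → P → ℝ) (R : Finset I)
    (G : List (Finset I)) (K b : ℕ) (hlen : G.length = 2 ^ K) (hb : b ≤ 2 ^ K) :
    DevG p R (GNext ε G) (2 ^ (K + 1)) b =
      (1 / 2 : ℝ) • (DevG p R G (2 ^ K) b + PreS ε p G b) := by
  have h1 : Pre p (GNext ε G) b = Pre p (G.map (Gp ε)) b := by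
    unfold Pre GNext
    rw [List.take_append_of_le_length (by simp [hlen, hb])]
  funext α
  simp only [DevG, h1, Pre_Gp ε hε, Pi.sub_apply, Pi.smul_apply, Pi.add_apply, smul_eq_mul]
  push_cast
  rw [pow_succ]
  have h2 : ((2 : ℝ) ^ K) ≠ 0 := by positivity
  field_simp
  ring

lemma DevG_next_high (ε : I → ℝ) (hε : ∀ i, ε i = 1 ∨ ε i = -1) (p : I → P → ℝ) (R : Finset I)
    (G : List (Finset I)) (K b : ℕ) (hlen : G.length = 2 ^ K) (hb : b ≤ 2 ^ K)
    (hall : Pre p G (2 ^ K) = Sp p R) :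
    DevG p R (GNext ε G) (2 ^ (K + 1)) (2 ^ (K + 1) - b) =
      (1 / 2 : ℝ) • (- DevG p R G (2 ^ K) b + PreS ε p G b) := by
  have hP : 2 ^ (K + 1) = 2 ^ K + 2 ^ K := by rw [pow_succ]; ring
  have hsub : 2 ^ (K + 1) - b = 2 ^ K + (2 ^ K - b) := by omega
  have h1 : Pre p (GNext ε G) (2 ^ (K + 1) - b) =
      Pre p (G.map (Gp ε)) (2 ^ K) + Pre p (G.map (Gm ε)).reverse (2 ^ K - b) := by
    unfold GNext
    rw [hsub]
    unfold Pre
    rw [List.take_append, List.map_append, List.sum_append]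
    have hl : (G.map (Gp ε)).length = 2 ^ K := by simp [hlen]
    rw [hl, List.take_of_length_le (by rw [hl]; omega), Nat.add_sub_cancel_left,
      List.take_of_length_le (l := (List.map (Gp ε) G)) (i := 2 ^ K) (by rw [hl])]
  have h2 : Pre p (G.map (Gm ε)).reverse (2 ^ K - b) =
      Pre p (G.map (Gm ε)) (2 ^ K) - Pre p (G.map (Gm ε)) b := by
    have hl : (G.map (Gm ε)).length = 2 ^ K := by simp [hlen]
    rw [Pre_reverse p _ _ (by rw [hl]; omega), hl]
    congr 2
    omega
  rw [h2, Pre_Gp ε hε, Pre_Gm ε hε, Pre_Gm ε hε, hall] at h1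
  have hcast : ((2 ^ (K + 1) - b : ℕ) : ℝ) = 2 ^ (K + 1) - (b : ℝ) := by
    rw [Nat.cast_sub (by omega)]
    push_cast
    ring
  funext α
  simp only [DevG, h1, Pi.sub_apply, Pi.smul_apply, Pi.add_apply, Pi.neg_apply, smul_eq_mul, hcast]
  push_cast
  rw [pow_succ]
  have h3 : ((2 : ℝ) ^ K) ≠ 0 := by positivity
  field_simp
  ring

/-- **Folding rounds**: repeated halving with tests that survive for all boundaries. -/
theorem fold_rounds (p : I → P → ℝ) (hp : ∀ i, ∑ α, p i α ^ 2 ≤ 3) (R : Finset I)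
    {AW AF AK : Type} [Fintype AW] [Fintype AF] [Fintype AK]
    (w : AW → P → ℝ) (M uW : AW → ℝ) (hM : ∀ a, 0 < M a) (hu : ∀ a, 0 ≤ uW a)
    (hw0 : ∀ a α, 0 ≤ w a α) (hw1 : ∀ a α, w a α ≤ M a)
    (f : AF → P → ℝ) (uF : AF → ℝ) (huF : ∀ a, 0 ≤ uF a)
    (L : AK → Mat P) (c : AK → ℝ) (hc : ∀ a, 0 < c a) (K : ℕ)
    (hbudget : (2 ^ K : ℝ) * (∑ a, Real.exp (- uW a) + ∑ a, Real.exp (- uF a)) + ∑ a, 8 / c a ≤ 1 / 40) :
    ∃ G : List (Finset I), G.length = 2 ^ K ∧ G.Pairwise Disjoint ∧ bigU G = R ∧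
      ∀ b ≤ 2 ^ K, RawOK w M uW f uF L c p R (DevG p R G (2 ^ K) b) := by
  have hS : 0 ≤ ∑ a, Real.exp (- uW a) + ∑ a, Real.exp (- uF a) :=
    add_nonneg (Finset.sum_nonneg (fun _ _ => (Real.exp_pos _).le))
      (Finset.sum_nonneg (fun _ _ => (Real.exp_pos _).le))
  induction K with
  | zero =>
    refine ⟨[R], by simp, by simp, by simp [bigU], ?_⟩
    intro b hb
    have hz : DevG p R [R] (2 ^ 0) b = 0 := by
      interval_cases b
      · funext α
        simp [DevG, Pre]
      · funext α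
        simp [DevG, Pre, Sp]
    rw [hz]
    exact RawOK.zero hM hu hw0 huF hc
  | succ K ih =>
    have hb' : (2 ^ K : ℝ) * (∑ a, Real.exp (- uW a) + ∑ a, Real.exp (- uF a)) + ∑ a, 8 / c a ≤ 1 / 40 := by
      refine le_trans ?_ hbudget
      have : (2 ^ K : ℝ) ≤ 2 ^ (K + 1) := by
        rw [pow_succ]
        have : (0 : ℝ) < 2 ^ K := by positivity
        linarith
      gcongr
    obtain ⟨G, hlen, hdisj, hU, hok⟩ := ih hb'
    set pos : Finset ℕ := (Finset.range (2 ^ K + 1)).image (posn G) with hpos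
    have hcard : ((pos.card : ℕ) : ℝ) ≤ 2 ^ (K + 1) := by
      have h1 : pos.card ≤ 2 ^ K + 1 := by
        refine Finset.card_image_le.trans ?_
        simp
      have h2 : 1 ≤ 2 ^ K := Nat.one_le_two_pow
      have h3 : pos.card ≤ 2 ^ (K + 1) := by
        rw [pow_succ]
        omega
      exact_mod_cast h3
    have hbud : (pos.card : ℝ) * (∑ a, Real.exp (- uW a) + ∑ a, Real.exp (- uF a)) + ∑ a, 8 / c a ≤ 1 / 40 := by
      refine le_trans ?_ hbudget
      gcongr
    obtain ⟨ε, hε, h1, h2, h3⟩ := round_signs (flat G) (flat_nodup hdisj) (fun _ => 0)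
      (by intro _; norm_num) p hp pos w M uW hM hu hw0 hw1 f uF huF L c hc hbud
    have hposle : ∀ b, posn G b ≤ (flat G).length := by
      intro b
      rw [flat_length]
      unfold posn
      exact List.Sublist.sum_le_sum ((List.take_sublist b G).map _) (by simp)
    have hQ : ∀ b ≤ 2 ^ K, RawOK w M uW f uF L c p R (PreS ε p G b) := by
      intro b hb
      have hk : posn G b ∈ pos := Finset.mem_image.mpr ⟨b, Finset.mem_range.mpr (by omega), rfl⟩
      have e : QQ ε (fun _ => 0) p ((flat G).take (posn G b)) = PreS ε p G b := by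
        rw [flat_take]
        exact QQ_flat ε p (G.take b)
      have hT : (flat G).toFinset = R := by rw [flat_toFinset, hU]
      refine ⟨fun a => ?_, fun a => ?_, fun a => ?_⟩
      · have := h1 _ hk (hposle b) a
        rwa [e] at this
      · have := h2 _ hk (hposle b) a
        rwa [e] at this
      · have := h3 _ (hposle b) a
        rwa [e, hT] at this
    have hall : Pre p G (2 ^ K) = Sp p R := by
      rw [← hlen, Pre_all, Sp_bigU p hdisj, hU]
    refine ⟨GNext ε G, ?_, ?_, ?_, ?_⟩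
    · rw [GNext_length, hlen]
      ring
    · unfold GNext
      rw [List.pairwise_append]
      refine ⟨?_, ?_, ?_⟩
      · rw [List.pairwise_map]
        refine hdisj.imp (fun {a b} h => ?_)
        exact Finset.disjoint_of_subset_left (Finset.filter_subset _ _)
          (Finset.disjoint_of_subset_right (Finset.filter_subset _ _) h)
      · rw [List.pairwise_reverse, List.pairwise_map]
        refine hdisj.imp (fun {a b} h => ?_)
        exact Finset.disjoint_of_subset_left (Finset.filter_subset _ _)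
          (Finset.disjoint_of_subset_right (Finset.filter_subset _ _) h.symm)
      · intro A hA B hB
        obtain ⟨C, _, rfl⟩ := List.mem_map.mp hA
        obtain ⟨C', _, rfl⟩ := List.mem_map.mp (List.mem_reverse.mp hB)
        rw [Finset.disjoint_left]
        intro i hi hi'
        exact (Finset.mem_filter.mp hi').2 (Finset.mem_filter.mp hi).2
    · ext i
      rw [mem_bigU, ← hU, mem_bigU]
      constructor
      · rintro ⟨C', hC', hi⟩
        rcases List.mem_append.mp hC' with h | h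
        · obtain ⟨C, hC, rfl⟩ := List.mem_map.mp h
          exact ⟨C, hC, (Finset.mem_filter.mp hi).1⟩
        · obtain ⟨C, hC, rfl⟩ := List.mem_map.mp (List.mem_reverse.mp h)
          exact ⟨C, hC, (Finset.mem_filter.mp hi).1⟩
      · rintro ⟨C, hC, hi⟩
        by_cases hp1 : ε i = 1
        · exact ⟨Gp ε C, List.mem_append_left _ (List.mem_map_of_mem hC),
            Finset.mem_filter.mpr ⟨hi, hp1⟩⟩
        · exact ⟨Gm ε C, List.mem_append_right _ (List.mem_reverse.mpr (List.mem_map_of_mem hC)),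
            Finset.mem_filter.mpr ⟨hi, hp1⟩⟩
    · intro b hb
      by_cases hb2 : b ≤ 2 ^ K
      · rw [DevG_next_low ε hε p R G K b hlen hb2]
        exact (hok b hb2).half (hQ b hb2)
      · have hP : 2 ^ (K + 1) = 2 ^ K + 2 ^ K := by rw [pow_succ]; ring
        have e : b = 2 ^ (K + 1) - (2 ^ (K + 1) - b) := by omega
        have hc2 : 2 ^ (K + 1) - b ≤ 2 ^ K := by omega
        rw [e, DevG_next_high ε hε p R G K _ hlen hc2 hall]
        exact (hok _ hc2).neg.half (hQ _ hc2)

end Rounds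

end

end Vale.Agent.Lib.P262S
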