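import Vale.Agent.Lib.P262S.Bin

open Finset
open Vale.Agent.Lib.P262 (nm nm_nonneg nm_sq nm_add_le nm_mono nm_smul nm_le_of_sq sum_sq_le_of_nm exists_tilt)

namespace Vale.Agent.Lib.P262S

noncomputable section

variable {I D : Type} [Fintype I] [DecidableEq I] [Fintype D] [DecidableEq D]

variable {S : Sys I D}

/-- The zero vector passes the tests of the tilt. -/
lemma tiltOK_zero {t j : ℕ} {Yh : ℝ} {x y : D → ℝ} {s R : Finset I} (hY : 0 ≤ Yh) :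
    TiltOK S t j Yh x y s R (0 : Pc D → ℝ) := by
  have hvp : vp (0 : Pc D → ℝ) = fun _ => 0 := rfl
  have hvi : vi (0 : Pc D → ℝ) = fun _ => 0 := rfl
  have hq : ∀ w : D × D → ℝ, qf w (vp (0 : Pc D → ℝ)) = 0 := by
    intro w
    simp [qf, hvp]
  refine ⟨?_, ?_, ?_, ?_, ?_, ?_, ?_, ?_, ?_⟩
  · rw [hq]
    positivity
  · intro c hc
    rw [hq]
    have := Xc_pos S hc
    positivity
  · simp only [hvp, Finset.sum_const_zero, abs_zero]
    positivity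
  · simp only [hvp, mul_zero, Finset.sum_const_zero, abs_zero]
    positivity
  · simp only [hvp, mul_zero, Finset.sum_const_zero, abs_zero]
    positivity
  · simp [hvi, hY]
  · simp only [hvi, mul_zero, Finset.sum_const_zero]
    simp
    positivity
  · simp only [hvi, mul_zero, Finset.sum_const_zero]
    simp
    positivity
  · have : vc (0 : Pc D → ℝ) = 0 := rfl
    rw [this, abs_zero]
    positivity

/-- Adding one group to the prefix. -/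
lemma Pre_succ {P : Type} (p : I → P → ℝ) (G : List (Finset I)) (l : ℕ) (hl : l < G.length) :
    Pre p G (l + 1) = Pre p G l + Sp p G[l] := by
  unfold Pre
  rw [List.take_succ_eq_append_getElem hl, List.map_append, List.sum_append]
  simp

/-- The room used by a fold. -/
lemma fold_nu {t j' J' : ℕ} {u c : ℝ} {x y : D → ℝ} {R Ex : Finset I} {v : Pc D → ℝ}
    (hvn : Noise S t j' u x y R v) (hu0 : 0 ≤ u) (hu : u = (J' : ℝ) + 7) (hJ'J : (J' : ℝ) ≤ JJ S.y t) (hc : |c| ≤ 1)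
    (hExc : (Ex.card : ℝ) ≤ 2 ^ 62) (r : ℕ) :
    ∑ a ∈ pre S.y (HH S.y t) r, (|vi v a + c * ∑ i ∈ Ex, S.z i a|) ^ 2 ≤ 2 ^ 40 * ((r : ℝ) + Bd S t) := by
  have h1 := hvn.pre_all hu0 r
  have h2 : ∑ a ∈ pre S.y (HH S.y t) r, (∑ i ∈ Ex, S.z i a) ^ 2 ≤ 2 ^ 124 := by
    refine (sum_h_sq _ Ex).trans ?_
    have h3 := Yy_le_card (S := S) (pre S.y (HH S.y t) r) Ex
    have h4 := S.Yy_nonneg (pre S.y (HH S.y t) r) Ex
    calc (Ex.card : ℝ) * S.Yy (pre S.y (HH S.y t) r) Ex ≤ 2 ^ 62 * 2 ^ 62 :=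
          mul_le_mul hExc (h3.trans hExc) h4 (by norm_num)
      _ = 2 ^ 124 := by norm_num
  have hc2 : c ^ 2 ≤ 1 := by
    have := abs_le.mp hc
    nlinarith
  have h3 : ∑ a ∈ pre S.y (HH S.y t) r, (|vi v a + c * ∑ i ∈ Ex, S.z i a|) ^ 2 ≤
      2 * ∑ a ∈ pre S.y (HH S.y t) r, vi v a ^ 2 + 2 * ∑ a ∈ pre S.y (HH S.y t) r, (∑ i ∈ Ex, S.z i a) ^ 2 := by
    rw [Finset.mul_sum, Finset.mul_sum, ← Finset.sum_add_distrib]
    refine Finset.sum_le_sum (fun a _ => ?_)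
    simp only [sq_abs]
    have h4 : (c * ∑ i ∈ Ex, S.z i a) ^ 2 ≤ (∑ i ∈ Ex, S.z i a) ^ 2 := by
      rw [mul_pow]
      nlinarith [sq_nonneg (∑ i ∈ Ex, S.z i a)]
    nlinarith [sq_nonneg (vi v a - c * ∑ i ∈ Ex, S.z i a)]
  refine h3.trans ?_
  unfold Bd
  have hr0 : (0 : ℝ) ≤ r := by positivity
  rw [hu] at h1
  have hJJ : (J' : ℝ) + 7 ≤ (JJ S.y t : ℝ) + 7 := by linarith
  have hJ0 : (0 : ℝ) ≤ JJ S.y t := by positivity
  norm_num at h1 h2 ⊢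
  nlinarith

/-- Convexity on the high coordinates. -/
lemma fold_conv {X : Finset D} {τ : ℝ} {x y m n : D → ℝ} (hτ0 : 0 ≤ τ) (hτ1 : τ ≤ 1)
    (hm : ∀ a, m a = (1 - τ) * x a + τ * y a + n a) :
    5 * ∑ a ∈ X, m a ^ 2 ≤ (1 - τ) * (5 * ∑ a ∈ X, (|x a| + |n a|) ^ 2) + τ * (5 * ∑ a ∈ X, (|y a| + |n a|) ^ 2) := by
  simp only [Finset.mul_sum, ← Finset.sum_add_distrib]
  refine Finset.sum_le_sum (fun a _ => ?_)
  have h4 : |m a| ≤ (1 - τ) * (|x a| + |n a|) + τ * (|y a| + |n a|) := by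
    rw [hm a]
    have h5 := abs_add_le ((1 - τ) * x a + τ * y a) (n a)
    have h6 := abs_add_le ((1 - τ) * x a) (τ * y a)
    rw [abs_mul, abs_mul, abs_of_nonneg (by linarith : 0 ≤ 1 - τ), abs_of_nonneg hτ0] at h6
    nlinarith
  have h8 : m a ^ 2 ≤ ((1 - τ) * (|x a| + |n a|) + τ * (|y a| + |n a|)) ^ 2 := by
    rw [← sq_abs (m a)]
    exact pow_le_pow_left₀ (abs_nonneg _) h4 2
  have h9 := conv_sq τ (|x a| + |n a|) (|y a| + |n a|) hτ0 hτ1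
  nlinarith

/-- A point of a fold. -/
lemma fold_point {t j J' : ℕ} {Yh u c τ ρ₀ : ℝ} {x y m : D → ℝ} {s Ex C : Finset I} {v : Pc D → ℝ}
    (hI : Inv S t j s Yh) (hH : Heavy S t Yh x y s Ex) (hJ1 : 1 ≤ J') (hle : j + J' ≤ jj S.y (t + 1))
    (hu0 : 0 ≤ u) (hu : u = (J' : ℝ) + 7) (hJ'J : (J' : ℝ) ≤ JJ S.y t) (hN : (NN S.y t).Nonempty)
    (hτ0 : 0 ≤ τ) (hτ1 : τ ≤ 1) (hc : |c| ≤ 1)
    (hm : ∀ a, m a = (1 - τ) * x a + τ * y a + (vi v a + c * ∑ i ∈ Ex, S.z i a + vi (0 : Pc D → ℝ) a))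
    (hvn : Noise S t (j + J') u x y (s \ Ex) v)
    (cNx : S.Nn (TF S.y t) C x ≤ 4 / 5 * S.Nn (TF S.y t) s x)
    (cNy : S.Nn (TF S.y t) C y ≤ 4 / 5 * S.Nn (TF S.y t) s y)
    (cY : S.Yy (TF S.y t) C ≤ 7 / 10 * Yh)
    (hx : TBp S t j s Yh x ρ₀) (hy' : TBp S t j s Yh y ρ₀) :
    TB S t (j + J') C (7 / 10 * Yh) m (ρ₀ + 2 ^ 44 * Bd S t + inc S t) := by
  have hY0 : 0 ≤ Yh := (S.Yy_nonneg _ _).trans hI.i3
  have hT := point_T (S := S) (J' := J') (f := 0) hI hH hτ0 hτ1 hc hm hvn (tiltOK_zero hY0) cNx cNy cY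
  have hB := point_N (S := S) (J' := J') (f := 0) hI hJ1 hle hH.hcard hτ0 hτ1 hc hm hu0 (by rw [hu]) hvn
  have hinc : 2 ^ 132 * ((JJ S.y t : ℝ) + ((NN S.y t).card : ℝ) + 1) + 100 * ((JJ S.y t : ℝ) + 1) *
      ∑ a ∈ NN S.y t, vi (0 : Pc D → ℝ) a ^ 2 ≤ inc S t := by
    have e : ∑ a ∈ NN S.y t, vi (0 : Pc D → ℝ) a ^ 2 = 0 := by
      simp [vi]
    rw [e]
    unfold inc
    rw [if_pos hN]
    have h1 := bt_nonneg S t
    have h2 : (0 : ℝ) ≤ (WW S.y t).card := by positivity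
    have h3 : (0 : ℝ) ≤ (WW S.y (t + 1)).card := by positivity
    have h4 : (0 : ℝ) ≤ JJ S.y t := by positivity
    have h5 : (0 : ℝ) ≤ (NN S.y t).card := by positivity
    nlinarith
  set n : D → ℝ := fun a => vi v a + c * ∑ i ∈ Ex, S.z i a with hn
  have hν0 : ∀ a, 0 ≤ |n a| := fun a => abs_nonneg _
  have hνs := fold_nu (Ex := Ex) hvn hu0 hu hJ'J hc hH.hcard
  have hm' : ∀ a, m a = (1 - τ) * x a + τ * y a + n a := by
    intro a
    rw [hm a]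
    simp [vi, hn]
  intro r
  have h1 := hx (fun a => |n a|) hν0 hνs r
  have h2 := hy' (fun a => |n a|) hν0 hνs r
  have hH2 := fold_conv (X := pre S.y (HH S.y t) r) hτ0 hτ1 hm'
  have h3 := mul_le_mul_of_nonneg_left h1 (by linarith : 0 ≤ 1 - τ)
  have h4 := mul_le_mul_of_nonneg_left h2 hτ0
  linarith

/-- The child of a fold. -/
lemma fold_child {t j J' : ℕ} {Yh u : ℝ} {x y : D → ℝ} {s Ex : Finset I} {G : List (Finset I)}
    (hI : Inv S t j s Yh) (hH : Heavy S t Yh x y s Ex) (hJ1 : 1 ≤ J') (hle : j + J' ≤ jj S.y (t + 1))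
    (hu0 : 0 ≤ u) (hu1 : u ≤ 8 * ((JJ S.y t : ℝ) + 1)) (hY0 : 0 ≤ Yh) (hlen : G.length = 2 ^ J')
    (hU : bigU G = s \ Ex)
    (hnoise : ∀ b ≤ 2 ^ J', Noise S t (j + J') u x y (s \ Ex) (DevG (pv S.z) (s \ Ex) G (2 ^ J') b))
    {C : Finset I} (hC : C ∈ G) :
    InvC S t (j + J') C (7 / 10 * Yh) u ∧ S.Nn (TF S.y t) C x ≤ 4 / 5 * S.Nn (TF S.y t) s x ∧
      S.Nn (TF S.y t) C y ≤ 4 / 5 * S.Nn (TF S.y t) s y ∧ C.card < s.card := by
  have hCR : C ⊆ s \ Ex := by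
    intro i hi
    rw [← hU, mem_bigU]
    exact ⟨C, hC, hi⟩
  obtain ⟨l, hl, rfl⟩ := List.mem_iff_getElem.mp hC
  have hl2 : l + 1 ≤ 2 ^ J' := by rw [← hlen]; omega
  have hSp : ∀ α, Sp (pv S.z) G[l] α = (1 / 2 ^ J' : ℝ) * Sp (pv S.z) (s \ Ex) α +
      DevG (pv S.z) (s \ Ex) G (2 ^ J') (l + 1) α - DevG (pv S.z) (s \ Ex) G (2 ^ J') l α + (0 : Pc D → ℝ) α := by
    intro α
    have h1 := congrFun (Pre_succ (pv S.z) G l hl) α
    simp only [Pi.add_apply] at h1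
    simp only [DevG, Pi.sub_apply, Pi.smul_apply, smul_eq_mul, h1, Pi.zero_apply]
    push_cast
    field_simp
    ring
  exact child_main hI hH hJ1 hle hCR hu0 hu1 hSp (hnoise _ hl2) (hnoise _ (by omega)) (tiltOK_zero hY0)

/-- **The fold step.** -/
theorem fold_step {t j J' : ℕ} {Yh : ℝ} {x y : D → ℝ} {s Ex : Finset I} (hJ' : j + J' = jj S.y (t + 1))
    (hI : Inv S t j s Yh) (hH : Heavy S t Yh x y s Ex) (hy : ∀ a, y a = x a + ∑ i ∈ s, S.z i a)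
    (hN : (NN S.y t).Nonempty) :
    ∃ G : List (Finset I), G.length = 2 ^ J' ∧ G.Pairwise Disjoint ∧ bigU G = s \ Ex ∧
      (∀ C ∈ G, InvC S t (j + J') C (7 / 10 * Yh) ((J' : ℝ) + 7) ∧ C.card < s.card) ∧
      ∀ ρ₀, TBp S t j s Yh x ρ₀ → TBp S t j s Yh y ρ₀ →
        ∀ C ∈ G, ∀ b ≤ 2 ^ J',
          TB S t (j + J') C (7 / 10 * Yh) (fun a => x a + vi (Pre (pv S.z) G b) a) (ρ₀ + 2 ^ 44 * Bd S t + inc S t) ∧
          TB S t (j + J') C (7 / 10 * Yh) (fun a => x a + vi (Pre (pv S.z) G b) a + ∑ i ∈ Ex, S.z i a)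
            (ρ₀ + 2 ^ 44 * Bd S t + inc S t) := by
  set R := s \ Ex with hR
  set u : ℝ := (J' : ℝ) + 7 with hu
  have hJ1 : 1 ≤ J' := by
    have := hI.lev2
    omega
  have hle : j + J' ≤ jj S.y (t + 1) := hJ'.le
  have hJ'J : J' ≤ JJ S.y t := by
    have h1 := hI.lev1
    have h2 := jj_succ S.y t
    omega
  have hJ'Jr : (J' : ℝ) ≤ JJ S.y t := by exact_mod_cast hJ'J
  have hJ1r : (1 : ℝ) ≤ J' := by exact_mod_cast hJ1
  have hu0 : 0 ≤ u := by positivity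
  have hu1 : u ≤ 8 * ((JJ S.y t : ℝ) + 1) := by
    rw [hu]
    linarith
  have hY0 : 0 ≤ Yh := (S.Yy_nonneg _ _).trans hI.i3
  have hbud := budget_ok S J' u le_rfl
  obtain ⟨G, hlen, hdisj, hU, hok⟩ := fold_rounds (pv S.z) (pv_sq S.z S.hz) R
    (wFam S t (j + J')) (mFam S t) (uFam S u) (mFam_pos t) (uFam_nonneg hu0) (wFam_nonneg t (j + J'))
    (wFam_le hle) (fFam S t (j + J') x y) (fun _ => u) (fun _ => hu0) (lFam S t x y) (fun _ => 2 ^ 13)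
    (fun _ => by positivity) J' hbud
  have hnoise : ∀ b ≤ 2 ^ J', Noise S t (j + J') u x y R (DevG (pv S.z) R G (2 ^ J') b) :=
    fun b hb => noise_of_raw (hok b hb)
  have hchild := fun C (hC : C ∈ G) => fold_child hI hH hJ1 hle hu0 hu1 hY0 hlen hU hnoise hC
  refine ⟨G, hlen, hdisj, hU, fun C hC => ⟨(hchild C hC).1, (hchild C hC).2.2.2⟩, ?_⟩
  intro ρ₀ hx hy' C hC b hb
  obtain ⟨cI, cNx, cNy, _⟩ := hchild C hC
  have hMpos : (0 : ℝ) < ((2 ^ J' : ℕ) : ℝ) := by positivity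
  set τ : ℝ := (b : ℝ) / ((2 ^ J' : ℕ) : ℝ) with hτ
  have hτ0 : 0 ≤ τ := by positivity
  have hτ1 : τ ≤ 1 := by
    rw [hτ, div_le_one hMpos]
    exact_mod_cast hb
  set v := DevG (pv S.z) R G (2 ^ J') b with hv
  have hvn := hnoise b hb
  have hPre : ∀ a, vi (Pre (pv S.z) G b) a = τ * ∑ i ∈ R, S.z i a + vi v a := by
    intro a
    simp only [vi, hv, DevG, Pi.sub_apply, Pi.smul_apply, smul_eq_mul]
    have : Sp (pv S.z) R (Sum.inl a) = ∑ i ∈ R, S.z i a := rfl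
    rw [this]
    ring
  have hsR : ∀ a, ∑ i ∈ s, S.z i a = ∑ i ∈ R, S.z i a + ∑ i ∈ Ex, S.z i a :=
    fun a => (Finset.sum_sdiff hH.hsub).symm
  constructor
  · refine fold_point (c := -τ) (v := v) hI hH hJ1 hle hu0 hu hJ'Jr hN hτ0 hτ1
      (by rw [abs_neg, abs_of_nonneg hτ0]; exact hτ1) ?_ hvn cNx cNy cI.i3 hx hy'
    intro a
    show x a + vi (Pre (pv S.z) G b) a = _
    rw [hPre a, hy a, hsR a]
    simp only [vi, Pi.zero_apply]
    ring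
  · refine fold_point (c := 1 - τ) (v := v) hI hH hJ1 hle hu0 hu hJ'Jr hN hτ0 hτ1
      (by rw [abs_of_nonneg (by linarith)]; linarith) ?_ hvn cNx cNy cI.i3 hx hy'
    intro a
    show x a + vi (Pre (pv S.z) G b) a + ∑ i ∈ Ex, S.z i a = _
    rw [hPre a, hy a, hsR a]
    simp only [vi, Pi.zero_apply]
    ring

end

end Vale.Agent.Lib.P262S
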