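import Vale.Agent.Lib.P262S.PL

open MeasureTheory Set
open scoped ENNReal

namespace Vale.Agent.Lib.P262S

open Vale.Agent.P074 (E)

noncomputable section

variable {m : ℕ}

/-- Unnormalized Gaussian density. -/
def dens (m : ℕ) (x : E m) : ℝ≥0∞ := ENNReal.ofReal (Real.exp (-(‖x‖ ^ 2) / 2))

lemma measurable_dens : Measurable (dens m) := by
  unfold dens
  have : Continuous (fun x : E m => Real.exp (-(‖x‖ ^ 2) / 2)) := by fun_prop
  exact this.measurable.ennreal_ofReal

/-- Unnormalized Gaussian measure on `E m`. -/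
def gam (m : ℕ) : Measure (E m) := (volume : Measure (E m)).withDensity (dens m)

lemma gam_apply {A : Set (E m)} (hA : MeasurableSet A) : gam m A = ∫⁻ x in A, dens m x := by
  unfold gam
  exact withDensity_apply _ hA

lemma lintegral_gam {f : E m → ℝ≥0∞} (hf : Measurable f) :
    ∫⁻ x, f x ∂(gam m) = ∫⁻ x, dens m x * f x := by
  unfold gam
  exact lintegral_withDensity_eq_lintegral_mul _ measurable_dens hf

lemma dens_isom (R : E m ≃ₗᵢ[ℝ] E m) (x : E m) : dens m (R x) = dens m x := by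
  unfold dens
  rw [R.norm_map]

lemma gam_preimage (R : E m ≃ₗᵢ[ℝ] E m) {A : Set (E m)} (hA : MeasurableSet A) :
    gam m (R ⁻¹' A) = gam m A := by
  have hmp : MeasurePreserving R (volume : Measure (E m)) volume :=
    LinearIsometryEquiv.measurePreserving R
  have hR : Measurable R := R.continuous.measurable
  rw [gam_apply (hR hA), gam_apply hA]
  rw [← hmp.setLIntegral_comp_preimage hA measurable_dens]
  refine lintegral_congr (fun x => ?_)
  rw [dens_isom]

lemma lintegral_gam_comp (R : E m ≃ₗᵢ[ℝ] E m) {f : E m → ℝ≥0∞} (hf : Measurable f) :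
    ∫⁻ x, f (R x) ∂(gam m) = ∫⁻ x, f x ∂(gam m) := by
  have hmp : MeasurePreserving R (volume : Measure (E m)) volume :=
    LinearIsometryEquiv.measurePreserving R
  have hR : Measurable R := R.continuous.measurable
  have h1 : ∫⁻ x, f (R x) ∂(gam m) = ∫⁻ x, dens m x * f (R x) := lintegral_gam (f := fun x => f (R x)) (hf.comp hR)
  rw [h1, lintegral_gam hf]
  rw [← hmp.lintegral_comp (f := fun x => dens m x * f x) (measurable_dens.mul hf)]
  refine lintegral_congr (fun x => ?_)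
  simp only [dens_isom]

/-- The one-dimensional density. -/
def phi (s : ℝ) : ℝ≥0∞ := ENNReal.ofReal (Real.exp (-(s ^ 2) / 2))

lemma measurable_phi : Measurable phi := by
  unfold phi
  have : Continuous (fun s : ℝ => Real.exp (-(s ^ 2) / 2)) := by fun_prop
  exact this.measurable.ennreal_ofReal

lemma lintegral_exp_sq (b : ℝ) (hb : 0 < b) :
    ∫⁻ s : ℝ, ENNReal.ofReal (Real.exp (-b * s ^ 2)) = ENNReal.ofReal (Real.sqrt (Real.pi / b)) := by
  rw [← ofReal_integral_eq_lintegral_ofReal (integrable_exp_neg_mul_sq hb)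
    (Filter.Eventually.of_forall (fun _ => (Real.exp_pos _).le))]
  rw [integral_gaussian]

/-- Product formula on `Fin n → ℝ`. -/
lemma lintegral_pi_prod : ∀ (n : ℕ) (f : Fin n → ℝ → ℝ≥0∞), (∀ i, Measurable (f i)) →
    ∫⁻ x : Fin n → ℝ, ∏ i, f i (x i) = ∏ i, ∫⁻ s, f i s := by
  intro n
  induction n with
  | zero =>
    intro f _
    have hone : (volume : Measure (Fin 0 → ℝ)) univ = 1 := by
      simp [volume_pi]
    simp [hone]
  | succ n ih =>
    intro f hf
    have hmp := (volume_preserving_piFinSuccAbove (fun _ : Fin (n + 1) => ℝ) 0).symm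
    set e := (MeasurableEquiv.piFinSuccAbove (fun _ : Fin (n + 1) => ℝ) 0).symm with he
    have hm : Measurable (fun x : Fin (n + 1) → ℝ => ∏ i, f i (x i)) := by
      refine Finset.measurable_prod _ (fun i _ => (hf i).comp (measurable_pi_apply i))
    rw [← hmp.lintegral_comp hm, Measure.volume_eq_prod,
      lintegral_prod (fun z => ∏ i, f i ((e z) i)) (hm.comp e.measurable).aemeasurable]
    have hval : ∀ (t : ℝ) (x : Fin n → ℝ), ∏ i, f i ((e (t, x)) i) =
        f 0 t * ∏ i : Fin n, f i.succ (x i) := by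
      intro t x
      rw [Fin.prod_univ_succ]
      simp [he, MeasurableEquiv.piFinSuccAbove]
    simp only [hval]
    have hmr : Measurable (fun x : Fin n → ℝ => ∏ i : Fin n, f i.succ (x i)) :=
      Finset.measurable_prod _ (fun i _ => (hf i.succ).comp (measurable_pi_apply i))
    simp_rw [lintegral_const_mul _ hmr]
    rw [lintegral_mul_const _ (hf 0), ih _ (fun i => hf i.succ), Fin.prod_univ_succ]

/-- The coordinates of `E m`: the volume on `E m` is the volume on the product. -/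
lemma lintegral_E {f : E m → ℝ≥0∞} (hf : Measurable f) :
    ∫⁻ x, f x = ∫⁻ x : Fin m → ℝ, f (WithLp.toLp 2 x) :=
  ((PiLp.volume_preserving_toLp (Fin m)).lintegral_comp hf).symm

lemma norm_sq_toLp (x : Fin m → ℝ) : ‖(WithLp.toLp 2 x : E m)‖ ^ 2 = ∑ i, x i ^ 2 := by
  rw [EuclideanSpace.norm_sq_eq]
  simp

lemma norm_sq_coord (x : E m) : ‖x‖ ^ 2 = ∑ i, x i ^ 2 := by
  rw [EuclideanSpace.norm_sq_eq]
  simp

lemma dens_toLp (x : Fin m → ℝ) :
    dens m (WithLp.toLp 2 x) = ∏ i, phi (x i) := by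
  unfold dens phi
  rw [norm_sq_toLp, ← ENNReal.ofReal_prod_of_nonneg (fun _ _ => (Real.exp_pos _).le),
    ← Real.exp_sum]
  congr 2
  rw [neg_div, Finset.sum_div, ← Finset.sum_neg_distrib]
  simp [neg_div]

/-- Total Gaussian mass. -/
def TT (m : ℕ) : ℝ≥0∞ := gam m univ

lemma phi_mul_exp (c s : ℝ) :
    phi s * ENNReal.ofReal (Real.exp (c * s ^ 2)) = ENNReal.ofReal (Real.exp (-(1 / 2 - c) * s ^ 2)) := by
  unfold phi
  rw [← ENNReal.ofReal_mul (Real.exp_pos _).le, ← Real.exp_add]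
  congr 2
  ring

lemma lintegral_phi_exp (c : ℝ) (hc : c < 1 / 2) :
    ∫⁻ s, phi s * ENNReal.ofReal (Real.exp (c * s ^ 2)) =
      ENNReal.ofReal (Real.sqrt (Real.pi / (1 / 2 - c))) := by
  simp_rw [phi_mul_exp]
  exact lintegral_exp_sq _ (by linarith)

lemma lintegral_phi : ∫⁻ s, phi s = ENNReal.ofReal (Real.sqrt (Real.pi / (1 / 2))) := by
  have := lintegral_phi_exp 0 (by norm_num)
  simpa using this

/-- exact exponential moment. -/
lemma lintegral_gam_exp (c : Fin m → ℝ) (hc : ∀ i, c i < 1 / 2) :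
    ∫⁻ x, ENNReal.ofReal (Real.exp (∑ i, c i * x i ^ 2)) ∂(gam m) =
      ∏ i, ENNReal.ofReal (Real.sqrt (Real.pi / (1 / 2 - c i))) := by
  have hmeas : Measurable (fun x : E m => ENNReal.ofReal (Real.exp (∑ i, c i * x i ^ 2))) := by
    have : Continuous (fun x : E m => Real.exp (∑ i, c i * x i ^ 2)) := by
      fun_prop
    exact this.measurable.ennreal_ofReal
  rw [lintegral_gam hmeas, lintegral_E (f := fun x => dens m x * ENNReal.ofReal (Real.exp (∑ i, c i * x i ^ 2))) (measurable_dens.mul hmeas)]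
  have hval : ∀ x : Fin m → ℝ,
      dens m (WithLp.toLp 2 x) * ENNReal.ofReal (Real.exp (∑ i, c i * (WithLp.toLp 2 x : E m) i ^ 2)) =
        ∏ i, (fun i s => phi s * ENNReal.ofReal (Real.exp (c i * s ^ 2))) i (x i) := by
    intro x
    rw [dens_toLp, Real.exp_sum, ENNReal.ofReal_prod_of_nonneg (fun _ _ => (Real.exp_pos _).le),
      ← Finset.prod_mul_distrib]
  rw [lintegral_congr hval]
  rw [lintegral_pi_prod m (fun i s => phi s * ENNReal.ofReal (Real.exp (c i * s ^ 2))) (fun i => measurable_phi.mul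
    (by
      have : Continuous (fun s : ℝ => Real.exp (c i * s ^ 2)) := by fun_prop
      exact this.measurable.ennreal_ofReal))]
  exact Finset.prod_congr rfl (fun i _ => lintegral_phi_exp _ (hc i))

lemma TT_eq (m : ℕ) : TT m = ∏ _i : Fin m, ENNReal.ofReal (Real.sqrt (Real.pi / (1 / 2))) := by
  have := lintegral_gam_exp (m := m) (fun _ => 0) (fun _ => by norm_num)
  simp only [zero_mul, Finset.sum_const_zero, Real.exp_zero, ENNReal.ofReal_one, lintegral_one,
    sub_zero] at this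
  exact this

lemma TT_ne_top (m : ℕ) : TT m ≠ ⊤ := by
  rw [TT_eq]
  exact ENNReal.prod_ne_top (fun _ _ => ENNReal.ofReal_ne_top)

lemma TT_pos (m : ℕ) : 0 < TT m := by
  rw [TT_eq, pos_iff_ne_zero, Finset.prod_ne_zero_iff]
  intro _ _
  have : 0 < ENNReal.ofReal (Real.sqrt (Real.pi / (1 / 2))) := by
    rw [ENNReal.ofReal_pos]
    exact Real.sqrt_pos.mpr (by positivity)
  exact this.ne'

instance : IsFiniteMeasure (gam m) := ⟨by
  show gam m univ < ⊤
  exact lt_top_iff_ne_top.mpr (TT_ne_top m)⟩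

/-- Exponential moment bound. -/
lemma exp_moment_le (c : Fin m → ℝ) (hc0 : ∀ i, 0 ≤ c i) (hc : ∀ i, c i ≤ 1 / 4) :
    ∫⁻ x, ENNReal.ofReal (Real.exp (∑ i, c i * x i ^ 2)) ∂(gam m) ≤
      ENNReal.ofReal (Real.exp (2 * ∑ i, c i)) * TT m := by
  rw [lintegral_gam_exp c (fun i => by linarith [hc i]), TT_eq, Finset.mul_sum, Real.exp_sum,
    ENNReal.ofReal_prod_of_nonneg (fun _ _ => (Real.exp_pos _).le), ← Finset.prod_mul_distrib]
  refine Finset.prod_le_prod' (fun i _ => ?_)
  rw [← ENNReal.ofReal_mul (Real.exp_pos _).le]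
  refine ENNReal.ofReal_le_ofReal ?_
  have hc1 := hc i
  have hc2 := hc0 i
  have hpos : 0 < 1 / 2 - c i := by linarith
  have hpi := Real.pi_pos
  rw [show Real.exp (2 * c i) * Real.sqrt (Real.pi / (1 / 2)) =
      Real.sqrt (Real.exp (2 * c i) ^ 2 * (Real.pi / (1 / 2))) by
    rw [Real.sqrt_mul (sq_nonneg _), Real.sqrt_sq (Real.exp_pos _).le]]
  refine Real.sqrt_le_sqrt ?_
  have h1 : 1 + 4 * c i ≤ Real.exp (2 * c i) ^ 2 := by
    rw [← Real.exp_nat_mul]
    have := Real.add_one_le_exp (((2:ℕ):ℝ) * (2 * c i))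
    push_cast at this ⊢
    linarith
  rw [div_le_iff₀ hpos]
  have h3 : Real.pi / (1 / 2) = 2 * Real.pi := by ring
  rw [h3]
  have h4 : (1 + 4 * c i) * (1 / 2 - c i) * 2 ≥ 1 := by nlinarith
  have h5 : Real.exp (2 * c i) ^ 2 * (1 / 2 - c i) * 2 ≥ 1 := by
    have : (1 + 4 * c i) * (1 / 2 - c i) ≤ Real.exp (2 * c i) ^ 2 * (1 / 2 - c i) :=
      mul_le_mul_of_nonneg_right h1 hpos.le
    linarith
  nlinarith

/-- Weighted chi-square tail. -/
lemma wtail (w : Fin m → ℝ) (M u : ℝ) (hM : 0 < M) (hw0 : ∀ i, 0 ≤ w i) (hw : ∀ i, w i ≤ M) :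
    gam m {x | 2 * ∑ i, w i + 4 * M * u ≤ ∑ i, w i * x i ^ 2} ≤
      ENNReal.ofReal (Real.exp (-u)) * TT m := by
  set c : Fin m → ℝ := fun i => w i / (4 * M) with hc
  have hc0 : ∀ i, 0 ≤ c i := fun i => div_nonneg (hw0 i) (by positivity)
  have hc1 : ∀ i, c i ≤ 1 / 4 := by
    intro i
    rw [hc]
    simp only []
    rw [div_le_iff₀ (by positivity)]
    have := hw i
    linarith
  have hsum : ∑ i, c i = (∑ i, w i) / (4 * M) := by
    rw [hc, Finset.sum_div]
  set a : ℝ := 2 * ∑ i, c i + u with ha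
  have hmeas : Measurable (fun x : E m => ENNReal.ofReal (Real.exp (∑ i, c i * x i ^ 2))) := by
    have : Continuous (fun x : E m => Real.exp (∑ i, c i * x i ^ 2)) := by
      fun_prop
    exact this.measurable.ennreal_ofReal
  have hsub : {x : E m | 2 * ∑ i, w i + 4 * M * u ≤ ∑ i, w i * x i ^ 2} ⊆
      {x | ENNReal.ofReal (Real.exp a) ≤ ENNReal.ofReal (Real.exp (∑ i, c i * x i ^ 2))} := by
    intro x hx
    simp only [Set.mem_ofPred_eq] at hx ⊢
    refine ENNReal.ofReal_le_ofReal (Real.exp_le_exp.mpr ?_)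
    have h1 : ∑ i, c i * x i ^ 2 = (∑ i, w i * x i ^ 2) / (4 * M) := by
      rw [hc, Finset.sum_div]
      refine Finset.sum_congr rfl (fun i _ => ?_)
      simp only []
      ring
    rw [h1, ha, hsum, le_div_iff₀ (by positivity)]
    have : (2 * ((∑ i, w i) / (4 * M)) + u) * (4 * M) = 2 * ∑ i, w i + 4 * M * u := by
      field_simp
    rw [this]
    exact hx
  have hm := mul_meas_ge_le_lintegral (μ := gam m) hmeas (ENNReal.ofReal (Real.exp a))
  have hm2 := exp_moment_le c hc0 hc1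
  have hle : ENNReal.ofReal (Real.exp a) * gam m {x : E m | 2 * ∑ i, w i + 4 * M * u ≤ ∑ i, w i * x i ^ 2} ≤
      ENNReal.ofReal (Real.exp (2 * ∑ i, c i)) * TT m :=
    ((mul_le_mul_right (measure_mono hsub) _).trans hm).trans hm2
  have hexp : ENNReal.ofReal (Real.exp (-a)) * ENNReal.ofReal (Real.exp a) = 1 := by
    rw [← ENNReal.ofReal_mul (Real.exp_pos _).le, ← Real.exp_add]
    simp
  calc gam m {x : E m | 2 * ∑ i, w i + 4 * M * u ≤ ∑ i, w i * x i ^ 2}
      = ENNReal.ofReal (Real.exp (-a)) * (ENNReal.ofReal (Real.exp a) *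
          gam m {x : E m | 2 * ∑ i, w i + 4 * M * u ≤ ∑ i, w i * x i ^ 2}) := by
        rw [← mul_assoc, hexp, one_mul]
    _ ≤ ENNReal.ofReal (Real.exp (-a)) * (ENNReal.ofReal (Real.exp (2 * ∑ i, c i)) * TT m) :=
        mul_le_mul_right hle _
    _ = ENNReal.ofReal (Real.exp (-u)) * TT m := by
        rw [← mul_assoc, ← ENNReal.ofReal_mul (Real.exp_pos _).le, ← Real.exp_add]
        congr 3
        rw [ha]
        ring

/-- Coordinate sign flip as an isometry. -/
def flip (S : Finset (Fin m)) : E m ≃ₗᵢ[ℝ] E m :=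
  LinearIsometryEquiv.piLpCongrRight 2 (fun i =>
    if i ∈ S then LinearIsometryEquiv.neg ℝ else LinearIsometryEquiv.refl ℝ ℝ)

lemma flip_apply_mem (S : Finset (Fin m)) (x : E m) {i : Fin m} (hi : i ∈ S) : flip S x i = - x i := by
  simp [flip, hi]

lemma flip_apply_not (S : Finset (Fin m)) (x : E m) {i : Fin m} (hi : i ∉ S) : flip S x i = x i := by
  simp [flip, hi]

/-- squared norm of a partial vector sum -/
def NS {Ξ : Type} [Fintype Ξ] (p : Fin m → Ξ → ℝ) (σ : Finset (Fin m)) (x : E m) : ℝ :=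
  ∑ ξ, (∑ i ∈ σ, x i * p i ξ) ^ 2

lemma NS_nonneg {Ξ : Type} [Fintype Ξ] (p : Fin m → Ξ → ℝ) (σ : Finset (Fin m)) (x : E m) :
    0 ≤ NS p σ x := Finset.sum_nonneg (fun _ _ => sq_nonneg _)

lemma NS_cont {Ξ : Type} [Fintype Ξ] (p : Fin m → Ξ → ℝ) (σ : Finset (Fin m)) :
    Continuous (NS p σ) := by
  unfold NS
  fun_prop

lemma NS_meas {Ξ : Type} [Fintype Ξ] (p : Fin m → Ξ → ℝ) (σ : Finset (Fin m)) :
    Measurable (fun x => ENNReal.ofReal (NS p σ x)) :=
  (NS_cont p σ).measurable.ennreal_ofReal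

/-- Second coordinate moment (crude). -/
lemma coord_moment (i : Fin m) :
    ∫⁻ x, ENNReal.ofReal (x i ^ 2) ∂(gam m) ≤ 8 * TT m := by
  have h1 : ∀ x : E m, ENNReal.ofReal (x i ^ 2) ≤
      4 * ENNReal.ofReal (Real.exp (∑ j, (if j = i then (1 / 4 : ℝ) else 0) * x j ^ 2)) := by
    intro x
    have h2 : ∑ j, (if j = i then (1 / 4 : ℝ) else 0) * x j ^ 2 = x i ^ 2 / 4 := by
      rw [Finset.sum_eq_single i]
      · simp; ring
      · intro b _ hb
        simp [hb]
      · simp
    rw [h2, show (4 : ℝ≥0∞) = ENNReal.ofReal 4 by simp, ← ENNReal.ofReal_mul (by norm_num)]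
    refine ENNReal.ofReal_le_ofReal ?_
    have := Real.add_one_le_exp (x i ^ 2 / 4)
    linarith
  have hmeas : Measurable (fun x : E m => ENNReal.ofReal (Real.exp (∑ j, (if j = i then (1 / 4 : ℝ) else 0) * x j ^ 2))) := by
    have : Continuous (fun x : E m => Real.exp (∑ j, (if j = i then (1 / 4 : ℝ) else 0) * x j ^ 2)) := by
      fun_prop
    exact this.measurable.ennreal_ofReal
  have h3 := exp_moment_le (m := m) (fun j => if j = i then (1 / 4 : ℝ) else 0)
    (fun j => by split_ifs <;> norm_num) (fun j => by split_ifs <;> norm_num)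
  have h4 : ∑ j, (if j = i then (1 / 4 : ℝ) else 0) = 1 / 4 := by simp
  rw [h4] at h3
  have h5 : ENNReal.ofReal (Real.exp (2 * (1 / 4))) ≤ 2 := by
    rw [show (2 : ℝ≥0∞) = ENNReal.ofReal 2 by simp]
    refine ENNReal.ofReal_le_ofReal ?_
    have h6 := Real.add_one_le_exp (-(1 / 2 : ℝ))
    have h7 : Real.exp (2 * (1 / 4)) * Real.exp (-(1 / 2 : ℝ)) = 1 := by
      rw [← Real.exp_add]
      norm_num
    have h8 := Real.exp_pos (2 * (1 / 4 : ℝ))
    nlinarith
  calc ∫⁻ x, ENNReal.ofReal (x i ^ 2) ∂(gam m)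
      ≤ ∫⁻ x, 4 * ENNReal.ofReal (Real.exp (∑ j, (if j = i then (1 / 4 : ℝ) else 0) * x j ^ 2)) ∂(gam m) :=
        lintegral_mono h1
    _ = 4 * ∫⁻ x, ENNReal.ofReal (Real.exp (∑ j, (if j = i then (1 / 4 : ℝ) else 0) * x j ^ 2)) ∂(gam m) :=
        lintegral_const_mul _ hmeas
    _ ≤ 4 * (2 * TT m) := by
        refine mul_le_mul_right (h3.trans (mul_le_mul_left h5 _)) _
    _ = 8 * TT m := by
        rw [← mul_assoc]
        norm_num

/-- Second moment of a partial vector sum. -/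
lemma NS_moment {Ξ : Type} [Fintype Ξ] (p : Fin m → Ξ → ℝ) (σ : Finset (Fin m)) :
    ∫⁻ x, ENNReal.ofReal (NS p σ x) ∂(gam m) ≤
      ENNReal.ofReal (∑ i ∈ σ, ∑ ξ, p i ξ ^ 2) * (8 * TT m) := by
  induction σ using Finset.induction_on with
  | empty =>
    simp [NS]
  | insert i σ hi ih =>
    set g : E m → ℝ≥0∞ := fun x => ENNReal.ofReal (NS p (insert i σ) x) with hg
    have hgm : Measurable g := NS_meas p _
    have hflip : ∫⁻ x, g (flip {i} x) ∂(gam m) = ∫⁻ x, g x ∂(gam m) := lintegral_gam_comp _ hgm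
    have hfl : ∀ (x : E m) (j : Fin m), j ∈ σ → flip {i} x j = x j := by
      intro x j hj
      refine flip_apply_not _ _ ?_
      simp only [Finset.mem_singleton]
      rintro rfl
      exact hi hj
    have hsum : ∀ x : E m, g x + g (flip {i} x) =
        2 * (ENNReal.ofReal (NS p σ x) + ENNReal.ofReal (x i ^ 2) * ENNReal.ofReal (∑ ξ, p i ξ ^ 2)) := by
      intro x
      have hval : NS p (insert i σ) x + NS p (insert i σ) (flip {i} x) =
          2 * (NS p σ x + x i ^ 2 * ∑ ξ, p i ξ ^ 2) := by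
        unfold NS
        rw [← Finset.sum_add_distrib, Finset.mul_sum, ← Finset.sum_add_distrib, Finset.mul_sum]
        refine Finset.sum_congr rfl (fun ξ _ => ?_)
        rw [Finset.sum_insert hi, Finset.sum_insert hi,
          flip_apply_mem {i} x (Finset.mem_singleton_self i)]
        rw [Finset.sum_congr rfl (fun j hj => by rw [hfl x j hj] :
          ∀ j ∈ σ, flip {i} x j * p j ξ = x j * p j ξ)]
        ring
      rw [hg]
      simp only []
      rw [← ENNReal.ofReal_add (NS_nonneg _ _ _) (NS_nonneg _ _ _), hval,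
        ENNReal.ofReal_mul (by norm_num),
        ENNReal.ofReal_add (NS_nonneg _ _ _) (mul_nonneg (sq_nonneg _) (Finset.sum_nonneg (fun _ _ => sq_nonneg _))),
        ENNReal.ofReal_mul (sq_nonneg _)]
      simp
    have hx2 : Measurable (fun x : E m => ENNReal.ofReal (x i ^ 2)) := by
      have : Continuous (fun x : E m => x i ^ 2) := by fun_prop
      exact this.measurable.ennreal_ofReal
    have htot : 2 * ∫⁻ x, g x ∂(gam m) =
        2 * (∫⁻ x, ENNReal.ofReal (NS p σ x) ∂(gam m) +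
          (∫⁻ x, ENNReal.ofReal (x i ^ 2) ∂(gam m)) * ENNReal.ofReal (∑ ξ, p i ξ ^ 2)) := by
      calc 2 * ∫⁻ x, g x ∂(gam m) = ∫⁻ x, g x ∂(gam m) + ∫⁻ x, g (flip {i} x) ∂(gam m) := by
            rw [hflip, two_mul]
        _ = ∫⁻ x, (g x + g (flip {i} x)) ∂(gam m) := by
            rw [lintegral_add_left hgm]
        _ = ∫⁻ x, 2 * (ENNReal.ofReal (NS p σ x) + ENNReal.ofReal (x i ^ 2) * ENNReal.ofReal (∑ ξ, p i ξ ^ 2)) ∂(gam m) :=
            lintegral_congr hsum
        _ = 2 * (∫⁻ x, ENNReal.ofReal (NS p σ x) ∂(gam m) +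
              (∫⁻ x, ENNReal.ofReal (x i ^ 2) ∂(gam m)) * ENNReal.ofReal (∑ ξ, p i ξ ^ 2)) := by
            have hm2 : Measurable (fun x : E m => ENNReal.ofReal (NS p σ x) +
                ENNReal.ofReal (x i ^ 2) * ENNReal.ofReal (∑ ξ, p i ξ ^ 2)) :=
              (NS_meas p σ).add (hx2.mul_const _)
            rw [lintegral_const_mul (2 : ℝ≥0∞) hm2,
              lintegral_add_left (NS_meas p σ), lintegral_mul_const _ hx2]
    have htot' : ∫⁻ x, g x ∂(gam m) = ∫⁻ x, ENNReal.ofReal (NS p σ x) ∂(gam m) +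
          (∫⁻ x, ENNReal.ofReal (x i ^ 2) ∂(gam m)) * ENNReal.ofReal (∑ ξ, p i ξ ^ 2) :=
      (ENNReal.mul_right_inj (by norm_num) (by norm_num)).mp htot
    rw [htot', Finset.sum_insert hi,
      ENNReal.ofReal_add (Finset.sum_nonneg (fun _ _ => sq_nonneg _))
        (Finset.sum_nonneg (fun _ _ => Finset.sum_nonneg (fun _ _ => sq_nonneg _))), add_mul, add_comm]
    refine add_le_add ?_ ih
    rw [mul_comm]
    exact mul_le_mul_right (coord_moment i) _

/-- Maximal inequality over a nested family of coordinate sets. -/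
lemma kolm {Ξ : Type} [Fintype Ξ] (p : Fin m → Ξ → ℝ) (σ : ℕ → Finset (Fin m))
    (hσ : ∀ b, σ b ⊆ σ (b + 1)) (t : ℝ) (ht : 0 < t) (B : ℕ) :
    ENNReal.ofReal t * gam m {x | ∃ b ≤ B, t ≤ NS p (σ b) x} ≤
      ∫⁻ x in {x | ∃ b ≤ B, t ≤ NS p (σ b) x}, ENNReal.ofReal (NS p (σ B) x) ∂(gam m) := by
  have hclosed : ∀ B, MeasurableSet {x : E m | ∃ b ≤ B, t ≤ NS p (σ b) x} := by
    intro B
    have : {x : E m | ∃ b ≤ B, t ≤ NS p (σ b) x} = ⋃ b ∈ Finset.range (B + 1), {x | t ≤ NS p (σ b) x} := by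
      ext x
      simp only [Set.mem_ofPred_eq, Set.mem_iUnion, Finset.mem_range, exists_prop, Nat.lt_succ_iff]
    rw [this]
    exact Finset.measurableSet_biUnion _ (fun b _ => measurableSet_le measurable_const (NS_cont p _).measurable)
  induction B with
  | zero =>
    have hsub : {x : E m | ∃ b ≤ 0, t ≤ NS p (σ b) x} = {x | t ≤ NS p (σ 0) x} := by
      ext x
      simp
    rw [hsub]
    have hms : MeasurableSet {x : E m | t ≤ NS p (σ 0) x} := measurableSet_le measurable_const (NS_cont p _).measurable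
    rw [← setLIntegral_const]
    refine setLIntegral_mono' hms (fun x hx => ENNReal.ofReal_le_ofReal hx)
  | succ B ih =>
    set A : Set (E m) := {x : E m | ∃ b ≤ B, t ≤ NS p (σ b) x} with hA
    set A' : Set (E m) := {x : E m | ∃ b ≤ B + 1, t ≤ NS p (σ b) x} with hA'
    have hAm : MeasurableSet A := hclosed B
    have hAm' : MeasurableSet A' := hclosed (B + 1)
    have hsub : A ⊆ A' := fun x ⟨b, hb, h⟩ => ⟨b, by omega, h⟩
    set F : Finset (Fin m) := σ (B + 1) \ σ B with hF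
    have hmono : ∀ b ≤ B, σ b ⊆ σ B := fun b hb => monotone_nat_of_le_succ (f := σ) (fun n => hσ n) hb
    have hflipA : flip F ⁻¹' A = A := by
      ext x
      have hval : ∀ b ≤ B, NS p (σ b) (flip F x) = NS p (σ b) x := by
        intro b hb
        unfold NS
        refine Finset.sum_congr rfl (fun ξ _ => ?_)
        congr 1
        refine Finset.sum_congr rfl (fun i hi => ?_)
        rw [flip_apply_not]
        simp only [hF, Finset.mem_sdiff, not_and, not_not]
        exact fun _ => hmono b hb hi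
      constructor
      · rintro ⟨b, hb, h⟩
        exact ⟨b, hb, by rw [← hval b hb]; exact h⟩
      · rintro ⟨b, hb, h⟩
        exact ⟨b, hb, by rw [hval b hb]; exact h⟩
    set g : E m → ℝ≥0∞ := fun x => ENNReal.ofReal (NS p (σ (B + 1)) x) with hg
    have hgm : Measurable g := NS_meas p _
    have hind : ∫⁻ x in A, g (flip F x) ∂(gam m) = ∫⁻ x in A, g x ∂(gam m) := by
      have h1 := lintegral_gam_comp (flip F) (f := A.indicator g) (hgm.indicator hAm)
      rw [lintegral_indicator hAm] at h1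
      rw [← h1, ← lintegral_indicator hAm]
      refine lintegral_congr (fun x => ?_)
      by_cases hx : x ∈ A
      · have hx' : flip F x ∈ A := by
          have : x ∈ flip F ⁻¹' A := by rw [hflipA]; exact hx
          exact this
        simp [hx, hx']
      · have hx' : flip F x ∉ A := by
          intro h
          have : x ∈ flip F ⁻¹' A := h
          rw [hflipA] at this
          exact hx this
        simp [hx, hx']
    have hpoint : ∀ x : E m, 2 * ENNReal.ofReal (NS p (σ B) x) ≤ g x + g (flip F x) := by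
      intro x
      rw [hg]
      simp only []
      have h2' : (2 : ℝ≥0∞) * ENNReal.ofReal (NS p (σ B) x) = ENNReal.ofReal (2 * NS p (σ B) x) := by
        rw [ENNReal.ofReal_mul (by norm_num)]
        simp
      rw [← ENNReal.ofReal_add (NS_nonneg _ _ _) (NS_nonneg _ _ _), h2']
      refine ENNReal.ofReal_le_ofReal ?_
      unfold NS
      rw [Finset.mul_sum, ← Finset.sum_add_distrib]
      refine Finset.sum_le_sum (fun ξ _ => ?_)
      have hsplit : ∀ y : E m, ∑ i ∈ σ (B + 1), y i * p i ξ =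
          ∑ i ∈ σ B, y i * p i ξ + ∑ i ∈ F, y i * p i ξ := by
        intro y
        rw [hF, add_comm (∑ i ∈ σ B, y i * p i ξ), Finset.sum_sdiff (hσ B)]
      rw [hsplit x, hsplit (flip F x)]
      have h1 : ∑ i ∈ σ B, (flip F x) i * p i ξ = ∑ i ∈ σ B, x i * p i ξ := by
        refine Finset.sum_congr rfl (fun i hi => ?_)
        rw [flip_apply_not]
        simp only [hF, Finset.mem_sdiff, not_and, not_not]
        exact fun _ => hi
      have h2 : ∑ i ∈ F, (flip F x) i * p i ξ = - ∑ i ∈ F, x i * p i ξ := by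
        rw [← Finset.sum_neg_distrib]
        refine Finset.sum_congr rfl (fun i hi => ?_)
        rw [flip_apply_mem _ _ hi]
        ring
      rw [h1, h2]
      nlinarith [sq_nonneg (∑ i ∈ F, x i * p i ξ)]
    have hfirst : ∫⁻ x in A, ENNReal.ofReal (NS p (σ B) x) ∂(gam m) ≤ ∫⁻ x in A, g x ∂(gam m) := by
      have h2 : 2 * ∫⁻ x in A, ENNReal.ofReal (NS p (σ B) x) ∂(gam m) ≤ 2 * ∫⁻ x in A, g x ∂(gam m) := by
        calc 2 * ∫⁻ x in A, ENNReal.ofReal (NS p (σ B) x) ∂(gam m)
            = ∫⁻ x in A, 2 * ENNReal.ofReal (NS p (σ B) x) ∂(gam m) :=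
              (lintegral_const_mul _ (NS_meas p _)).symm
          _ ≤ ∫⁻ x in A, (g x + g (flip F x)) ∂(gam m) := lintegral_mono (fun x => hpoint x)
          _ = ∫⁻ x in A, g x ∂(gam m) + ∫⁻ x in A, g (flip F x) ∂(gam m) := lintegral_add_left hgm _
          _ = 2 * ∫⁻ x in A, g x ∂(gam m) := by rw [hind, two_mul]
      exact (ENNReal.mul_le_mul_iff_right (by norm_num) (by norm_num)).mp h2
    have hdiff : ∀ x ∈ A' \ A, ENNReal.ofReal t ≤ g x := by
      rintro x ⟨⟨b, hb, h⟩, hxA⟩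
      have hb' : b = B + 1 := by
        by_contra hne
        exact hxA ⟨b, by omega, h⟩
      subst hb'
      exact ENNReal.ofReal_le_ofReal h
    have hsplit : A' = A ∪ (A' \ A) := (Set.union_sdiff_cancel hsub).symm
    have hdisj : Disjoint A (A' \ A) := Set.disjoint_sdiff_right
    have hmeas2 : MeasurableSet (A' \ A) := hAm'.diff hAm
    rw [hsplit, measure_union hdisj hmeas2, lintegral_union hmeas2 hdisj, mul_add]
    refine add_le_add (ih.trans hfirst) ?_
    rw [← setLIntegral_const]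
    exact setLIntegral_mono' hmeas2 hdiff

/-- Failure bound for the maximal test. -/
lemma kolm_fail {Ξ : Type} [Fintype Ξ] (p : Fin m → Ξ → ℝ) (σ : ℕ → Finset (Fin m))
    (hσ : ∀ b, σ b ⊆ σ (b + 1)) (t : ℝ) (ht : 0 < t) (B : ℕ) :
    ENNReal.ofReal t * gam m {x | ∃ b ≤ B, t ≤ NS p (σ b) x} ≤
      ENNReal.ofReal (∑ i ∈ σ B, ∑ ξ, p i ξ ^ 2) * (8 * TT m) :=
  (kolm p σ hσ t ht B).trans ((setLIntegral_le_lintegral _ _).trans (NS_moment p _))

/-- One dimensional functional test through a reflection. -/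
lemma ftail (f : E m) (hf : f ≠ 0) (u : ℝ) :
    gam m {x | (2 + 4 * u) * ‖f‖ ^ 2 ≤ (inner ℝ f x) ^ 2} ≤ ENNReal.ofReal (Real.exp (-u)) * TT m := by
  have hm : 0 < m := by
    by_contra hm0
    have hm0' : m = 0 := by omega
    subst hm0'
    exact hf (Subsingleton.elim _ _)
  set i₀ : Fin m := ⟨0, hm⟩ with hi₀
  set e₀ : E m := EuclideanSpace.single i₀ 1 with he₀
  have hnorm : ‖f‖ = ‖‖f‖ • e₀‖ := by
    rw [norm_smul, he₀, EuclideanSpace.single, PiLp.norm_single]
    simp
  set R : E m ≃ₗᵢ[ℝ] E m := Submodule.reflection (ℝ ∙ (f - ‖f‖ • e₀))ᗮ with hR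
  have hRf : R f = ‖f‖ • e₀ := Submodule.reflection_sub hnorm
  have hinner : ∀ x : E m, inner ℝ f x = ‖f‖ * (R x) i₀ := by
    intro x
    have h1 : inner ℝ (R f) (R x) = inner ℝ f x := R.inner_map_map f x
    rw [← h1, hRf, real_inner_smul_left, he₀]
    simp [EuclideanSpace.inner_single_left]
  have hnf : 0 < ‖f‖ ^ 2 := by positivity
  set w : Fin m → ℝ := fun i => if i = i₀ then ‖f‖ ^ 2 else 0 with hw
  have hsumw : ∑ i, w i = ‖f‖ ^ 2 := by simp [hw]
  have hsum2 : ∀ y : E m, ∑ i, w i * y i ^ 2 = ‖f‖ ^ 2 * y i₀ ^ 2 := by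
    intro y
    rw [Finset.sum_eq_single i₀]
    · simp [hw]
    · intro b _ hb
      simp [hw, hb]
    · simp
  have hsub : {x : E m | (2 + 4 * u) * ‖f‖ ^ 2 ≤ (inner ℝ f x) ^ 2} =
      R ⁻¹' {y | 2 * ∑ i, w i + 4 * ‖f‖ ^ 2 * u ≤ ∑ i, w i * y i ^ 2} := by
    ext x
    simp only [Set.mem_ofPred_eq, Set.mem_preimage]
    rw [hsumw, hsum2, hinner, mul_pow]
    constructor
    · intro h
      linarith
    · intro h
      linarith
  rw [hsub]
  have hmeas : MeasurableSet {y : E m | 2 * ∑ i, w i + 4 * ‖f‖ ^ 2 * u ≤ ∑ i, w i * y i ^ 2} := by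
    refine measurableSet_le measurable_const ?_
    have : Continuous (fun y : E m => ∑ i, w i * y i ^ 2) := by fun_prop
    exact this.measurable
  rw [gam_preimage R hmeas]
  refine wtail w _ u hnf (fun i => ?_) (fun i => ?_)
  · simp only [hw]
    split_ifs <;> positivity
  · simp only [hw]
    split_ifs
    · exact le_refl _
    · exact hnf.le

/-- Bodies given by a sum of squares of linear functionals. -/
def QB {Ξ : Type} [Fintype Ξ] (L : Ξ → E m →ₗ[ℝ] ℝ) (c : ℝ) : Set (E m) :=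
  {x | ∑ ξ, (L ξ x) ^ 2 < c}

lemma QB_open {Ξ : Type} [Fintype Ξ] (L : Ξ → E m →ₗ[ℝ] ℝ) (c : ℝ) : IsOpen (QB L c) := by
  have hc : ∀ ξ, Continuous (L ξ) := fun ξ => (L ξ).continuous_of_finiteDimensional
  have : Continuous (fun x : E m => ∑ ξ, (L ξ x) ^ 2) :=
    continuous_finsetSum _ (fun ξ _ => (hc ξ).pow 2)
  exact isOpen_lt this continuous_const

lemma QB_convex {Ξ : Type} [Fintype Ξ] (L : Ξ → E m →ₗ[ℝ] ℝ) (c : ℝ) : Convex ℝ (QB L c) := by
  intro x hx y hy a b ha hb hab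
  simp only [QB, Set.mem_ofPred_eq] at hx hy ⊢
  have h1 : ∀ ξ, (L ξ (a • x + b • y)) ^ 2 ≤ a * (L ξ x) ^ 2 + b * (L ξ y) ^ 2 := by
    intro ξ
    rw [map_add, map_smul, map_smul, smul_eq_mul, smul_eq_mul]
    have hb' : b = 1 - a := by linarith
    subst hb'
    nlinarith [sq_nonneg (L ξ x - L ξ y), mul_nonneg ha hb]
  calc ∑ ξ, (L ξ (a • x + b • y)) ^ 2 ≤ ∑ ξ, (a * (L ξ x) ^ 2 + b * (L ξ y) ^ 2) :=
        Finset.sum_le_sum (fun ξ _ => h1 ξ)
    _ = a * ∑ ξ, (L ξ x) ^ 2 + b * ∑ ξ, (L ξ y) ^ 2 := by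
        rw [Finset.sum_add_distrib, Finset.mul_sum, Finset.mul_sum]
    _ < c := by
        rcases eq_or_lt_of_le ha with h | h
        · have hb1 : b = 1 := by linarith
          subst h hb1
          simpa using hy
        · have : b = 1 - a := by linarith
          subst this
          have h2 : a * ∑ ξ, (L ξ x) ^ 2 < a * c := mul_lt_mul_of_pos_left hx h
          have h3 : (1 - a) * ∑ ξ, (L ξ y) ^ 2 ≤ (1 - a) * c := mul_le_mul_of_nonneg_left hy.le hb
          linarith

lemma QB_symm {Ξ : Type} [Fintype Ξ] (L : Ξ → E m →ₗ[ℝ] ℝ) (c : ℝ) (x : E m) (hx : x ∈ QB L c) :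
    -x ∈ QB L c := by
  simp only [QB, Set.mem_ofPred_eq] at hx ⊢
  simpa using hx

end

end Vale.Agent.Lib.P262S
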