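import Vale.Agent.Lib.P262S.Gauss

open MeasureTheory Set
open scoped ENNReal

namespace Vale.Agent.Lib.P262S

open Vale.Agent.P074 (E)

noncomputable section

variable {m n : ℕ}

/-- The enlarged body along `u` with tilt `t`. -/
def KS (K : Set (E m)) (u : E m) (t : ℝ) : Set (E m) :=
  {x | ∃ α β : ℝ, x + α • u ∈ K ∧ x + β • u ∈ K ∧ 2 < β - α ∧ α < 1 - t ∧ -(1 + t) < β}

lemma KS_open {K : Set (E m)} (hK : IsOpen K) (u : E m) (t : ℝ) : IsOpen (KS K u t) := by
  have : KS K u t = ⋃ (α : ℝ) (β : ℝ) (_ : 2 < β - α ∧ α < 1 - t ∧ -(1 + t) < β),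
      ((fun x => x + α • u) ⁻¹' K ∩ (fun x => x + β • u) ⁻¹' K) := by
    ext x
    simp only [KS, Set.mem_ofPred_eq, Set.mem_iUnion, Set.mem_inter_iff, Set.mem_preimage, exists_prop]
    constructor
    · rintro ⟨α, β, h1, h2, h3, h4, h5⟩
      exact ⟨α, β, ⟨h3, h4, h5⟩, h1, h2⟩
    · rintro ⟨α, β, ⟨h3, h4, h5⟩, h1, h2⟩
      exact ⟨α, β, h1, h2, h3, h4, h5⟩
  rw [this]
  refine isOpen_iUnion (fun α => isOpen_iUnion (fun β => isOpen_iUnion (fun _ => ?_)))
  exact (hK.preimage (by fun_prop)).inter (hK.preimage (by fun_prop))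

lemma comb_lt {X Y c a : ℝ} (hX : X < c) (hY : Y < c) (ha : 0 ≤ a) (ha1 : 0 ≤ 1 - a) :
    a * X + (1 - a) * Y < c := by
  rcases eq_or_lt_of_le ha with h | h
  · subst h
    simpa using hY
  · nlinarith

lemma KS_convex {K : Set (E m)} (hK : Convex ℝ K) (u : E m) (t : ℝ) : Convex ℝ (KS K u t) := by
  rintro x ⟨α, β, h1, h2, h3, h4, h5⟩ y ⟨α', β', h1', h2', h3', h4', h5'⟩ a b ha hb hab
  have hb' : b = 1 - a := by linarith
  subst hb'
  refine ⟨a * α + (1 - a) * α', a * β + (1 - a) * β', ?_, ?_, ?_, ?_, ?_⟩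
  · have := hK h1 h1' ha hb hab
    convert this using 1
    simp only [add_smul, smul_add, smul_smul]
    abel
  · have := hK h2 h2' ha hb hab
    convert this using 1
    simp only [add_smul, smul_add, smul_smul]
    abel
  · have := comb_lt (X := α - β) (Y := α' - β') (c := -2) (by linarith) (by linarith) ha hb
    nlinarith
  · exact comb_lt h4 h4' ha hb
  · have := comb_lt (X := -β) (Y := -β') (c := 1 + t) (by linarith) (by linarith) ha hb
    nlinarith

lemma KS_spec {K : Set (E m)} (hK : Convex ℝ K) {u : E m} {t : ℝ} {x : E m} (hx : x ∈ KS K u t) :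
    x + (1 - t) • u ∈ K ∨ x - (1 + t) • u ∈ K := by
  obtain ⟨α, β, h1, h2, h3, h4, h5⟩ := hx
  have hseg : ∀ c : ℝ, α ≤ c → c ≤ β → x + c • u ∈ K := by
    intro c hc1 hc2
    have hne : 0 < β - α := by linarith
    have hl : 0 ≤ (β - c) / (β - α) := div_nonneg (by linarith) hne.le
    have hr : 0 ≤ (c - α) / (β - α) := div_nonneg (by linarith) hne.le
    have hs : (β - c) / (β - α) + (c - α) / (β - α) = 1 := by
      rw [← add_div]
      field_simp
      ring
    have := hK h1 h2 hl hr hs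
    convert this using 1
    simp only [smul_add, smul_smul]
    have e1 : ((β - c) / (β - α)) • x + ((c - α) / (β - α)) • x = x := by
      rw [← add_smul, hs, one_smul]
    have e2 : c = (β - c) / (β - α) * α + (c - α) / (β - α) * β := by
      field_simp
      ring
    nth_rw 1 [e2]
    rw [add_smul]
    nth_rw 1 [← e1]
    abel
  by_cases hc : 1 - t ≤ β
  · left
    exact hseg _ h4.le hc
  · right
    push Not at hc
    have := hseg (-(1 + t)) (by linarith) h5.le
    rw [show x - (1 + t) • u = x + (-(1 + t)) • u by rw [neg_smul, sub_eq_add_neg]]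
    exact this

/-- Insertion of a first coordinate. -/
def ins (s : ℝ) (w : Fin n → ℝ) : E (n + 1) := WithLp.toLp 2 (Fin.cons s w)

lemma ins_zero (s : ℝ) (w : Fin n → ℝ) : (ins s w) 0 = s := rfl

lemma ins_succ (s : ℝ) (w : Fin n → ℝ) (i : Fin n) : (ins s w) i.succ = w i := rfl

/-- The tail of a point. -/
def tl (x : E (n + 1)) : Fin n → ℝ := fun i => x i.succ

lemma measurable_tl : Measurable (tl : E (n + 1) → Fin n → ℝ) := by
  have : Continuous (tl : E (n + 1) → Fin n → ℝ) := by
    unfold tl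
    fun_prop
  exact this.measurable

lemma ins_tl (x : E (n + 1)) : ins (x 0) (tl x) = x := by
  ext i
  refine Fin.cases ?_ (fun j => ?_) i
  · rfl
  · rfl

lemma tl_ins (s : ℝ) (w : Fin n → ℝ) : tl (ins s w) = w := rfl

lemma continuous_ins2 : Continuous (fun z : ℝ × (Fin n → ℝ) => ins z.1 z.2) := by
  unfold ins
  refine (PiLp.continuous_toLp 2 _).comp ?_
  refine continuous_pi (fun i => ?_)
  refine Fin.cases ?_ (fun j => ?_) i
  · simpa using continuous_fst
  · have : Continuous (fun a : ℝ × (Fin n → ℝ) => a.2 j) := by fun_prop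
    simpa using this

lemma continuous_ins (w : Fin n → ℝ) : Continuous (fun s : ℝ => ins s w) :=
  continuous_ins2.comp (by fun_prop : Continuous (fun s : ℝ => (s, w)))

/-- The density on the tail. -/
def psi (w : Fin n → ℝ) : ℝ≥0∞ := ∏ i, phi (w i)

lemma measurable_psi : Measurable (psi : (Fin n → ℝ) → ℝ≥0∞) :=
  Finset.measurable_prod _ (fun i _ => measurable_phi.comp (measurable_pi_apply i))

lemma dens_ins (s : ℝ) (w : Fin n → ℝ) : dens (n + 1) (ins s w) = psi w * phi s := by
  unfold ins psi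
  rw [dens_toLp, Fin.prod_univ_succ, mul_comm]
  simp

/-- Fubini along the first coordinate. -/
lemma lintegral_ins {f : E (n + 1) → ℝ≥0∞} (hf : Measurable f) :
    ∫⁻ x, f x = ∫⁻ w : Fin n → ℝ, ∫⁻ s : ℝ, f (ins s w) := by
  rw [lintegral_E hf]
  have hmp := (volume_preserving_piFinSuccAbove (fun _ : Fin (n + 1) => ℝ) 0).symm
  set e := (MeasurableEquiv.piFinSuccAbove (fun _ : Fin (n + 1) => ℝ) 0).symm with he
  have hm : Measurable (fun x : Fin (n + 1) → ℝ => f (WithLp.toLp 2 x)) :=
    hf.comp (PiLp.volume_preserving_toLp (Fin (n + 1))).measurable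
  rw [← hmp.lintegral_comp hm, Measure.volume_eq_prod,
    lintegral_prod_symm (fun z => f (WithLp.toLp 2 (e z))) (hm.comp e.measurable).aemeasurable]
  refine lintegral_congr (fun w => lintegral_congr (fun s => ?_))
  congr 2
  ext i
  refine Fin.cases ?_ (fun j => ?_) i <;> simp [he, MeasurableEquiv.piFinSuccAbove]

/-- Sections. -/
def sec (A : Set (E (n + 1))) (w : Fin n → ℝ) : Set ℝ := {s | ins s w ∈ A}

lemma sec_meas {A : Set (E (n + 1))} (hA : MeasurableSet A) (w : Fin n → ℝ) : MeasurableSet (sec A w) :=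
  (continuous_ins w).measurable hA

/-- The Gaussian mass through sections. -/
lemma gam_sec {A : Set (E (n + 1))} (hA : MeasurableSet A) :
    gam (n + 1) A = ∫⁻ w : Fin n → ℝ, psi w * ∫⁻ s in sec A w, phi s := by
  rw [gam_apply hA, ← lintegral_indicator hA,
    lintegral_ins (measurable_dens.indicator hA)]
  refine lintegral_congr (fun w => ?_)
  rw [← lintegral_const_mul' _ _ (by
    unfold psi
    exact ENNReal.prod_ne_top (fun _ _ => by unfold phi; exact ENNReal.ofReal_ne_top))]
  rw [← lintegral_indicator (sec_meas hA w)]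
  refine lintegral_congr (fun s => ?_)
  by_cases hs : ins s w ∈ A
  · have hs' : s ∈ sec A w := hs
    simp [hs, hs', dens_ins]
  · have hs' : s ∉ sec A w := hs
    simp [hs, hs']

/-- Section length. -/
def Ln (K : Set (E (n + 1))) (w : Fin n → ℝ) : ℝ≥0∞ := volume (sec K w)

/-- Section mass. -/
def Qm (K : Set (E (n + 1))) (w : Fin n → ℝ) : ℝ≥0∞ := ∫⁻ s in sec K w, phi s

lemma meas_lift {K : Set (E (n + 1))} (hK : MeasurableSet K) :
    MeasurableSet {z : ℝ × (Fin n → ℝ) | ins z.1 z.2 ∈ K} :=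
  continuous_ins2.measurable hK

lemma measurable_Ln {K : Set (E (n + 1))} (hK : MeasurableSet K) : Measurable (Ln K) :=
  measurable_measure_prodMk_right (meas_lift hK)

lemma measurable_Qm {K : Set (E (n + 1))} (hK : MeasurableSet K) : Measurable (Qm K) := by
  have h1 : Measurable ({z : ℝ × (Fin n → ℝ) | ins z.1 z.2 ∈ K}.indicator (fun z => phi z.1)) :=
    (measurable_phi.comp measurable_fst).indicator (meas_lift hK)
  have h2 := h1.lintegral_prod_left' (μ := (volume : Measure ℝ))
  convert h2 using 2 with w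
  unfold Qm
  rw [← lintegral_indicator (sec_meas hK w)]
  refine lintegral_congr (fun s => ?_)
  by_cases hs : s ∈ sec K w
  · have hs' : (s, w) ∈ {z : ℝ × (Fin n → ℝ) | ins z.1 z.2 ∈ K} := hs
    simp [hs, hs']
  · have hs' : (s, w) ∉ {z : ℝ × (Fin n → ℝ) | ins z.1 z.2 ∈ K} := hs
    simp [hs, hs']

/-- Points of `K` on long sections. -/
def Cy (K : Set (E (n + 1))) (l : ℝ≥0∞) : Set (E (n + 1)) := K ∩ {x | l < Ln K (tl x)}

lemma meas_long {K : Set (E (n + 1))} (hK : MeasurableSet K) (l : ℝ≥0∞) :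
    MeasurableSet {x : E (n + 1) | l < Ln K (tl x)} :=
  measurableSet_lt measurable_const ((measurable_Ln hK).comp measurable_tl)

lemma meas_Cy {K : Set (E (n + 1))} (hK : MeasurableSet K) (l : ℝ≥0∞) : MeasurableSet (Cy K l) :=
  hK.inter (meas_long hK l)

lemma gam_Cy {K : Set (E (n + 1))} (hK : MeasurableSet K) (l : ℝ≥0∞) :
    gam (n + 1) (Cy K l) = ∫⁻ w in {w | l < Ln K w}, psi w * Qm K w := by
  rw [gam_sec (meas_Cy hK l), ← lintegral_indicator (measurableSet_lt measurable_const (measurable_Ln hK))]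
  refine lintegral_congr (fun w => ?_)
  by_cases hw : l < Ln K w
  · have : sec (Cy K l) w = sec K w := by
      ext s
      simp only [sec, Cy, Set.mem_ofPred_eq, Set.mem_inter_iff, tl_ins]
      exact ⟨fun h => h.1, fun h => ⟨h, hw⟩⟩
    rw [Set.indicator_of_mem (show w ∈ {w | l < Ln K w} from hw), this]
    rfl
  · have : sec (Cy K l) w = ∅ := by
      ext s
      simp only [sec, Cy, Set.mem_ofPred_eq, Set.mem_inter_iff, tl_ins, Set.mem_empty_iff_false, iff_false]
      exact fun h => hw h.2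
    rw [Set.indicator_of_notMem (show w ∉ {w | l < Ln K w} from hw), this]
    simp

lemma dens_mid (x y : E m) : dens m x * dens m y ≤ dens m ((1 / 2 : ℝ) • (x + y)) ^ 2 := by
  unfold dens
  rw [← ENNReal.ofReal_mul (Real.exp_pos _).le, ← ENNReal.ofReal_pow (Real.exp_pos _).le]
  refine ENNReal.ofReal_le_ofReal ?_
  rw [← Real.exp_add, ← Real.exp_nat_mul]
  refine Real.exp_le_exp.mpr ?_
  have h1 : ‖(1 / 2 : ℝ) • (x + y)‖ ≤ (1 / 2) * (‖x‖ + ‖y‖) := by
    rw [norm_smul]
    have := norm_add_le x y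
    norm_num
    linarith
  have h2 := norm_nonneg ((1 / 2 : ℝ) • (x + y))
  have h3 : ‖(1 / 2 : ℝ) • (x + y)‖ ^ 2 ≤ ((1 / 2) * (‖x‖ + ‖y‖)) ^ 2 := by
    gcongr
  push_cast
  nlinarith [sq_nonneg (‖x‖ - ‖y‖)]

/-- Log-concavity of the section length masses. -/
lemma Cy_logconc {K : Set (E (n + 1))} (hKo : IsOpen K) (hKc : Convex ℝ K) {l₁ l₂ l : ℝ≥0∞}
    (hl : 2 * l ≤ l₁ + l₂) :
    gam (n + 1) (Cy K l₁) * gam (n + 1) (Cy K l₂) ≤ gam (n + 1) (Cy K l) ^ 2 := by
  have hK := hKo.measurableSet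
  rw [gam_apply (meas_Cy hK l₁), gam_apply (meas_Cy hK l₂), gam_apply (meas_Cy hK l),
    ← lintegral_indicator (meas_Cy hK l₁), ← lintegral_indicator (meas_Cy hK l₂),
    ← lintegral_indicator (meas_Cy hK l)]
  refine Vale.Agent.Lib.P262S.PLx.prekopa_leindler_lintegral (measurable_dens.indicator (meas_Cy hK l₁))
    (measurable_dens.indicator (meas_Cy hK l₂)) (measurable_dens.indicator (meas_Cy hK l)) ?_
  intro x y
  by_cases hx : x ∈ Cy K l₁
  · by_cases hy : y ∈ Cy K l₂
    · rw [Set.indicator_of_mem hx, Set.indicator_of_mem hy]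
      have hmid : (1 / 2 : ℝ) • (x + y) ∈ Cy K l := by
        refine ⟨?_, ?_⟩
        · have := hKc hx.1 hy.1 (by norm_num : (0:ℝ) ≤ 1 / 2) (by norm_num : (0:ℝ) ≤ 1 / 2) (by norm_num)
          convert this using 1
          rw [smul_add]
        · show l < Ln K (tl ((1 / 2 : ℝ) • (x + y)))
          have hx2 : l₁ < Ln K (tl x) := hx.2
          have hy2 : l₂ < Ln K (tl y) := hy.2
          have hne1 : (sec K (tl x)).Nonempty := by
            by_contra h
            rw [Set.not_nonempty_iff_eq_empty] at h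
            have : Ln K (tl x) = 0 := by simp [Ln, h]
            rw [this] at hx2
            simp at hx2
          have hne2 : (sec K (tl y)).Nonempty := by
            by_contra h
            rw [Set.not_nonempty_iff_eq_empty] at h
            have : Ln K (tl y) = 0 := by simp [Ln, h]
            rw [this] at hy2
            simp at hy2
          have hbm := Vale.Agent.Lib.P262S.PLx.PLaux.bm1 (sec_meas hK (tl x)) (sec_meas hK (tl y)) hne1 hne2
            (S := sec K (tl ((1 / 2 : ℝ) • (x + y)))) (by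
              intro a ha b hb
              have hmem := hKc (show ins a (tl x) ∈ K from ha) (show ins b (tl y) ∈ K from hb)
                (by norm_num : (0:ℝ) ≤ 1 / 2) (by norm_num : (0:ℝ) ≤ 1 / 2) (by norm_num)
              show ins ((a + b) / 2) (tl ((1 / 2 : ℝ) • (x + y))) ∈ K
              convert hmem using 1
              ext i
              refine Fin.cases ?_ (fun j => ?_) i
              · simp [ins_zero]
                try ring
              · simp [tl, ins_succ]
                try ring)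
          have h3 : 2 * l < 2 * Ln K (tl ((1 / 2 : ℝ) • (x + y))) :=
            calc 2 * l ≤ l₁ + l₂ := hl
              _ < Ln K (tl x) + Ln K (tl y) := ENNReal.add_lt_add hx2 hy2
              _ ≤ 2 * Ln K (tl ((1 / 2 : ℝ) • (x + y))) := hbm
          exact (ENNReal.mul_lt_mul_iff_right (by norm_num) (by norm_num)).mp h3
      rw [Set.indicator_of_mem hmid]
      exact dens_mid x y
    · rw [Set.indicator_of_notMem hy]
      simp
  · rw [Set.indicator_of_notMem hx]
    simp

lemma ins_add_smul (s ρ α : ℝ) (w : Fin n → ℝ) : ins s w + α • ins ρ (0 : Fin n → ℝ) = ins (s + α * ρ) w := by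
  ext i
  refine Fin.cases ?_ (fun j => ?_) i
  · simp [ins_zero]
  · simp [ins_succ]

lemma sec_KS {K : Set (E (n + 1))} {ρ t : ℝ} (hρ : 0 < ρ) {w : Fin n → ℝ} {p q s : ℝ}
    (hp : p ∈ sec K w) (hq : q ∈ sec K w) (hpq : 2 * ρ < q - p) (h1 : p < s + (1 - t) * ρ)
    (h2 : s - (1 + t) * ρ < q) : s ∈ sec (KS K (ins ρ 0) t) w := by
  refine ⟨(p - s) / ρ, (q - s) / ρ, ?_, ?_, ?_, ?_, ?_⟩
  · rw [ins_add_smul]
    have : s + (p - s) / ρ * ρ = p := by field_simp; ring
    rw [this]
    exact hp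
  · rw [ins_add_smul]
    have : s + (q - s) / ρ * ρ = q := by field_simp; ring
    rw [this]
    exact hq
  · rw [← sub_div, lt_div_iff₀ hρ]
    linarith
  · rw [div_lt_iff₀ hρ]
    linarith
  · rw [lt_div_iff₀ hρ]
    linarith

/-! ### One dimensional lemmas -/

lemma phi_le_one (s : ℝ) : phi s ≤ 1 := by
  unfold phi
  rw [show (1 : ℝ≥0∞) = ENNReal.ofReal 1 by simp]
  refine ENNReal.ofReal_le_ofReal ?_
  rw [Real.exp_le_one_iff]
  nlinarith [sq_nonneg s]

lemma exists_long {S : Set ℝ} {h : ℝ} (hL : ENNReal.ofReal h < volume S) :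
    ∃ p ∈ S, ∃ q ∈ S, h < q - p := by
  by_contra hc
  push Not at hc
  have h1 : Metric.ediam S ≤ ENNReal.ofReal h := by
    refine Metric.ediam_le (fun x hx y hy => ?_)
    rw [edist_dist, Real.dist_eq]
    refine ENNReal.ofReal_le_ofReal ?_
    rw [abs_le]
    constructor
    · have := hc x hx y hy
      linarith
    · exact hc y hy x hx
  have h2 := Real.volume_le_diam S
  exact absurd (hL.trans_le (h2.trans h1)) (lt_irrefl _)

/-- The closure property of the enlarged section. -/
def ExtProp (S S' : Set ℝ) (ρ t : ℝ) : Prop :=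
  ∀ p q s : ℝ, p ∈ S → q ∈ S → 2 * ρ < q - p → p < s + (1 - t) * ρ → s - (1 + t) * ρ < q → s ∈ S'

lemma fiber_mono {S S' : Set ℝ} {ρ t : ℝ} (hρ : 0 < ρ) (ht : |t| ≤ 1 / 2) (hE : ExtProp S S' ρ t)
    (hL : ENNReal.ofReal (2 * ρ) < volume S) : S ⊆ S' := by
  obtain ⟨p, hp, q, hq, hpq⟩ := exists_long hL
  obtain ⟨ht1, ht2⟩ := abs_le.mp ht
  intro s hs
  refine hE (min p s) (max q s) s ?_ ?_ ?_ ?_ ?_
  · rcases min_cases p s with ⟨h, _⟩ | ⟨h, _⟩ <;> rw [h] <;> assumption
  · rcases max_cases q s with ⟨h, _⟩ | ⟨h, _⟩ <;> rw [h] <;> assumption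
  · have h1 := min_le_left p s
    have h2 := le_max_left q s
    linarith
  · have h1 := min_le_right p s
    have : 0 < (1 - t) * ρ := mul_pos (by linarith) hρ
    linarith
  · have h1 := le_max_right q s
    have : 0 < (1 + t) * ρ := mul_pos (by linarith) hρ
    linarith

/-- A bounded open convex set is an open interval. -/
lemma eq_Ioo {S : Set ℝ} (hS : IsOpen S) (hSc : Convex ℝ S) (hne : S.Nonempty) {L : ℝ}
    (hL : volume S ≤ ENNReal.ofReal L) :
    ∃ a b : ℝ, a < b ∧ S = Ioo a b := by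
  have hord := hSc.ordConnected
  have hbd : ∀ p ∈ S, ∀ q ∈ S, q - p ≤ max L 0 := by
    intro p hp q hq
    have h1 : Icc p q ⊆ S := hord.out hp hq
    have h2 := (measure_mono h1 : volume (Icc p q) ≤ volume S).trans hL
    rw [Real.volume_Icc] at h2
    by_cases h0 : q - p ≤ 0
    · exact h0.trans (le_max_right _ _)
    · push Not at h0
      have := (ENNReal.ofReal_le_ofReal_iff' ).mp h2
      rcases this with h | h
      · exact h.trans (le_max_left _ _)
      · linarith
  obtain ⟨x₀, hx₀⟩ := hne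
  have hba : BddAbove S := ⟨x₀ + max L 0, fun q hq => by have := hbd x₀ hx₀ q hq; linarith⟩
  have hbb : BddBelow S := ⟨x₀ - max L 0, fun p hp => by have := hbd p hp x₀ hx₀; linarith⟩
  have hlow : ∀ x ∈ S, sInf S < x := by
    intro x hx
    obtain ⟨ε, hε, hb⟩ := Metric.isOpen_iff.mp hS x hx
    have : x - ε / 2 ∈ S := hb (by
      rw [Metric.mem_ball, Real.dist_eq]
      rw [show x - ε / 2 - x = -(ε / 2) by ring, abs_neg, abs_of_pos (by positivity)]
      linarith)
    have := csInf_le hbb this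
    linarith
  have hup : ∀ x ∈ S, x < sSup S := by
    intro x hx
    obtain ⟨ε, hε, hb⟩ := Metric.isOpen_iff.mp hS x hx
    have : x + ε / 2 ∈ S := hb (by
      rw [Metric.mem_ball, Real.dist_eq]
      rw [show x + ε / 2 - x = ε / 2 by ring, abs_of_pos (by positivity)]
      linarith)
    have := le_csSup hba this
    linarith
  refine ⟨sInf S, sSup S, (hlow x₀ hx₀).trans (hup x₀ hx₀), ?_⟩
  ext x
  constructor
  · intro hx
    exact ⟨hlow x hx, hup x hx⟩
  · rintro ⟨h1, h2⟩
    obtain ⟨p, hp, hpx⟩ := exists_lt_of_csInf_lt ⟨x₀, hx₀⟩ h1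
    obtain ⟨q, hq, hqx⟩ := exists_lt_of_lt_csSup ⟨x₀, hx₀⟩ h2
    exact hord.out hp hq ⟨hpx.le, hqx.le⟩

/-- Mass of a left extension compared with the mass of the interval. -/
lemma mass_ratio {a b c : ℝ} (hab : a < b) (hsum : 0 ≤ a + b) (h1 : b - a ≤ 1) (hc : 0 < c)
    (hc2 : c ≤ 1 / 8) :
    ENNReal.ofReal (4 / 5 * c) * ∫⁻ s in Ioo a b, phi s ≤
      ENNReal.ofReal (b - a) * ∫⁻ s in Ioo (a - c) a, phi s := by
  set v : ℝ := if 0 ≤ a then Real.exp (-(a ^ 2) / 2) else 1 with hv
  have hv0 : 0 ≤ v := by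
    rw [hv]
    split_ifs
    · exact (Real.exp_pos _).le
    · norm_num
  have hup : ∀ s ∈ Ioo a b, phi s ≤ ENNReal.ofReal v := by
    rintro s ⟨hs1, hs2⟩
    unfold phi
    refine ENNReal.ofReal_le_ofReal ?_
    rw [hv]
    split_ifs with h
    · refine Real.exp_le_exp.mpr ?_
      nlinarith
    · rw [Real.exp_le_one_iff]
      nlinarith [sq_nonneg s]
  have hlo : ∀ s ∈ Ioo (a - c) a, ENNReal.ofReal (4 / 5 * v) ≤ phi s := by
    rintro s ⟨hs1, hs2⟩
    unfold phi
    refine ENNReal.ofReal_le_ofReal ?_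
    rw [hv]
    split_ifs with h
    · have h3 : s ^ 2 ≤ a ^ 2 + c ^ 2 := by
        by_cases hs0 : 0 ≤ s
        · nlinarith
        · push Not at hs0
          nlinarith
      have h4 : Real.exp (-(a ^ 2) / 2) * Real.exp (-(c ^ 2) / 2) ≤ Real.exp (-(s ^ 2) / 2) := by
        rw [← Real.exp_add]
        refine Real.exp_le_exp.mpr ?_
        linarith
      have h5 : 4 / 5 ≤ Real.exp (-(c ^ 2) / 2) := by
        have := Real.add_one_le_exp (-(c ^ 2) / 2)
        nlinarith
      have h6 := Real.exp_pos (-(a ^ 2) / 2)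
      nlinarith
    · push Not at h
      have h3 : -a ≤ 1 / 2 := by linarith
      have h4 : s ^ 2 ≤ (5 / 8) ^ 2 := by
        have h41 : -(5 / 8) ≤ s := by linarith
        have h42 : s ≤ 5 / 8 := by linarith
        nlinarith
      have h5 : 4 / 5 ≤ Real.exp (-(s ^ 2) / 2) := by
        have := Real.add_one_le_exp (-(s ^ 2) / 2)
        nlinarith
      linarith
  have hI1 : ∫⁻ s in Ioo a b, phi s ≤ ENNReal.ofReal v * ENNReal.ofReal (b - a) := by
    calc ∫⁻ s in Ioo a b, phi s ≤ ∫⁻ _ in Ioo a b, ENNReal.ofReal v :=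
          setLIntegral_mono' measurableSet_Ioo hup
      _ = ENNReal.ofReal v * ENNReal.ofReal (b - a) := by
          rw [setLIntegral_const, Real.volume_Ioo]
  have hI2 : ENNReal.ofReal (4 / 5 * v) * ENNReal.ofReal c ≤ ∫⁻ s in Ioo (a - c) a, phi s := by
    calc ENNReal.ofReal (4 / 5 * v) * ENNReal.ofReal c = ∫⁻ _ in Ioo (a - c) a, ENNReal.ofReal (4 / 5 * v) := by
          rw [setLIntegral_const, Real.volume_Ioo]
          congr 2
          ring
      _ ≤ ∫⁻ s in Ioo (a - c) a, phi s := setLIntegral_mono' measurableSet_Ioo hlo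
  calc ENNReal.ofReal (4 / 5 * c) * ∫⁻ s in Ioo a b, phi s
      ≤ ENNReal.ofReal (4 / 5 * c) * (ENNReal.ofReal v * ENNReal.ofReal (b - a)) :=
        mul_le_mul_right hI1 _
    _ = ENNReal.ofReal (b - a) * (ENNReal.ofReal (4 / 5 * v) * ENNReal.ofReal c) := by
        have hba : 0 ≤ b - a := by linarith
        rw [← ENNReal.ofReal_mul hv0, ← ENNReal.ofReal_mul (by positivity : 0 ≤ 4 / 5 * c),
          ← ENNReal.ofReal_mul (by positivity : 0 ≤ 4 / 5 * v), ← ENNReal.ofReal_mul hba]
        congr 1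
        ring
    _ ≤ ENNReal.ofReal (b - a) * ∫⁻ s in Ioo (a - c) a, phi s := mul_le_mul_right hI2 _

lemma phi_neg (s : ℝ) : phi (-s) = phi s := by
  unfold phi
  simp

lemma lintegral_Ioo_neg (a b : ℝ) : ∫⁻ s in Ioo a b, phi s = ∫⁻ s in Ioo (-b) (-a), phi s := by
  have hmp : MeasurePreserving (fun s : ℝ => -s) volume volume := Measure.measurePreserving_neg _
  have := hmp.setLIntegral_comp_preimage (s := Ioo (-b) (-a)) measurableSet_Ioo measurable_phi
  rw [← this]
  have hpre : (fun s : ℝ => -s) ⁻¹' Ioo (-b) (-a) = Ioo a b := by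
    ext s
    simp only [Set.mem_preimage, Set.mem_Ioo, neg_lt_neg_iff]
    tauto
  rw [hpre]
  exact lintegral_congr (fun s => (phi_neg s).symm)

/-- Gain in one section. -/
lemma fiber_gain {S S' : Set ℝ} {ρ t : ℝ} (hS : IsOpen S) (hSc : Convex ℝ S) (hS'm : MeasurableSet S')
    (hρ : 0 < ρ) (hρ2 : ρ ≤ 1 / 4) (ht : |t| ≤ 1 / 2) (hE : ExtProp S S' ρ t) (k : ℕ) (hk : 1 ≤ k)
    (h1 : ENNReal.ofReal (k * (2 * ρ)) < volume S) (h2 : volume S ≤ ENNReal.ofReal ((k + 1) * (2 * ρ)))
    (h3 : (k + 1 : ℝ) * (2 * ρ) ≤ 1) :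
    (∫⁻ s in S, phi s) + ENNReal.ofReal (1 / 5 / (k + 1)) * ∫⁻ s in S, phi s ≤ ∫⁻ s in S', phi s := by
  obtain ⟨ht1, ht2⟩ := abs_le.mp ht
  have hk1 : (1 : ℝ) ≤ k := by exact_mod_cast hk
  have hL1 : ENNReal.ofReal (2 * ρ) < volume S := by
    refine lt_of_le_of_lt (ENNReal.ofReal_le_ofReal ?_) h1
    nlinarith
  have hne : S.Nonempty := by
    by_contra hh
    rw [Set.not_nonempty_iff_eq_empty] at hh
    rw [hh] at hL1
    simp at hL1
  obtain ⟨a, b, hab, rfl⟩ := eq_Ioo hS hSc hne h2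
  rw [Real.volume_Ioo] at h1 h2
  have hpos : 0 < ((k : ℝ) + 1) * (2 * ρ) := by positivity
  have hba1 : k * (2 * ρ) < b - a := by
    by_contra hh
    push Not at hh
    exact absurd h1 (not_lt.mpr (ENNReal.ofReal_le_ofReal hh))
  have hba2 : b - a ≤ (k + 1) * (2 * ρ) := (ENNReal.ofReal_le_ofReal_iff hpos.le).mp h2
  have hba3 : 2 * ρ < b - a := by nlinarith
  have hsub := fiber_mono hρ ht hE hL1
  have hba0 : 0 < b - a := by linarith
  set c : ℝ := ρ / 2 with hc
  have hc0 : 0 < c := by positivity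
  -- the extension
  rcases le_or_gt 0 (a + b) with hsum | hsum
  · -- left extension
    have hext : Ioo (a - c) a ⊆ S' := by
      rintro s ⟨hs1, hs2⟩
      set δ : ℝ := min ((b - a - 2 * ρ) / 3) ((s + (1 - t) * ρ - a) / 2) with hδ
      have hq1 : 0 < s + (1 - t) * ρ - a := by nlinarith
      have hδ0 : 0 < δ := lt_min (by linarith) (by linarith)
      have hδ1 : δ ≤ (b - a - 2 * ρ) / 3 := min_le_left _ _
      have hδ2 : δ ≤ (s + (1 - t) * ρ - a) / 2 := min_le_right _ _
      refine hE (a + δ) (b - δ) s ⟨by linarith, by linarith⟩ ⟨by linarith, by linarith⟩ ?_ ?_ ?_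
      · linarith
      · linarith
      · have : 0 < (1 + t) * ρ := mul_pos (by linarith) hρ
        linarith
    have hdisj : Disjoint (Ioo a b) (Ioo (a - c) a) := by
      rw [Set.disjoint_left]
      rintro s ⟨h3, _⟩ ⟨_, h4⟩
      linarith
    have hU : Ioo a b ∪ Ioo (a - c) a ⊆ S' := Set.union_subset hsub hext
    have hmass := mass_ratio (c := c) hab hsum (by linarith) hc0 (by rw [hc]; linarith)
    have hratio : ENNReal.ofReal (1 / 5 / (k + 1)) * ∫⁻ s in Ioo a b, phi s ≤ ∫⁻ s in Ioo (a - c) a, phi s := by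
      have hle : ENNReal.ofReal (1 / 5 / (k + 1)) ≤ ENNReal.ofReal (4 / 5 * c) / ENNReal.ofReal (b - a) := by
        rw [← ENNReal.ofReal_div_of_pos hba0]
        refine ENNReal.ofReal_le_ofReal ?_
        rw [div_div, div_le_div_iff₀ (by positivity) hba0, hc]
        nlinarith
      have hb1 : ENNReal.ofReal (b - a) ≠ 0 := by
        simpa using hba0
      have hb2 : ENNReal.ofReal (b - a) ≠ ⊤ := ENNReal.ofReal_ne_top
      calc ENNReal.ofReal (1 / 5 / (k + 1)) * ∫⁻ s in Ioo a b, phi s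
          ≤ (ENNReal.ofReal (4 / 5 * c) / ENNReal.ofReal (b - a)) * ∫⁻ s in Ioo a b, phi s :=
            mul_le_mul_left hle _
        _ = (ENNReal.ofReal (4 / 5 * c) * ∫⁻ s in Ioo a b, phi s) / ENNReal.ofReal (b - a) := by
            rw [ENNReal.div_eq_inv_mul, ENNReal.div_eq_inv_mul, mul_assoc]
        _ ≤ (ENNReal.ofReal (b - a) * ∫⁻ s in Ioo (a - c) a, phi s) / ENNReal.ofReal (b - a) := by
            gcongr
        _ = ∫⁻ s in Ioo (a - c) a, phi s := by
            rw [ENNReal.div_eq_inv_mul, ← mul_assoc, ENNReal.inv_mul_cancel hb1 hb2, one_mul]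
    calc (∫⁻ s in Ioo a b, phi s) + ENNReal.ofReal (1 / 5 / (k + 1)) * ∫⁻ s in Ioo a b, phi s
        ≤ (∫⁻ s in Ioo a b, phi s) + ∫⁻ s in Ioo (a - c) a, phi s := by gcongr
      _ = ∫⁻ s in Ioo a b ∪ Ioo (a - c) a, phi s := (lintegral_union measurableSet_Ioo hdisj).symm
      _ ≤ ∫⁻ s in S', phi s := lintegral_mono_set hU
  · -- right extension
    have hext : Ioo b (b + c) ⊆ S' := by
      rintro s ⟨hs1, hs2⟩
      set δ : ℝ := min ((b - a - 2 * ρ) / 3) ((b - (s - (1 + t) * ρ)) / 2) with hδ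
      have hq1 : 0 < b - (s - (1 + t) * ρ) := by nlinarith
      have hδ0 : 0 < δ := lt_min (by linarith) (by linarith)
      have hδ1 : δ ≤ (b - a - 2 * ρ) / 3 := min_le_left _ _
      have hδ2 : δ ≤ (b - (s - (1 + t) * ρ)) / 2 := min_le_right _ _
      refine hE (a + δ) (b - δ) s ⟨by linarith, by linarith⟩ ⟨by linarith, by linarith⟩ ?_ ?_ ?_
      · linarith
      · have : 0 < (1 - t) * ρ := mul_pos (by linarith) hρ
        linarith
      · linarith
    have hdisj : Disjoint (Ioo a b) (Ioo b (b + c)) := by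
      rw [Set.disjoint_left]
      rintro s ⟨_, h3⟩ ⟨h4, _⟩
      linarith
    have hU : Ioo a b ∪ Ioo b (b + c) ⊆ S' := Set.union_subset hsub hext
    have hmass := mass_ratio (a := -b) (b := -a) (c := c) (by linarith) (by linarith) (by linarith) hc0
      (by rw [hc]; linarith)
    rw [← lintegral_Ioo_neg, show -b - c = -(b + c) by ring, ← lintegral_Ioo_neg,
      show -a - -b = b - a by ring] at hmass
    have hratio : ENNReal.ofReal (1 / 5 / (k + 1)) * ∫⁻ s in Ioo a b, phi s ≤ ∫⁻ s in Ioo b (b + c), phi s := by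
      have hle : ENNReal.ofReal (1 / 5 / (k + 1)) ≤ ENNReal.ofReal (4 / 5 * c) / ENNReal.ofReal (b - a) := by
        rw [← ENNReal.ofReal_div_of_pos hba0]
        refine ENNReal.ofReal_le_ofReal ?_
        rw [div_div, div_le_div_iff₀ (by positivity) hba0, hc]
        nlinarith
      have hb1 : ENNReal.ofReal (b - a) ≠ 0 := by
        simpa using hba0
      have hb2 : ENNReal.ofReal (b - a) ≠ ⊤ := ENNReal.ofReal_ne_top
      calc ENNReal.ofReal (1 / 5 / (k + 1)) * ∫⁻ s in Ioo a b, phi s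
          ≤ (ENNReal.ofReal (4 / 5 * c) / ENNReal.ofReal (b - a)) * ∫⁻ s in Ioo a b, phi s :=
            mul_le_mul_left hle _
        _ = (ENNReal.ofReal (4 / 5 * c) * ∫⁻ s in Ioo a b, phi s) / ENNReal.ofReal (b - a) := by
            rw [ENNReal.div_eq_inv_mul, ENNReal.div_eq_inv_mul, mul_assoc]
        _ ≤ (ENNReal.ofReal (b - a) * ∫⁻ s in Ioo b (b + c), phi s) / ENNReal.ofReal (b - a) := by
            gcongr
        _ = ∫⁻ s in Ioo b (b + c), phi s := by
            rw [ENNReal.div_eq_inv_mul, ← mul_assoc, ENNReal.inv_mul_cancel hb1 hb2, one_mul]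
    calc (∫⁻ s in Ioo a b, phi s) + ENNReal.ofReal (1 / 5 / (k + 1)) * ∫⁻ s in Ioo a b, phi s
        ≤ (∫⁻ s in Ioo a b, phi s) + ∫⁻ s in Ioo b (b + c), phi s := by gcongr
      _ = ∫⁻ s in Ioo a b ∪ Ioo b (b + c), phi s := (lintegral_union measurableSet_Ioo hdisj).symm
      _ ≤ ∫⁻ s in S', phi s := lintegral_mono_set hU

/-- The numerical core of the mass comparison. -/
lemma numeric_core (M : ℕ → ℝ) (T : ℝ) (K : ℕ) (hT : 0 < T)
    (hanti : ∀ k, M (k + 1) ≤ M k) (h0 : M 0 ≤ T)
    (hlc : ∀ k, M k * M (k + 2) ≤ M (k + 1) ^ 2) (hK : 83 / 100 * T ≤ M K)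
    (hH : 13 / 2 ≤ ∑ k ∈ Finset.Ico 1 (K + 1), (1 : ℝ) / ((k : ℝ) + 1)) :
    M 0 ≤ M 1 + ∑ k ∈ Finset.Ico 1 (K + 1), (1 / 5 / ((k : ℝ) + 1)) * (M k - M (k + 1)) := by
  have hanti2 : ∀ k l, k ≤ l → M l ≤ M k := fun k l h => antitone_nat_of_succ_le hanti h
  have hMpos : ∀ k, k ≤ K → 83 / 100 * T ≤ M k := fun k hk => hK.trans (hanti2 k K hk)
  have hK0 : 0 < 83 / 100 * T := by positivity
  have hM00 : 0 < M 0 := lt_of_lt_of_le hK0 (hMpos 0 (Nat.zero_le _))
  set r : ℝ := M 1 / M 0 with hr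
  have hr1 : M 1 = r * M 0 := by
    rw [hr]
    field_simp
  have hrle : r ≤ 1 := by
    rw [hr, div_le_one hM00]
    exact hanti 0
  have hstep : ∀ k, k ≤ K → M (k + 1) ≤ r * M k := by
    intro k
    induction k with
    | zero => intro _; exact hr1.le
    | succ k ih =>
      intro hk
      have hk1 : k ≤ K := by omega
      have h1 := ih hk1
      have h2 := hlc k
      have hkpos : 0 < M k := lt_of_lt_of_le hK0 (hMpos k hk1)
      have hk2pos : 0 < M (k + 1) := lt_of_lt_of_le hK0 (hMpos (k + 1) hk)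
      -- M k * M(k+2) ≤ M(k+1)^2 ≤ M(k+1) * (r * M k)
      have h3 : M k * M (k + 1 + 1) ≤ M k * (r * M (k + 1)) := by
        calc M k * M (k + 1 + 1) ≤ M (k + 1) ^ 2 := h2
          _ = M (k + 1) * M (k + 1) := by ring
          _ ≤ M (k + 1) * (r * M k) := mul_le_mul_of_nonneg_left h1 hk2pos.le
          _ = M k * (r * M (k + 1)) := by ring
      exact le_of_mul_le_mul_left h3 hkpos
  have hband : ∀ k ∈ Finset.Ico 1 (K + 1), (1 / 5 / ((k : ℝ) + 1)) * ((1 - r) * (83 / 100 * T)) ≤
      (1 / 5 / ((k : ℝ) + 1)) * (M k - M (k + 1)) := by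
    intro k hk
    have hk2 : k ≤ K := by
      have := (Finset.mem_Ico.mp hk).2
      omega
    refine mul_le_mul_of_nonneg_left ?_ (by positivity)
    have h1 := hstep k hk2
    have h2 := hMpos k hk2
    nlinarith
  have hsum := Finset.sum_le_sum hband
  have hsum2 : ∑ k ∈ Finset.Ico 1 (K + 1), (1 / 5 / ((k : ℝ) + 1)) * ((1 - r) * (83 / 100 * T)) =
      (∑ k ∈ Finset.Ico 1 (K + 1), (1 : ℝ) / ((k : ℝ) + 1)) * (1 / 5 * ((1 - r) * (83 / 100 * T))) := by
    rw [Finset.sum_mul]
    refine Finset.sum_congr rfl (fun k _ => ?_)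
    field_simp
  rw [hsum2] at hsum
  have h1r : 0 ≤ (1 - r) * T := mul_nonneg (by linarith) hT.le
  have h3 : (13 / 2) * (1 / 5 * ((1 - r) * (83 / 100 * T))) ≤
      (∑ k ∈ Finset.Ico 1 (K + 1), (1 : ℝ) / ((k : ℝ) + 1)) * (1 / 5 * ((1 - r) * (83 / 100 * T))) :=
    mul_le_mul_of_nonneg_right hH (by nlinarith)
  have h4 : M 0 - M 1 = (1 - r) * M 0 := by rw [hr1]; ring
  have h5 : (1 - r) * M 0 ≤ (1 - r) * T := mul_le_mul_of_nonneg_left h0 (by linarith)
  nlinarith

lemma harmonic_dyadic (i : ℕ) :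
    (i : ℝ) / 2 ≤ ∑ k ∈ Finset.Ico (1 : ℕ) (2 ^ i), (1 : ℝ) / ((k : ℝ) + 1) := by
  induction i with
  | zero => simp
  | succ i ih =>
    have hle : 2 ^ i ≤ 2 ^ (i + 1) := Nat.pow_le_pow_right (by norm_num) (by omega)
    have h1 : (1 : ℕ) ≤ 2 ^ i := Nat.one_le_two_pow
    rw [← Finset.sum_Ico_consecutive _ h1 hle]
    have h2 : (1 : ℝ) / 2 ≤ ∑ k ∈ Finset.Ico (2 ^ i : ℕ) (2 ^ (i + 1)), (1 : ℝ) / ((k : ℝ) + 1) := by
      have h3 : ∀ k ∈ Finset.Ico (2 ^ i : ℕ) (2 ^ (i + 1)), (1 : ℝ) / (2 ^ (i + 1)) ≤ (1 : ℝ) / ((k : ℝ) + 1) := by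
        intro k hk
        have hk2 := (Finset.mem_Ico.mp hk).2
        have : (k : ℝ) + 1 ≤ 2 ^ (i + 1) := by
          have h7 : k + 1 ≤ 2 ^ (i + 1) := hk2
          exact_mod_cast h7
        exact one_div_le_one_div_of_le (by positivity) this
      have h4 := Finset.sum_le_sum h3
      rw [Finset.sum_const, Nat.card_Ico, nsmul_eq_mul] at h4
      have h5 : ((2 ^ (i + 1) - 2 ^ i : ℕ) : ℝ) = 2 ^ i := by
        rw [pow_succ, Nat.cast_sub (by omega)]
        push_cast
        ring
      rw [h5] at h4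
      have h6 : (2 : ℝ) ^ i * (1 / 2 ^ (i + 1)) = 1 / 2 := by
        rw [pow_succ]
        field_simp
      rw [h6] at h4
      exact h4
    push_cast
    linarith

/-- The mass comparison for a coordinate direction. -/
theorem mass_coord {K : Set (E (n + 1))} (hKo : IsOpen K) (hKc : Convex ℝ K)
    (hmass : ENNReal.ofReal (9 / 10) * TT (n + 1) ≤ gam (n + 1) K) {ρ t : ℝ} (hρ : 0 < ρ)
    (hρ2 : ρ ≤ 1 / 2 ^ 14) (ht : |t| ≤ 1 / 2) :
    gam (n + 1) K ≤ gam (n + 1) (KS K (ins ρ 0) t) := by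
  have hK := hKo.measurableSet
  set K' := KS K (ins ρ 0) t with hK'
  have hK'o : IsOpen K' := KS_open hKo _ _
  have hK'm := hK'o.measurableSet
  set h : ℝ := 2 * ρ with hh
  have hh0 : 0 < h := by positivity
  set l : ℕ → ℝ≥0∞ := fun k => ENNReal.ofReal (k * h) with hl
  have hlmono : ∀ k, l k ≤ l (k + 1) := by
    intro k
    refine ENNReal.ofReal_le_ofReal ?_
    push_cast
    nlinarith
  have hlmono2 : Monotone l := monotone_nat_of_le_succ hlmono
  set Mw : ℕ → ℝ≥0∞ := fun k => gam (n + 1) (Cy K (l k)) with hMw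
  set K₀ : ℕ := 2 ^ 13 - 1 with hK₀
  have hK₀1 : K₀ + 1 = 2 ^ 13 := by
    rw [hK₀]
    norm_num
  have hKh : ((K₀ : ℝ) + 1) * h ≤ 1 := by
    have : ((K₀ : ℝ) + 1) = 2 ^ 13 := by exact_mod_cast hK₀1
    rw [this, hh]
    have : (2:ℝ) ^ 13 * (2 * ρ) = 2 ^ 14 * ρ := by ring
    rw [this]
    have h2 : (2:ℝ) ^ 14 * ρ ≤ 2 ^ 14 * (1 / 2 ^ 14) := by gcongr
    simpa using h2
  have hTfin := TT_ne_top (n + 1)
  have hgamle : ∀ A, gam (n + 1) A ≤ TT (n + 1) := fun A => measure_mono (Set.subset_univ A)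
  have hgamfin : ∀ A, gam (n + 1) A ≠ ⊤ := fun A => ne_top_of_le_ne_top hTfin (hgamle A)
  -- log concavity
  have hlc : ∀ k, Mw k * Mw (k + 2) ≤ Mw (k + 1) ^ 2 := by
    intro k
    refine Cy_logconc hKo hKc ?_
    rw [hl]
    simp only []
    rw [← ENNReal.ofReal_add (by positivity) (by positivity),
      show (2 : ℝ≥0∞) = ENNReal.ofReal 2 by simp, ← ENNReal.ofReal_mul (by norm_num)]
    refine ENNReal.ofReal_le_ofReal ?_
    push_cast
    linarith
  -- the zero level
  have hM0 : Mw 0 = gam (n + 1) K := by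
    have : Cy K (l 0) = K := by
      ext x
      constructor
      · exact fun h => h.1
      · intro hx
        refine ⟨hx, ?_⟩
        show l 0 < Ln K (tl x)
        have h0 : l 0 = 0 := by simp [hl]
        rw [h0, pos_iff_ne_zero]
        have hop : IsOpen (sec K (tl x)) := hKo.preimage (continuous_ins _)
        have hmem : x 0 ∈ sec K (tl x) := by
          show ins (x 0) (tl x) ∈ K
          rw [ins_tl]
          exact hx
        exact (hop.measure_pos volume ⟨_, hmem⟩).ne'
    simp only [hMw]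
    rw [this]
  -- tail mass
  have hTail : ENNReal.ofReal (83 / 100) * TT (n + 1) ≤ Mw K₀ := by
    set Z : Set (Fin n → ℝ) := {w | Ln K w ≤ 1} with hZ
    have hZm : MeasurableSet Z := measurableSet_le (measurable_Ln hK) measurable_const
    set X : ℝ≥0∞ := ∫⁻ w in Z, psi w with hX
    set C : Set (E (n + 1)) := {x | Ln K (tl x) ≤ 1} with hC
    have hCm : MeasurableSet C := measurableSet_le ((measurable_Ln hK).comp measurable_tl) measurable_const
    have hphihat : ENNReal.ofReal (5 / 2) ≤ ∫⁻ s, phi s := by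
      rw [lintegral_phi]
      refine ENNReal.ofReal_le_ofReal ?_
      refine Real.le_sqrt_of_sq_le ?_
      have := Real.pi_gt_three
      have h3 := Real.pi_gt_d2
      have : Real.pi / (1 / 2) = 2 * Real.pi := by ring
      rw [this]
      norm_num
      linarith
    have hgC : gam (n + 1) C = X * ∫⁻ s, phi s := by
      rw [gam_sec hCm, hX, ← lintegral_indicator hZm, ← lintegral_mul_const _ (measurable_psi.indicator hZm)]
      refine lintegral_congr (fun w => ?_)
      by_cases hw : w ∈ Z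
      · have : sec C w = univ := by
          ext s
          simp only [sec, hC, Set.mem_ofPred_eq, tl_ins, Set.mem_univ, iff_true]
          exact hw
        rw [this, Set.indicator_of_mem hw]
        simp
      · have : sec C w = ∅ := by
          ext s
          simp only [sec, hC, Set.mem_ofPred_eq, tl_ins, Set.mem_empty_iff_false, iff_false]
          exact hw
        rw [this, Set.indicator_of_notMem hw]
        simp
    have hgCK : gam (n + 1) (C ∩ K) ≤ X := by
      rw [gam_sec (hCm.inter hK), hX, ← lintegral_indicator hZm]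
      refine lintegral_mono (fun w => ?_)
      by_cases hw : w ∈ Z
      · rw [Set.indicator_of_mem hw]
        have h1 : ∫⁻ s in sec (C ∩ K) w, phi s ≤ 1 := by
          calc ∫⁻ s in sec (C ∩ K) w, phi s ≤ ∫⁻ _ in sec (C ∩ K) w, 1 :=
                lintegral_mono (fun s => phi_le_one s)
            _ = volume (sec (C ∩ K) w) := by simp
            _ ≤ volume (sec K w) := measure_mono (fun s hs => hs.2)
            _ ≤ 1 := hw
        calc psi w * ∫⁻ s in sec (C ∩ K) w, phi s ≤ psi w * 1 := mul_le_mul_right h1 _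
          _ = psi w := mul_one _
      · have : sec (C ∩ K) w = ∅ := by
          ext s
          simp only [sec, hC, Set.mem_ofPred_eq, tl_ins, Set.mem_inter_iff, Set.mem_empty_iff_false, iff_false]
          exact fun h => hw h.1
        rw [this]
        simp
    have hCle : gam (n + 1) C ≤ X + ENNReal.ofReal (1 / 10) * TT (n + 1) := by
      have h1 : gam (n + 1) C ≤ gam (n + 1) (C ∩ K) + gam (n + 1) Kᶜ := by
        calc gam (n + 1) C ≤ gam (n + 1) ((C ∩ K) ∪ Kᶜ) := by
              refine measure_mono (fun x hx => ?_)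
              by_cases hxK : x ∈ K
              · exact Or.inl ⟨hx, hxK⟩
              · exact Or.inr hxK
          _ ≤ _ := measure_union_le _ _
      have h2 : gam (n + 1) Kᶜ ≤ ENNReal.ofReal (1 / 10) * TT (n + 1) := by
        have h3 : gam (n + 1) Kᶜ = TT (n + 1) - gam (n + 1) K := measure_compl hK (hgamfin _)
        rw [h3]
        refine tsub_le_iff_right.mpr ?_
        have h4 : TT (n + 1) = ENNReal.ofReal (1 / 10) * TT (n + 1) + ENNReal.ofReal (9 / 10) * TT (n + 1) := by
          rw [← add_mul, ← ENNReal.ofReal_add (by norm_num) (by norm_num)]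
          norm_num
        nth_rw 1 [h4]
        gcongr
      exact h1.trans (add_le_add hgCK h2)
    have hXfin : X ≠ ⊤ := by
      intro hXtop
      have h2 : gam (n + 1) C = ⊤ := by
        rw [hgC, hXtop, ENNReal.top_mul]
        intro h0
        rw [h0] at hphihat
        simp at hphihat
        norm_num at hphihat
      exact hgamfin C h2
    -- real arithmetic
    have hXb : X ≤ ENNReal.ofReal (1 / 15) * TT (n + 1) := by
      have h1 : ENNReal.ofReal (5 / 2) * X ≤ X + ENNReal.ofReal (1 / 10) * TT (n + 1) := by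
        calc ENNReal.ofReal (5 / 2) * X = X * ENNReal.ofReal (5 / 2) := mul_comm _ _
          _ ≤ X * ∫⁻ s, phi s := mul_le_mul_right hphihat _
          _ = gam (n + 1) C := hgC.symm
          _ ≤ _ := hCle
      have hreal := ENNReal.toReal_mono (ENNReal.add_ne_top.mpr ⟨hXfin, ENNReal.mul_ne_top ENNReal.ofReal_ne_top hTfin⟩) h1
      rw [ENNReal.toReal_mul, ENNReal.toReal_add hXfin (ENNReal.mul_ne_top ENNReal.ofReal_ne_top hTfin),
        ENNReal.toReal_mul, ENNReal.toReal_ofReal (by norm_num), ENNReal.toReal_ofReal (by norm_num)] at hreal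
      rw [← ENNReal.ofReal_toReal hXfin, ← ENNReal.ofReal_toReal hTfin,
        ← ENNReal.ofReal_mul (by norm_num)]
      refine ENNReal.ofReal_le_ofReal ?_
      linarith
    -- conclude
    have hsub : K ⊆ (C ∩ K) ∪ Cy K (l K₀) := by
      intro x hx
      by_cases hxC : x ∈ C
      · exact Or.inl ⟨hxC, hx⟩
      · refine Or.inr ⟨hx, ?_⟩
        have hlK : l K₀ ≤ 1 := by
          rw [hl]
          simp only []
          rw [show (1 : ℝ≥0∞) = ENNReal.ofReal 1 by simp]
          refine ENNReal.ofReal_le_ofReal ?_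
          nlinarith
        have : 1 < Ln K (tl x) := not_le.mp hxC
        exact lt_of_le_of_lt hlK this
    have h5 : gam (n + 1) K ≤ ENNReal.ofReal (1 / 15) * TT (n + 1) + Mw K₀ :=
      (measure_mono hsub).trans ((measure_union_le _ _).trans (add_le_add (hgCK.trans hXb) le_rfl))
    have h6 := hmass.trans h5
    have hreal := ENNReal.toReal_mono (ENNReal.add_ne_top.mpr ⟨ENNReal.mul_ne_top ENNReal.ofReal_ne_top hTfin, hgamfin _⟩) h6
    rw [ENNReal.toReal_mul, ENNReal.toReal_add (ENNReal.mul_ne_top ENNReal.ofReal_ne_top hTfin) (hgamfin _),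
      ENNReal.toReal_mul, ENNReal.toReal_ofReal (by norm_num), ENNReal.toReal_ofReal (by norm_num)] at hreal
    have hMwk : Mw K₀ = gam (n + 1) (Cy K (l K₀)) := rfl
    rw [hMwk]
    rw [← ENNReal.ofReal_toReal hTfin, ← ENNReal.ofReal_toReal (hgamfin (Cy K (l K₀))),
      ← ENNReal.ofReal_mul (by norm_num)]
    refine ENNReal.ofReal_le_ofReal ?_
    have h7 : (0 : ℝ) ≤ (TT (n + 1)).toReal := ENNReal.toReal_nonneg
    linarith
  -- the sections of the enlarged body
  have hExt : ∀ w, ExtProp (sec K w) (sec K' w) ρ t := by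
    intro w p q s hp hq hpq h1 h2
    exact sec_KS hρ hp hq hpq h1 h2
  have hsecO : ∀ w, IsOpen (sec K w) := fun w => hKo.preimage (continuous_ins _)
  have hsecC : ∀ w, Convex ℝ (sec K w) := by
    intro w a ha b hb x y hx hy hxy
    have := hKc (show ins a w ∈ K from ha) (show ins b w ∈ K from hb) hx hy hxy
    show ins (x • a + y • b) w ∈ K
    convert this using 1
    ext i
    refine Fin.cases ?_ (fun j => ?_) i
    · simp [ins_zero]
    · simp only [ins_succ, PiLp.add_apply, PiLp.smul_apply, smul_eq_mul]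
      rw [← add_mul, hxy, one_mul]
  -- the pointwise gain
  set c : ℕ → ℝ≥0∞ := fun k => ENNReal.ofReal (1 / 5 / ((k : ℝ) + 1)) with hc
  set Dw : (Fin n → ℝ) → ℝ≥0∞ := fun w => psi w * Qm K w with hDw
  have hDwm : Measurable Dw := measurable_psi.mul (measurable_Qm hK)
  set B : ℕ → Set (Fin n → ℝ) := fun k => {w | l k < Ln K w ∧ Ln K w ≤ l (k + 1)} with hB
  have hBm : ∀ k, MeasurableSet (B k) := fun k =>
    (measurableSet_lt measurable_const (measurable_Ln hK)).inter
      (measurableSet_le (measurable_Ln hK) measurable_const)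
  have hlong : ∀ k, MeasurableSet {w | l k < Ln K w} := fun k =>
    measurableSet_lt measurable_const (measurable_Ln hK)
  have hpoint : ∀ w, ({w | l 1 < Ln K w}.indicator Dw w +
      ∑ k ∈ Finset.Ico 1 (K₀ + 1), c k * (B k).indicator Dw w) ≤ psi w * Qm K' w := by
    intro w
    by_cases hw1 : l 1 < Ln K w
    · have hl1 : ENNReal.ofReal (2 * ρ) < volume (sec K w) := by
        have : l 1 = ENNReal.ofReal (2 * ρ) := by simp [hl, hh]
        rw [← this]
        exact hw1
      have hsub := fiber_mono hρ ht (hExt w) hl1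
      have hQle : Qm K w ≤ Qm K' w := lintegral_mono_set hsub
      rw [Set.indicator_of_mem (show w ∈ {w | l 1 < Ln K w} from hw1)]
      by_cases hw2 : l (K₀ + 1) < Ln K w
      · have h0 : ∑ k ∈ Finset.Ico 1 (K₀ + 1), c k * (B k).indicator Dw w = 0 := by
          refine Finset.sum_eq_zero (fun k hk => ?_)
          have hk2 : k + 1 ≤ K₀ + 1 := by
            have := (Finset.mem_Ico.mp hk).2
            omega
          have : w ∉ B k := fun h =>
            absurd (lt_of_le_of_lt (hlmono2 hk2) hw2) (not_lt.mpr h.2)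
          rw [Set.indicator_of_notMem this, mul_zero]
        rw [h0, add_zero]
        exact mul_le_mul_right hQle _
      · -- find the band
        push Not at hw2
        have hex : ∃ k, Ln K w ≤ l (k + 1) := ⟨K₀, hw2⟩
        classical
        set k₀ := Nat.find hex with hk₀
        have hk₀1 : Ln K w ≤ l (k₀ + 1) := Nat.find_spec hex
        have hk₀2 : k₀ ≤ K₀ := Nat.find_min' hex hw2
        have hk₀3 : 1 ≤ k₀ := by
          by_contra hh0
          have h00 : k₀ = 0 := by omega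
          rw [h00] at hk₀1
          exact absurd hw1 (not_lt.mpr hk₀1)
        have hk₀4 : l k₀ < Ln K w := by
          have h1 : k₀ - 1 < k₀ := by omega
          have h2 := Nat.find_min hex h1
          push Not at h2
          have h3 : k₀ - 1 + 1 = k₀ := by omega
          rw [h3] at h2
          exact h2
        have hs : ∑ k ∈ Finset.Ico 1 (K₀ + 1), c k * (B k).indicator Dw w = c k₀ * Dw w := by
          rw [Finset.sum_eq_single k₀]
          · rw [Set.indicator_of_mem (show w ∈ B k₀ from ⟨hk₀4, hk₀1⟩)]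
          · intro k _ hne
            have : w ∉ B k := by
              rintro ⟨h1, h2⟩
              rcases Nat.lt_or_gt_of_ne hne with hlt | hgt
              · have : l (k + 1) ≤ l k₀ := hlmono2 (by omega)
                exact absurd (lt_of_le_of_lt (this) hk₀4) (not_lt.mpr h2)
              · have : l (k₀ + 1) ≤ l k := hlmono2 (by omega)
                exact absurd (lt_of_le_of_lt this h1) (not_lt.mpr hk₀1)
            rw [Set.indicator_of_notMem this, mul_zero]
          · intro hn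
            exact absurd (Finset.mem_Ico.mpr ⟨hk₀3, by omega⟩) hn
        rw [hs]
        have hgain := fiber_gain (hsecO w) (hsecC w) (sec_meas hK'm w) hρ (by
          have : (1:ℝ) / 2 ^ 14 ≤ 1 / 4 := by norm_num
          linarith) ht (hExt w) k₀ hk₀3 hk₀4 (by
            have := hk₀1
            simp only [hl] at this
            push_cast at this
            exact this) (by
            have h1 : ((k₀ : ℝ) + 1) ≤ (K₀ : ℝ) + 1 := by
              have : (k₀ : ℝ) ≤ K₀ := by exact_mod_cast hk₀2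
              linarith
            nlinarith)
        calc Dw w + c k₀ * Dw w = psi w * (Qm K w + c k₀ * Qm K w) := by
              simp only [hDw]
              ring
          _ ≤ psi w * Qm K' w := mul_le_mul_right hgain _
    · have h1 : {w | l 1 < Ln K w}.indicator Dw w = 0 :=
        Set.indicator_of_notMem (show w ∉ {w | l 1 < Ln K w} from hw1) _
      have h0 : ∑ k ∈ Finset.Ico 1 (K₀ + 1), c k * (B k).indicator Dw w = 0 := by
        refine Finset.sum_eq_zero (fun k hk => ?_)
        have hk1 := (Finset.mem_Ico.mp hk).1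
        have : w ∉ B k := fun h => hw1 (lt_of_le_of_lt (hlmono2 hk1) h.1)
        rw [Set.indicator_of_notMem this, mul_zero]
      rw [h1, h0]
      simp
  -- integrate
  have hint : Mw 1 + ∑ k ∈ Finset.Ico 1 (K₀ + 1), c k * ∫⁻ w in B k, Dw w ≤ gam (n + 1) K' := by
    have h1 : gam (n + 1) K' = ∫⁻ w, psi w * Qm K' w := gam_sec hK'm
    rw [h1]
    have h2 : Mw 1 = ∫⁻ w, {w | l 1 < Ln K w}.indicator Dw w := by
      simp only [hMw]
      rw [gam_Cy hK, lintegral_indicator (hlong 1)]
    rw [h2]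
    have h3 : ∑ k ∈ Finset.Ico 1 (K₀ + 1), c k * ∫⁻ w in B k, Dw w =
        ∫⁻ w, ∑ k ∈ Finset.Ico 1 (K₀ + 1), c k * (B k).indicator Dw w := by
      rw [lintegral_finsetSum]
      · refine Finset.sum_congr rfl (fun k _ => ?_)
        rw [lintegral_const_mul _ (hDwm.indicator (hBm k)), lintegral_indicator (hBm k)]
      · intro k _
        exact (hDwm.indicator (hBm k)).const_mul _
    rw [h3, ← lintegral_add_left (hDwm.indicator (hlong 1))]
    exact lintegral_mono hpoint
  -- band masses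
  have hband : ∀ k, Mw k = (∫⁻ w in B k, Dw w) + Mw (k + 1) := by
    intro k
    simp only [hMw]
    rw [gam_Cy hK, gam_Cy hK]
    have hU : {w | l k < Ln K w} = B k ∪ {w | l (k + 1) < Ln K w} := by
      ext w
      simp only [hB, Set.mem_ofPred_eq, Set.mem_union]
      constructor
      · intro h
        by_cases h2 : Ln K w ≤ l (k + 1)
        · exact Or.inl ⟨h, h2⟩
        · exact Or.inr (not_le.mp h2)
      · rintro (h | h)
        · exact h.1
        · exact lt_of_le_of_lt (hlmono k) h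
    have hd : Disjoint (B k) {w | l (k + 1) < Ln K w} := by
      rw [Set.disjoint_left]
      rintro w ⟨_, h2⟩ h3
      exact absurd h3 (not_lt.mpr h2)
    rw [hU, lintegral_union (hlong (k + 1)) hd]
  -- pass to reals
  set M : ℕ → ℝ := fun k => (Mw k).toReal with hM
  have hMwfin : ∀ k, Mw k ≠ ⊤ := fun k => hgamfin _
  have hBfin : ∀ k, (∫⁻ w in B k, Dw w) ≠ ⊤ := by
    intro k h
    have := hband k
    rw [h, top_add] at this
    exact hMwfin k this
  have hBreal : ∀ k, (∫⁻ w in B k, Dw w).toReal = M k - M (k + 1) := by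
    intro k
    have := congrArg ENNReal.toReal (hband k)
    rw [ENNReal.toReal_add (hBfin k) (hMwfin _)] at this
    simp only [hM]
    linarith
  set T : ℝ := (TT (n + 1)).toReal with hT
  have hT0 : 0 < T := ENNReal.toReal_pos (TT_pos _).ne' hTfin
  have hcore := numeric_core M T K₀ hT0 (fun k => by
      have h1 := hBreal k
      have h2 : 0 ≤ (∫⁻ w in B k, Dw w).toReal := ENNReal.toReal_nonneg
      linarith)
    (ENNReal.toReal_mono hTfin (hgamle _))
    (fun k => by
      have h1 := ENNReal.toReal_mono (by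
        exact ENNReal.pow_ne_top (hMwfin _)) (hlc k)
      rw [ENNReal.toReal_mul, ENNReal.toReal_pow] at h1
      exact h1)
    (by
      have h1 := ENNReal.toReal_mono (hMwfin K₀) hTail
      rw [ENNReal.toReal_mul, ENNReal.toReal_ofReal (by norm_num)] at h1
      exact h1)
    (by
      have h1 := harmonic_dyadic 13
      rw [hK₀1]
      norm_num at h1 ⊢
      linarith)
  have hsumfin : (∑ k ∈ Finset.Ico 1 (K₀ + 1), c k * ∫⁻ w in B k, Dw w) ≠ ⊤ :=
    ENNReal.sum_ne_top.mpr (fun k _ => ENNReal.mul_ne_top ENNReal.ofReal_ne_top (hBfin k))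
  have hfinal := ENNReal.toReal_mono (hgamfin K') hint
  rw [ENNReal.toReal_add (hMwfin 1) hsumfin, ENNReal.toReal_sum (fun k _ =>
    ENNReal.mul_ne_top ENNReal.ofReal_ne_top (hBfin k))] at hfinal
  have hsumeq : ∑ k ∈ Finset.Ico 1 (K₀ + 1), (c k * ∫⁻ w in B k, Dw w).toReal =
      ∑ k ∈ Finset.Ico 1 (K₀ + 1), (1 / 5 / ((k : ℝ) + 1)) * (M k - M (k + 1)) := by
    refine Finset.sum_congr rfl (fun k _ => ?_)
    rw [ENNReal.toReal_mul, hBreal, hc]
    simp only []
    rw [ENNReal.toReal_ofReal (by positivity)]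
  rw [hsumeq] at hfinal
  have hlast : M 0 ≤ (gam (n + 1) K').toReal := hcore.trans hfinal
  have h0eq : M 0 = (gam (n + 1) K).toReal := by
    simp only [hM]
    rw [hM0]
  rw [h0eq] at hlast
  exact (ENNReal.toReal_le_toReal (hgamfin _) (hgamfin _)).mp hlast

/-- The mass comparison for a general direction. -/
theorem mass_general {K : Set (E m)} (hKo : IsOpen K) (hKc : Convex ℝ K)
    (hmass : ENNReal.ofReal (9 / 10) * TT m ≤ gam m K) {u : E m} (hu0 : u ≠ 0)
    (hu : ‖u‖ ≤ 1 / 2 ^ 14) {t : ℝ} (ht : |t| ≤ 1 / 2) :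
    gam m K ≤ gam m (KS K u t) := by
  obtain _ | n := m
  · exact absurd (Subsingleton.elim _ _) hu0
  set ρ : ℝ := ‖u‖ with hρ
  have hρ0 : 0 < ρ := norm_pos_iff.mpr hu0
  have hnorm : ‖u‖ = ‖ins ρ (0 : Fin n → ℝ)‖ := by
    have h1 := norm_sq_toLp (Fin.cons ρ (0 : Fin n → ℝ) : Fin (n + 1) → ℝ)
    have h2 : ∑ i, (Fin.cons ρ (0 : Fin n → ℝ) : Fin (n + 1) → ℝ) i ^ 2 = ρ ^ 2 := by
      rw [Fin.sum_univ_succ]
      simp
    rw [h2] at h1
    have h3 : ‖ins ρ (0 : Fin n → ℝ)‖ ^ 2 = ρ ^ 2 := h1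
    have h4 := norm_nonneg (ins ρ (0 : Fin n → ℝ))
    nlinarith [sq_nonneg (‖ins ρ (0 : Fin n → ℝ)‖ - ρ)]
  set R : E (n + 1) ≃ₗᵢ[ℝ] E (n + 1) := Submodule.reflection (ℝ ∙ (u - ins ρ (0 : Fin n → ℝ)))ᗮ with hR
  have hRu : R u = ins ρ (0 : Fin n → ℝ) := Submodule.reflection_sub hnorm
  set K₁ : Set (E (n + 1)) := R.symm ⁻¹' K with hK₁
  have hK₁o : IsOpen K₁ := hKo.preimage R.symm.continuous
  have hK₁c : Convex ℝ K₁ := hKc.linear_preimage (R.symm.toLinearEquiv.toLinearMap)
  have hg1 : gam (n + 1) K₁ = gam (n + 1) K := gam_preimage R.symm hKo.measurableSet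
  have hKS : KS K₁ (ins ρ 0) t = R.symm ⁻¹' (KS K u t) := by
    ext y
    simp only [KS, Set.mem_ofPred_eq, Set.mem_preimage, hK₁, ← hRu, map_add, map_smul,
      LinearIsometryEquiv.symm_apply_apply]
  have hg2 : gam (n + 1) (KS K₁ (ins ρ 0) t) = gam (n + 1) (KS K u t) := by
    rw [hKS]
    exact gam_preimage R.symm (KS_open hKo u t).measurableSet
  rw [← hg1, ← hg2]
  exact mass_coord hK₁o hK₁c (by rw [hg1]; exact hmass) hρ0 hu ht

/-- The enlargement lemma: a body of large Gaussian mass has an enlargement of at least the same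
mass from which a tilted signed step along `u` lands in the body. -/
theorem kstar {K : Set (E m)} (hKo : IsOpen K) (hKc : Convex ℝ K)
    (hmass : ENNReal.ofReal (9 / 10) * TT m ≤ gam m K) (u : E m)
    (hu : ‖u‖ ≤ 1 / 2 ^ 14) {t : ℝ} (ht : |t| ≤ 1 / 2) :
    ∃ K' : Set (E m), IsOpen K' ∧ Convex ℝ K' ∧ gam m K ≤ gam m K' ∧
      ∀ x ∈ K', x + (1 - t) • u ∈ K ∨ x + (-1 - t) • u ∈ K := by
  by_cases hu0 : u = 0
  · refine ⟨K, hKo, hKc, le_rfl, fun x hx => Or.inl ?_⟩
    simpa [hu0] using hx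
  · refine ⟨KS K u t, KS_open hKo u t, KS_convex hKc u t, mass_general hKo hKc hmass hu0 hu ht, ?_⟩
    intro x hx
    rcases KS_spec hKc hx with h | h
    · exact Or.inl h
    · refine Or.inr ?_
      have : x + (-1 - t) • u = x - (1 + t) • u := by
        have e : (-1 - t) = -(1 + t) := by ring
        rw [e, neg_smul, sub_eq_add_neg]
      rw [this]
      exact h

end

end Vale.Agent.Lib.P262S
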