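import Vale.Agent.Lib.P262S.FoldS
import Vale.Agent.Lib.P262L.Tree2

open Finset
open Vale.Agent.Lib.P262L (OkL greedy list_sum_eq)

namespace Vale.Agent.Lib.P262S

noncomputable section

variable {I D : Type} [Fintype I] [DecidableEq I] [Fintype D] [DecidableEq D]

omit [Fintype I] [DecidableEq I] in
/-- Markov's inequality for the heavy atoms. -/
lemma markov_card (s : Finset I) (f : I → ℝ) (hf : ∀ i ∈ s, 0 ≤ f i) (F : ℝ) (hF : ∑ i ∈ s, f i ≤ F) :
    ((s.filter (fun i => (1 / 2 : ℝ) ^ 60 * F < f i)).card : ℝ) ≤ 2 ^ 60 := by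
  classical
  set A := s.filter (fun i => (1 / 2 : ℝ) ^ 60 * F < f i) with hA
  have hF0 : 0 ≤ F := (Finset.sum_nonneg hf).trans hF
  have h1 : ∑ i ∈ A, f i ≤ F :=
    (Finset.sum_le_sum_of_subset_of_nonneg (Finset.filter_subset _ _) (fun i hi _ => hf i hi)).trans hF
  rcases hF0.eq_or_lt with h0 | hpos
  · have hemp : A = ∅ := by
      apply Finset.eq_empty_of_forall_notMem
      intro i hi
      have hi' := Finset.mem_filter.mp hi
      have h2 := Finset.single_le_sum hf hi'.1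
      have h3 := hi'.2
      rw [← h0] at h3 hF
      simp only [mul_zero] at h3
      linarith
    rw [hemp]
    simp
  · have h2 : (A.card : ℝ) * ((1 / 2) ^ 60 * F) ≤ ∑ i ∈ A, f i := by
      have := Finset.card_nsmul_le_sum A f ((1 / 2) ^ 60 * F) (fun i hi => (Finset.mem_filter.mp hi).2.le)
      simpa using this
    have h3 : (A.card : ℝ) * ((1 / 2) ^ 60 * F) ≤ F := h2.trans h1
    have h4 : (A.card : ℝ) * (1 / 2) ^ 60 ≤ 1 := by
      by_contra hcon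
      push Not at hcon
      nlinarith
    have h5 : (A.card : ℝ) * (1 / 2) ^ 60 * 2 ^ 60 ≤ 1 * 2 ^ 60 := mul_le_mul_of_nonneg_right h4 (by positivity)
    have h6 : (A.card : ℝ) * (1 / 2) ^ 60 * 2 ^ 60 = A.card := by
      rw [mul_assoc, ← mul_pow]
      norm_num
    linarith

variable {S : Sys I D}

/-- **The heavy atoms.** -/
lemma exists_heavy (t : ℕ) {Yh : ℝ} (x y : D → ℝ) {s : Finset I} (hY : S.Yy (TF S.y t) s ≤ Yh)
    (hs : (2 : ℝ) ^ 63 ≤ s.card) : ∃ Ex, Heavy S t Yh x y s Ex := by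
  classical
  set T := TF S.y t with hT
  set f1 : I → ℝ := fun i => ∑ a ∈ T, S.z i a ^ 2 with hf1
  set f2 : I → ℝ := fun i => (∑ a ∈ T, x a * S.z i a) ^ 2 with hf2
  set f3 : I → ℝ := fun i => (∑ a ∈ T, y a * S.z i a) ^ 2 with hf3
  have h1 : ∀ i ∈ s, 0 ≤ f1 i := fun i _ => Finset.sum_nonneg (fun _ _ => sq_nonneg _)
  have h2 : ∀ i ∈ s, 0 ≤ f2 i := fun i _ => sq_nonneg _
  have h3 : ∀ i ∈ s, 0 ≤ f3 i := fun i _ => sq_nonneg _
  have m1 := markov_card s f1 h1 Yh hY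
  have m2 := markov_card s f2 h2 (S.Nn T s x ^ 2) (by rw [S.Nn_sq])
  have m3 := markov_card s f3 h3 (S.Nn T s y ^ 2) (by rw [S.Nn_sq])
  set δ : ℝ := (1 / 2) ^ 60 with hδ
  set Ex := s.filter (fun i => δ * Yh < f1 i ∨ δ * S.Nn T s x ^ 2 < f2 i ∨ δ * S.Nn T s y ^ 2 < f3 i) with hEx
  refine ⟨Ex, Finset.filter_subset _ _, ?_, ?_, ?_, ?_, hs⟩
  · have hsub : Ex ⊆ s.filter (fun i => δ * Yh < f1 i) ∪
        (s.filter (fun i => δ * S.Nn T s x ^ 2 < f2 i) ∪ s.filter (fun i => δ * S.Nn T s y ^ 2 < f3 i)) := by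
      intro i hi
      have hi' := Finset.mem_filter.mp hi
      simp only [Finset.mem_union, Finset.mem_filter]
      rcases hi'.2 with h | h | h
      · exact Or.inl ⟨hi'.1, h⟩
      · exact Or.inr (Or.inl ⟨hi'.1, h⟩)
      · exact Or.inr (Or.inr ⟨hi'.1, h⟩)
    have hc := (Finset.card_le_card hsub).trans ((Finset.card_union_le _ _).trans
      (Nat.add_le_add_left (Finset.card_union_le _ _) _))
    have hc' : (Ex.card : ℝ) ≤ ((s.filter (fun i => δ * Yh < f1 i)).card : ℝ) +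
        (((s.filter (fun i => δ * S.Nn T s x ^ 2 < f2 i)).card : ℝ) +
          ((s.filter (fun i => δ * S.Nn T s y ^ 2 < f3 i)).card : ℝ)) := by
      exact_mod_cast hc
    have e62 : (2 : ℝ) ^ 62 = 2 ^ 60 + (2 ^ 60 + (2 ^ 60 + 2 ^ 60)) := by norm_num
    have e60 : (0 : ℝ) ≤ 2 ^ 60 := by positivity
    linarith
  · intro i hi
    have hi' := Finset.mem_sdiff.mp hi
    by_contra hcon
    push Not at hcon
    exact hi'.2 (Finset.mem_filter.mpr ⟨hi'.1, Or.inl hcon⟩)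
  · intro i hi
    have hi' := Finset.mem_sdiff.mp hi
    by_contra hcon
    push Not at hcon
    exact hi'.2 (Finset.mem_filter.mpr ⟨hi'.1, Or.inr (Or.inl hcon)⟩)
  · intro i hi
    have hi' := Finset.mem_sdiff.mp hi
    by_contra hcon
    push Not at hcon
    exact hi'.2 (Finset.mem_filter.mpr ⟨hi'.1, Or.inr (Or.inr hcon)⟩)

variable (S)

/-- The bound of a clean point: it allows the noise of a fold. -/
def Cl (t j : ℕ) (s : Finset I) (Yh : ℝ) (u : D → ℝ) : Prop :=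
  TB S t j s Yh u (Rr S t + 2 * inc S t) ∧ TBp S t j s Yh u (Rr S t + 2 * inc S t)

/-- The status of an endpoint. -/
def Sta (t j : ℕ) (s : Finset I) (Yh : ℝ) (u : D → ℝ) : Prop :=
  TB S t j s Yh u (Rr S t) ∨ Cl S t j s Yh u

variable {S}

lemma Sta.tb {t j : ℕ} {s : Finset I} {Yh : ℝ} {u : D → ℝ} (h : Sta S t j s Yh u) :
    TB S t j s Yh u (Rr S t + 2 * inc S t) := by
  rcases h with h | h
  · exact h.le (by have := inc_nonneg (S := S) t; linarith)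
  · exact h.1

lemma Sta.mono {t j J' : ℕ} {s C : Finset I} {Yh : ℝ} {u : D → ℝ} (h : Sta S t j s Yh u)
    (hle : j + J' ≤ jj S.y (t + 1)) (hC : C ⊆ s) (hY : 0 ≤ Yh) :
    Sta S t (j + J') C (7 / 10 * Yh) u := by
  rcases h with h | h
  · exact Or.inl (h.mono hle hC hY)
  · exact Or.inr ⟨h.1.mono hle hC hY, h.2.mono hle hC hY⟩

/-- Before the end of a stage the invariants are restored. -/
lemma inv_keep {t j : ℕ} {C : Finset I} {Yh : ℝ} (hI : InvC S t j C Yh 7) (hj : j < jj S.y (t + 1)) :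
    Inv S t j C Yh := by
  refine ⟨hI.lev1, hj, hI.i1, ?_, hI.i3⟩
  intro c hc
  refine (hI.i2 c hc).trans ?_
  have hδ : (0 : ℝ) ≤ (c : ℝ) - t := by
    have : (t : ℝ) ≤ c := by exact_mod_cast hc
    linarith
  have hn : (0 : ℝ) ≤ (WW S.y c).card := by positivity
  have hb := bt_nonneg S t
  unfold Xc
  norm_num
  nlinarith

/-- The new fallen mass of a child. -/
lemma cross_Y {t : ℕ} {C : Finset I} {Yh u : ℝ} (hI : InvC S t (jj S.y (t + 1)) C Yh u)
    (hu : u ≤ 7 + (EJ S.y t : ℝ)) : S.Yy (WW S.y t) C ≤ Yst S t := by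
  refine Y_W_le ((hI.i2 t le_rfl).trans ?_)
  have hn : (0 : ℝ) ≤ (WW S.y t).card := by positivity
  have hb := bt_nonneg S t
  have hEJ : (EJ S.y t : ℝ) ≤ JJ S.y t := by
    unfold EJ
    split_ifs
    · exact le_rfl
    · simp
  have hJ : (0 : ℝ) ≤ JJ S.y t := by positivity
  unfold Xc
  norm_num
  norm_num at hu
  nlinarith

/-- A point at the end of a stage is dirty in the next stage. -/
lemma cross_pt {t : ℕ} {C : Finset I} {Yh u ρ : ℝ} {w : D → ℝ} (hI : InvC S t (jj S.y (t + 1)) C Yh u)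
    (hu : u ≤ 7 + (EJ S.y t : ℝ)) (hb : TB S t (jj S.y (t + 1)) C Yh w ρ) (hρ : ρ ≤ Rc S (Rr S t) t) :
    TB S (t + 1) (jj S.y (t + 1)) C (Yh + Yst S t) w (Rr S (t + 1)) := by
  have h1 := TB_cross hb (cross_Y hI hu)
  refine h1.le ?_
  show _ ≤ Rc S (Rr S t) t + 2 ^ 130 * ((Lv S.y (t + 1)).card : ℝ) + 2 ^ 71 * Yst S t
  linarith

/-- The next node after a binary step. -/
lemma wrap {t j : ℕ} {C : Finset I} {Yh : ℝ} {x y : D → ℝ} (hI : InvC S t j C Yh 7)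
    (hx : Sta S t j C Yh x) (hy : Sta S t j C Yh y) :
    ∃ t' j' Yh', Inv S t' j' C Yh' ∧ Sta S t' j' C Yh' x ∧ Sta S t' j' C Yh' y := by
  rcases lt_or_eq_of_le hI.lev2 with hj | hj
  · exact ⟨t, j, Yh, inv_keep hI hj, hx, hy⟩
  · subst hj
    have hu0 : (0 : ℝ) ≤ 7 := by norm_num
    have hu : (7 : ℝ) ≤ 7 + (EJ S.y t : ℝ) := by
      have : (0 : ℝ) ≤ (EJ S.y t : ℝ) := by positivity
      linarith
    refine ⟨t + 1, jj S.y (t + 1), Yh + Yst S t, inv_cross hI hu hu0, Or.inl ?_, Or.inl ?_⟩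
    · exact cross_pt hI hu hx.tb (clean_le_Rc _ _)
    · exact cross_pt hI hu hy.tb (clean_le_Rc _ _)

omit [Fintype I] [DecidableEq I] [DecidableEq D] in
lemma OkL_le {z : I → D → ℝ} {P : D → ℝ} {R R' : ℝ} {l : List I} (h : OkL z P R l) (hR : R ≤ R') :
    OkL z P R' l := fun l₁ hl₁ => (h l₁ hl₁).trans hR

omit [Fintype I] in
/-- Concatenation of two consecutive pieces. -/
lemma OkL_join {z : I → D → ℝ} {P Q : D → ℝ} {R : ℝ} {s : Finset I} {l₁ l₂ : List I} (h₁ : OkL z P R l₁)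
    (hn : l₁.Nodup) (hl : l₁.toFinset = s) (hQ : ∀ a, Q a = P a + ∑ i ∈ s, z i a) (h₂ : OkL z Q R l₂) :
    OkL z P R (l₁ ++ l₂) := by
  refine h₁.append ?_
  have e : (fun x => P x + (l₁.map (fun i => z i x)).sum) = Q := by
    funext x
    rw [list_sum_eq hn hl, hQ]
  rw [e]
  exact h₂

omit [Fintype I] [DecidableEq D] in
/-- The union of two disjoint pieces. -/
lemma nodup_join {l₁ l₂ : List I} {s₁ s₂ : Finset I} (h₁ : l₁.Nodup) (h₂ : l₂.Nodup) (e₁ : l₁.toFinset = s₁)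
    (e₂ : l₂.toFinset = s₂) (hd : Disjoint s₁ s₂) : (l₁ ++ l₂).Nodup := by
  refine List.Nodup.append h₁ h₂ ?_
  intro x hx hx'
  have h3 : x ∈ s₁ := by rw [← e₁]; exact List.mem_toFinset.mpr hx
  have h4 : x ∈ s₂ := by rw [← e₂]; exact List.mem_toFinset.mpr hx'
  exact Finset.disjoint_left.mp hd h3 h4

/-- Adding one group in front of a prefix. -/
lemma Pre_cons {P : Type} (p : I → P → ℝ) (C : Finset I) (G : List (Finset I)) (l : ℕ) :
    Pre p (C :: G) (l + 1) = Sp p C + Pre p G l := by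
  unfold Pre
  simp

/-- Chaining the orderings of consecutive groups. -/
lemma chain {z : I → D → ℝ} {R : ℝ} : ∀ (G : List (Finset I)) (P : D → ℝ), G.Pairwise Disjoint →
    (∑ a, P a ^ 2 ≤ R) →
    (∀ l (hl : l < G.length), ∃ L : List I, L.Nodup ∧ L.toFinset = G[l] ∧
      OkL z (fun a => P a + vi (Pre (pv z) G l) a) R L) →
    ∃ L : List I, L.Nodup ∧ L.toFinset = bigU G ∧ OkL z P R L := by
  intro G
  induction G with
  | nil =>
    intro P _ h0 _
    refine ⟨[], List.nodup_nil, rfl, ?_⟩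
    intro l₁ hl₁
    have h1 : l₁ = [] := List.prefix_nil.mp hl₁
    subst h1
    simpa using h0
  | cons C G ih =>
    intro P hG _ hch
    have hG' := List.pairwise_cons.mp hG
    obtain ⟨L₀, hn₀, he₀, hok₀⟩ := hch 0 (by simp)
    have hP0 : (fun a => P a + vi (Pre (pv z) (C :: G) 0) a) = P := by
      funext a
      have : Pre (pv z) (C :: G) 0 = 0 := by
        unfold Pre
        simp
      rw [this]
      simp [vi]
    rw [hP0] at hok₀
    simp only [List.getElem_cons_zero] at he₀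
    set Q : D → ℝ := fun a => P a + ∑ i ∈ C, z i a with hQ
    have hQ0 : ∑ a, Q a ^ 2 ≤ R := by
      have h1 := hok₀ L₀ List.prefix_rfl
      simp only [list_sum_eq hn₀ he₀] at h1
      exact h1
    obtain ⟨L₁, hn₁, he₁, hok₁⟩ := ih Q hG'.2 hQ0 (by
      intro l hl
      obtain ⟨L, hn, he, hok⟩ := hch (l + 1) (by simpa using hl)
      refine ⟨L, hn, ?_, ?_⟩
      · simpa using he
      · have e : (fun a => P a + vi (Pre (pv z) (C :: G) (l + 1)) a) =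
            fun a => Q a + vi (Pre (pv z) G l) a := by
          funext a
          rw [Pre_cons]
          simp only [hQ, vi, Pi.add_apply]
          have : Sp (pv z) C (Sum.inl a) = ∑ i ∈ C, z i a := rfl
          rw [this]
          ring
        rw [e] at hok
        exact hok)
    have hd : Disjoint C (bigU G) := by
      rw [Finset.disjoint_left]
      intro i hi hi'
      obtain ⟨C', hC', hiC'⟩ := mem_bigU.mp hi'
      exact Finset.disjoint_left.mp (hG'.1 C' hC') hi hiC'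
    refine ⟨L₀ ++ L₁, nodup_join hn₀ hn₁ he₀ he₁ hd, ?_, OkL_join hok₀ hn₀ he₀ (fun _ => rfl) hok₁⟩
    rw [List.toFinset_append, he₀, he₁]
    rfl

variable (S)

/-- What the recursion produces for a set of atoms. -/
def Goal (Rf : ℝ) (s : Finset I) : Prop :=
  ∀ (t j : ℕ) (Yh : ℝ) (x y : D → ℝ), Inv S t j s Yh → Sta S t j s Yh x → Sta S t j s Yh y →
    (∀ a, y a = x a + ∑ i ∈ s, S.z i a) → ∃ l : List I, l.Nodup ∧ l.toFinset = s ∧ OkL S.z x Rf l

variable {S}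

lemma Rc_bound {Rinf : ℝ} (hR : ∀ t, Rr S t ≤ Rinf) (t : ℕ) : Rc S (Rr S t) t ≤ Rinf :=
  (Rc_le_Rr t).trans (hR (t + 1))

/-- A small node: the greedy ordering. -/
lemma leaf_case {Rinf : ℝ} (hR : ∀ t, Rr S t ≤ Rinf) {t j : ℕ} {s : Finset I} {Yh : ℝ} {x y : D → ℝ}
    (hI : Inv S t j s Yh) (hx : Sta S t j s Yh x) (hy : Sta S t j s Yh y)
    (hrel : ∀ a, y a = x a + ∑ i ∈ s, S.z i a) (hc : (s.card : ℝ) ≤ 2 ^ 63) :
    ∃ l : List I, l.Nodup ∧ l.toFinset = s ∧ OkL S.z x (Rinf + 2 ^ 130 * (Fintype.card D : ℝ) + 2 ^ 63) l := by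
  have hY0 : 0 ≤ Yh := (S.Yy_nonneg _ _).trans hI.i3
  have h1 := norm_of_TB hx.tb hY0 hI.lev1 hI.lev2.le
  have h2 := norm_of_TB hy.tb hY0 hI.lev1 hI.lev2.le
  simp only [hrel] at h2
  obtain ⟨l, hn, he, hok⟩ := greedy S.hz s.card s rfl x _ h1 h2
  refine ⟨l, hn, he, OkL_le hok ?_⟩
  have h3 := (clean_le_Rc (S := S) (Rr S t) t).trans (Rc_bound hR t)
  linarith

/-- The binary case of the recursion. -/
lemma bin_case {Rinf : ℝ} (hR : ∀ t, Rr S t ≤ Rinf) {t j : ℕ} {s Ex : Finset I} {Yh : ℝ} {x y : D → ℝ}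
    (hI : Inv S t j s Yh) (hH : Heavy S t Yh x y s Ex) (hx : Sta S t j s Yh x) (hy : Sta S t j s Yh y)
    (hrel : ∀ a, y a = x a + ∑ i ∈ s, S.z i a)
    (hnot : ¬ (Cl S t j s Yh x ∧ Cl S t j s Yh y ∧ (NN S.y t).Nonempty))
    (IH : ∀ C : Finset I, C.card < s.card → Goal S (Rinf + 2 ^ 130 * (Fintype.card D : ℝ) + 2 ^ 63) C) :
    ∃ l : List I, l.Nodup ∧ l.toFinset = s ∧ OkL S.z x (Rinf + 2 ^ 130 * (Fintype.card D : ℝ) + 2 ^ 63) l := by
  have hY0 : 0 ≤ Yh := (S.Yy_nonneg _ _).trans hI.i3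
  have hY0' : 0 ≤ 7 / 10 * Yh := by positivity
  obtain ⟨A, B, hd, hU, hIA, hIB, hAc, hBc, hT⟩ := bin_step hI hH hrel
  have hinc := inc_nonneg (S := S) t
  have hρ : ∃ ρx ρy, TB S t j s Yh x ρx ∧ TB S t j s Yh y ρy ∧ 1 / 2 * (ρx + ρy) + inc S t ≤ Rr S t + 2 * inc S t := by
    rcases hx with hx' | hx'
    · exact ⟨_, _, hx', hy.tb, by linarith⟩
    · rcases hy with hy' | hy'
      · exact ⟨_, _, hx'.1, hy', by linarith⟩
      · have hNe : ¬ (NN S.y t).Nonempty := fun h => hnot ⟨hx', hy', h⟩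
        have h0 : inc S t = 0 := by
          unfold inc
          rw [if_neg hNe]
        refine ⟨_, _, hx'.1, hy'.1, ?_⟩
        rw [h0]
        linarith
  obtain ⟨ρx, ρy, hTx, hTy, hle⟩ := hρ
  obtain ⟨⟨tA1, tA2⟩, ⟨tB1, tB2⟩⟩ := hT ρx ρy hTx hTy
  set m₁ : D → ℝ := fun a => x a + ∑ i ∈ A, S.z i a with hm₁
  set m₂ : D → ℝ := fun a => x a + ∑ i ∈ A, S.z i a + ∑ i ∈ Ex, S.z i a with hm₂
  have cm₁ : Cl S t (j + 1) A (7 / 10 * Yh) m₁ := ⟨tA1.le hle, tA2.le hle⟩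
  have cm₂ : Cl S t (j + 1) B (7 / 10 * Yh) m₂ := ⟨tB1.le hle, tB2.le hle⟩
  have hAR : A ⊆ s \ Ex := by
    rw [← hU]
    exact Finset.subset_union_left
  have hBR : B ⊆ s \ Ex := by
    rw [← hU]
    exact Finset.subset_union_right
  have hAs : A ⊆ s := hAR.trans Finset.sdiff_subset
  have hBs : B ⊆ s := hBR.trans Finset.sdiff_subset
  have hxA : Sta S t (j + 1) A (7 / 10 * Yh) x := hx.mono hI.lev2 hAs hY0
  have hyB : Sta S t (j + 1) B (7 / 10 * Yh) y := hy.mono hI.lev2 hBs hY0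
  obtain ⟨t₁, j₁, Y₁, hI₁, hs₁, hs₁'⟩ := wrap hIA hxA (Or.inr cm₁)
  obtain ⟨lA, nA, eA, okA⟩ := IH A hAc t₁ j₁ Y₁ x m₁ hI₁ hs₁ hs₁' (fun _ => rfl)
  have hrelB : ∀ a, y a = m₂ a + ∑ i ∈ B, S.z i a := by
    intro a
    rw [hrel a]
    simp only [hm₂]
    rw [← Finset.sum_sdiff hH.hsub, ← hU, Finset.sum_union hd]
    ring
  obtain ⟨t₂, j₂, Y₂, hI₂, hs₂, hs₂'⟩ := wrap hIB (Or.inr cm₂) hyB
  obtain ⟨lB, nB, eB, okB⟩ := IH B hBc t₂ j₂ Y₂ m₂ y hI₂ hs₂ hs₂' hrelB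
  have hj1 : jj S.y t ≤ j + 1 := hI.lev1.trans (Nat.le_succ j)
  have n1 := norm_of_TB cm₁.1 hY0' hj1 hI.lev2
  have n2 := norm_of_TB cm₂.1 hY0' hj1 hI.lev2
  obtain ⟨lE, nE, eE, okE⟩ := greedy S.hz Ex.card Ex rfl m₁ _ n1 n2
  have hRf : Rr S t + 2 * inc S t + 2 ^ 130 * (Fintype.card D : ℝ) + (Ex.card : ℝ) ≤
      Rinf + 2 ^ 130 * (Fintype.card D : ℝ) + 2 ^ 63 := by
    have h3 := (clean_le_Rc (S := S) (Rr S t) t).trans (Rc_bound hR t)
    have h4 := hH.hcard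
    have h5 : (2 : ℝ) ^ 62 ≤ 2 ^ 63 := by norm_num
    linarith
  have okE' := OkL_le okE hRf
  have hdE : Disjoint Ex (s \ Ex) := Finset.disjoint_sdiff
  have hdEB : Disjoint Ex B := Finset.disjoint_of_subset_right hBR hdE
  have hdA : Disjoint A (Ex ∪ B) := by
    rw [Finset.disjoint_union_right]
    exact ⟨(Finset.disjoint_of_subset_right hAR hdE).symm, hd⟩
  refine ⟨lA ++ (lE ++ lB), nodup_join nA (nodup_join nE nB eE eB hdEB) eA (by
      rw [List.toFinset_append, eE, eB]) hdA, ?_,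
    OkL_join okA nA eA (Q := m₁) (fun _ => rfl) (OkL_join okE' nE eE (Q := m₂) (fun _ => rfl) okB)⟩
  rw [List.toFinset_append, List.toFinset_append, eA, eE, eB, Finset.union_left_comm, hU,
    Finset.union_sdiff_of_subset hH.hsub]

/-- The fold case of the recursion. -/
lemma fold_case {Rinf : ℝ} (hR : ∀ t, Rr S t ≤ Rinf) {t j : ℕ} {s Ex : Finset I} {Yh : ℝ} {x y : D → ℝ}
    (hI : Inv S t j s Yh) (hH : Heavy S t Yh x y s Ex) (hx : Cl S t j s Yh x) (hy : Cl S t j s Yh y)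
    (hrel : ∀ a, y a = x a + ∑ i ∈ s, S.z i a) (hN : (NN S.y t).Nonempty)
    (IH : ∀ C : Finset I, C.card < s.card → Goal S (Rinf + 2 ^ 130 * (Fintype.card D : ℝ) + 2 ^ 63) C) :
    ∃ l : List I, l.Nodup ∧ l.toFinset = s ∧ OkL S.z x (Rinf + 2 ^ 130 * (Fintype.card D : ℝ) + 2 ^ 63) l := by
  have hY0 : 0 ≤ Yh := (S.Yy_nonneg _ _).trans hI.i3
  have hY0' : 0 ≤ 7 / 10 * Yh := by positivity
  obtain ⟨J', hJ'⟩ : ∃ J', j + J' = jj S.y (t + 1) := ⟨jj S.y (t + 1) - j, by have := hI.lev2; omega⟩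
  obtain ⟨G, hlen, hdisj, hU, hG, hT⟩ := fold_step hJ' hI hH hrel hN
  have hT' := hT (Rr S t + 2 * inc S t) hx.2 hy.2
  have hρ : Rr S t + 2 * inc S t + 2 ^ 44 * Bd S t + inc S t = Rc S (Rr S t) t := by
    unfold Rc
    rw [if_pos hN]
    ring
  rw [hρ, hJ'] at hT'
  have hu : (J' : ℝ) + 7 ≤ 7 + (EJ S.y t : ℝ) := by
    have h1 := hI.lev1
    have h2 := jj_succ S.y t
    have h3 : J' ≤ JJ S.y t := by omega
    have h4 : (J' : ℝ) ≤ JJ S.y t := by exact_mod_cast h3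
    have h5 : EJ S.y t = JJ S.y t := by
      unfold EJ
      rw [if_pos hN]
    rw [h5]
    linarith
  have hu0 : (0 : ℝ) ≤ (J' : ℝ) + 7 := by positivity
  have hGI : ∀ C ∈ G, InvC S t (jj S.y (t + 1)) C (7 / 10 * Yh) ((J' : ℝ) + 7) := by
    intro C hC
    have := (hG C hC).1
    rw [hJ'] at this
    exact this
  set Q : ℕ → D → ℝ := fun b a => x a + vi (Pre (pv S.z) G b) a + ∑ i ∈ Ex, S.z i a with hQ
  have hQ0 : Q 0 = fun a => x a + ∑ i ∈ Ex, S.z i a := by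
    funext a
    have : Pre (pv S.z) G 0 = 0 := by
      unfold Pre
      simp
    simp only [hQ, this]
    simp [vi]
  have hstep : ∀ (l : ℕ) (hl : l < G.length), ∀ a, Q (l + 1) a = Q l a + ∑ i ∈ G[l], S.z i a := by
    intro l hl a
    simp only [hQ]
    rw [Pre_succ _ _ _ hl]
    simp only [vi, Pi.add_apply]
    have : Sp (pv S.z) G[l] (Sum.inl a) = ∑ i ∈ G[l], S.z i a := rfl
    rw [this]
    ring
  have hpt : ∀ C ∈ G, ∀ b ≤ 2 ^ J', TB S (t + 1) (jj S.y (t + 1)) C (7 / 10 * Yh + Yst S t) (Q b) (Rr S (t + 1)) := by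
    intro C hC b hb
    exact cross_pt (hGI C hC) hu (hT' C hC b hb).2 le_rfl
  have hgroup : ∀ l (hl : l < G.length), ∃ L : List I, L.Nodup ∧ L.toFinset = G[l] ∧
      OkL S.z (fun a => (fun a => x a + ∑ i ∈ Ex, S.z i a) a + vi (Pre (pv S.z) G l) a)
        (Rinf + 2 ^ 130 * (Fintype.card D : ℝ) + 2 ^ 63) L := by
    intro l hl
    have hC : G[l] ∈ G := List.getElem_mem hl
    have hl1 : l ≤ 2 ^ J' := by omega
    have hl2 : l + 1 ≤ 2 ^ J' := by omega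
    obtain ⟨L, hn, he, hok⟩ := IH G[l] (hG _ hC).2 (t + 1) (jj S.y (t + 1)) (7 / 10 * Yh + Yst S t) (Q l) (Q (l + 1))
      (inv_cross (hGI _ hC) hu hu0) (Or.inl (hpt _ hC l hl1)) (Or.inl (hpt _ hC (l + 1) hl2)) (hstep l hl)
    refine ⟨L, hn, he, ?_⟩
    have e : (fun a => (fun a => x a + ∑ i ∈ Ex, S.z i a) a + vi (Pre (pv S.z) G l) a) = Q l := by
      funext a
      simp only [hQ]
      ring
    rw [e]
    exact hok
  -- the first group provides the bound on the start of the chain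
  have hGne : 0 < G.length := by
    rw [hlen]
    positivity
  have hC0 : G[0] ∈ G := List.getElem_mem hGne
  have hlev1 : jj S.y t ≤ jj S.y (t + 1) := by
    have := hI.lev1
    have := hI.lev2
    omega
  have n0 : ∑ a, (x a + ∑ i ∈ Ex, S.z i a) ^ 2 ≤ Rc S (Rr S t) t + 2 ^ 130 * (Fintype.card D : ℝ) := by
    have n00 := norm_of_TB (hT' _ hC0 0 (by positivity)).2 hY0' hlev1 le_rfl
    have e : ∀ a, x a + vi (Pre (pv S.z) G 0) a + ∑ i ∈ Ex, S.z i a = x a + ∑ i ∈ Ex, S.z i a :=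
      fun a => congrFun hQ0 a
    simp only [e] at n00
    exact n00
  have n1 := norm_of_TB hx.1 hY0 hI.lev1 hI.lev2.le
  have hcl := clean_le_Rc (S := S) (Rr S t) t
  have n1' : ∑ a, x a ^ 2 ≤ Rc S (Rr S t) t + 2 ^ 130 * (Fintype.card D : ℝ) := by linarith
  obtain ⟨lE, nE, eE, okE⟩ := greedy S.hz Ex.card Ex rfl x _ n1' n0
  have hRc := Rc_bound hR t
  have hRf : Rc S (Rr S t) t + 2 ^ 130 * (Fintype.card D : ℝ) + (Ex.card : ℝ) ≤
      Rinf + 2 ^ 130 * (Fintype.card D : ℝ) + 2 ^ 63 := by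
    have h4 := hH.hcard
    have h5 : (2 : ℝ) ^ 62 ≤ 2 ^ 63 := by norm_num
    linarith
  have okE' := OkL_le okE hRf
  have hstart : ∑ a, (x a + ∑ i ∈ Ex, S.z i a) ^ 2 ≤ Rinf + 2 ^ 130 * (Fintype.card D : ℝ) + 2 ^ 63 := by
    have hc0 : (0 : ℝ) ≤ Ex.card := by positivity
    linarith
  obtain ⟨L, hnL, heL, hokL⟩ := chain (z := S.z) G (fun a => x a + ∑ i ∈ Ex, S.z i a) hdisj hstart hgroup
  have hd : Disjoint Ex (bigU G) := by
    rw [hU]
    exact Finset.disjoint_sdiff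
  refine ⟨lE ++ L, nodup_join nE hnL eE heL hd, ?_, OkL_join okE' nE eE (fun _ => rfl) hokL⟩
  rw [List.toFinset_append, eE, heL, hU, Finset.union_sdiff_of_subset hH.hsub]

/-- **The recursion.** -/
theorem main_rec {Rinf : ℝ} (hR : ∀ t, Rr S t ≤ Rinf) : ∀ (n : ℕ) (s : Finset I), s.card = n →
    Goal S (Rinf + 2 ^ 130 * (Fintype.card D : ℝ) + 2 ^ 63) s := by
  intro n
  induction n using Nat.strong_induction_on with
  | _ n ih =>
    intro s hs t j Yh x y hI hx hy hrel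
    by_cases hc : (s.card : ℝ) < 2 ^ 63
    · exact leaf_case hR hI hx hy hrel hc.le
    · push Not at hc
      obtain ⟨Ex, hH⟩ := exists_heavy t x y hI.i3 hc
      have IH : ∀ C : Finset I, C.card < s.card → Goal S (Rinf + 2 ^ 130 * (Fintype.card D : ℝ) + 2 ^ 63) C :=
        fun C hC => ih C.card (by omega) C rfl
      by_cases hcl : Cl S t j s Yh x ∧ Cl S t j s Yh y ∧ (NN S.y t).Nonempty
      · exact fold_case hR hI hH hcl.1 hcl.2.1 hrel hcl.2.2 IH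
      · exact bin_case hR hI hH hx hy hrel hcl IH

end

end Vale.Agent.Lib.P262S
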