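import Vale.Agent.Lib.P262S.Core

open Finset

namespace Vale.Agent.Lib.P262S

noncomputable section

variable {I D : Type} [Fintype I] [DecidableEq I] [Fintype D] [DecidableEq D]

/-- The coordinates used by the rounding: vector, product and count parts. -/
abbrev Pc (D : Type) := D ⊕ (D × D) ⊕ Unit

/-- The lifted atom. -/
def pv (z : I → D → ℝ) (i : I) : Pc D → ℝ :=
  Sum.elim (z i) (Sum.elim (fun q => z i q.1 * z i q.2) (fun _ => 1))

/-- Row supported on the vector part. -/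
def wI (w : D → ℝ) : Pc D → ℝ := Sum.elim w (fun _ => 0)
/-- Row supported on the product part. -/
def wP (w : D × D → ℝ) : Pc D → ℝ := Sum.elim (fun _ => 0) (Sum.elim w (fun _ => 0))
/-- Row supported on the count part. -/
def wU : Pc D → ℝ := Sum.elim (fun _ => 0) (Sum.elim (fun _ => 0) (fun _ => 1))
/-- Indicator function. -/
def ind (X : Finset D) (a : D) : ℝ := if a ∈ X then 1 else 0
/-- Restriction to a set. -/
def tr (X : Finset D) (x : D → ℝ) (a : D) : ℝ := if a ∈ X then x a else 0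
/-- Tensor square of a restriction. -/
def trr (X : Finset D) (x : D → ℝ) (q : D × D) : ℝ :=
  if q.1 ∈ X ∧ q.2 ∈ X then x q.1 * x q.2 else 0
/-- Diagonal of a set. -/
def dg (X : Finset D) (q : D × D) : ℝ := if q.1 ∈ X ∧ q.1 = q.2 then 1 else 0

/-- Vector part. -/
def vi (v : Pc D → ℝ) (a : D) : ℝ := v (Sum.inl a)
/-- Product part. -/
def vp (v : Pc D → ℝ) (q : D × D) : ℝ := v (Sum.inr (Sum.inl q))
/-- Count part. -/
def vc (v : Pc D → ℝ) : ℝ := v (Sum.inr (Sum.inr ()))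

omit [DecidableEq D] in
lemma sum_wI (w : D → ℝ) (g : Pc D → ℝ) : ∑ α, wI w α * g α = ∑ a, w a * vi g a := by
  simp [wI, vi, Fintype.sum_sum_type]

omit [DecidableEq D] in
lemma sum_wP (w : D × D → ℝ) (g : Pc D → ℝ) : ∑ α, wP w α * g α = ∑ q, w q * vp g q := by
  simp [wP, vp, Fintype.sum_sum_type]

omit [DecidableEq D] in
lemma sum_wU (g : Pc D → ℝ) : ∑ α, wU α * g α = vc g := by
  simp [wU, vc, Fintype.sum_sum_type]

omit [DecidableEq D] in
lemma mass_wI (w : D → ℝ) : ∑ α, wI w α = ∑ a, w a := by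
  simp [wI, Fintype.sum_sum_type]

omit [DecidableEq D] in
lemma mass_wP (w : D × D → ℝ) : ∑ α, wP w α = ∑ q, w q := by
  simp [wP, Fintype.sum_sum_type]

omit [DecidableEq D] in
lemma sq_wI (w : D → ℝ) : ∑ α, wI w α ^ 2 = ∑ a, w a ^ 2 := by
  simp [wI, Fintype.sum_sum_type]

omit [Fintype D] in
lemma sum_ind [Fintype D] (X : Finset D) (g : D → ℝ) : ∑ a, ind X a * g a = ∑ a ∈ X, g a := by
  unfold ind
  simp only [ite_mul, one_mul, zero_mul]
  rw [← Finset.sum_filter]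
  simp

omit [Fintype D] in
lemma sum_tr [Fintype D] (X : Finset D) (x g : D → ℝ) : ∑ a, tr X x a * g a = ∑ a ∈ X, x a * g a := by
  unfold tr
  simp only [ite_mul, zero_mul]
  rw [← Finset.sum_filter]
  simp

/-- Sums over a box of pairs. -/
lemma sum_box (X Y : Finset D) (f : D × D → ℝ) :
    ∑ q : D × D, (if q.1 ∈ X ∧ q.2 ∈ Y then f q else 0) = ∑ a ∈ X, ∑ b ∈ Y, f (a, b) := by
  rw [Fintype.sum_prod_type]
  have e : ∀ a, ∑ b, (if (a, b).1 ∈ X ∧ (a, b).2 ∈ Y then f (a, b) else 0) =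
      if a ∈ X then ∑ b ∈ Y, f (a, b) else 0 := by
    intro a
    by_cases ha : a ∈ X
    · simp only [ha, true_and, if_true]
      rw [← Finset.sum_filter]
      simp
    · simp [ha]
  simp only [e]
  rw [← Finset.sum_filter]
  simp

lemma sum_trr (X : Finset D) (x : D → ℝ) (g : D × D → ℝ) :
    ∑ q, trr X x q * g q = ∑ a ∈ X, ∑ b ∈ X, x a * x b * g (a, b) := by
  unfold trr
  simp only [ite_mul, zero_mul]
  exact sum_box X X (fun q => x q.1 * x q.2 * g q)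

lemma sum_dg (X : Finset D) (g : D × D → ℝ) : ∑ q, dg X q * g q = ∑ a ∈ X, g (a, a) := by
  unfold dg
  simp only [ite_mul, zero_mul, one_mul]
  rw [Fintype.sum_prod_type]
  have e : ∀ a, ∑ b, (if (a, b).1 ∈ X ∧ (a, b).1 = (a, b).2 then g (a, b) else 0) =
      if a ∈ X then g (a, a) else 0 := by
    intro a
    by_cases ha : a ∈ X
    · simp [ha]
    · simp [ha]
  simp only [e]
  rw [← Finset.sum_filter]
  simp

lemma mass_ind (X : Finset D) : ∑ a, ind X a = (X.card : ℝ) := by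
  have := sum_ind X (fun _ => 1)
  simp only [mul_one] at this
  rw [this]
  simp

omit [DecidableEq D] in
lemma pv_sq (z : I → D → ℝ) (hz : ∀ i, ∑ a, z i a ^ 2 ≤ 1) (i : I) : ∑ α, pv z i α ^ 2 ≤ 3 := by
  simp only [pv, Fintype.sum_sum_type, Sum.elim_inl, Sum.elim_inr, Fintype.sum_prod_type, mul_pow]
  have h1 := hz i
  have h0 : 0 ≤ ∑ a, z i a ^ 2 := Finset.sum_nonneg (fun _ _ => sq_nonneg _)
  have h2 : ∑ a, ∑ b, z i a ^ 2 * z i b ^ 2 = (∑ a, z i a ^ 2) ^ 2 := by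
    rw [sq, Finset.sum_mul_sum]
  rw [h2]
  simp
  nlinarith

section Bn

variable (S : Sys I D)

/-- Coordinates in transition: weights that fall along the stage. -/
def Sys.Aw (t j : ℕ) (a : D) : ℝ :=
  (if a ∈ WW S.y t then 2 else 3) +
    ((if a ∈ (st S.y t).P then 3 else 5) - (if a ∈ WW S.y t then 2 else 3)) *
      (((jj S.y (t + 1) - j : ℕ) : ℝ) / (JJ S.y t : ℝ))

/-- Largest class with anything in it. -/
def Sys.cc : ℕ := univ.sup S.y + 1

/-- Every member of a class has `y` above the start of the class. -/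
lemma jj_lt_of_WW {t : ℕ} {a : D} (h : a ∈ WW S.y t) : jj S.y t < S.y a := by
  have hH : ∀ t a, a ∈ (st S.y t).H → jj S.y t < S.y a := by
    intro t a ha
    cases t with
    | zero =>
      have : a ∈ (univ.filter (fun a => 0 < S.y a)) := ha
      have h2 := (Finset.mem_filter.mp this).2
      simpa [jj, st] using h2
    | succ t => exact y_HH S.y ha
  have hP : ∀ t a, a ∈ (st S.y t).P → jj S.y t < S.y a := by
    intro t a ha
    cases t with
    | zero => exact absurd ha (by simp [st])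
    | succ t => exact ((mem_PP S.y).mp ha).2.1
  rcases (mem_WW S.y).mp h with h1 | h1
  · exact hP t a h1
  · exact hH t a h1.1

lemma WW_empty {c : ℕ} (h : S.cc ≤ c) : WW S.y c = ∅ := by
  rw [Finset.eq_empty_iff_forall_notMem]
  intro a ha
  have h1 := jj_lt_of_WW S ha
  have h2 := jj_ge S.y c
  have h3 : S.y a ≤ univ.sup S.y := Finset.le_sup (Finset.mem_univ a)
  unfold Sys.cc at h
  omega

/-- Index set for the weighted tests. -/
abbrev AWt (D : Type) (cc : ℕ) [Fintype D] := Fin (Fintype.card D + 1) ⊕ Fin cc ⊕ Unit ⊕ Unit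

/-- The weighted tests. -/
def wFam (t j : ℕ) : AWt D S.cc → Pc D → ℝ :=
  Sum.elim (fun s => wI (ind (pre S.y (HH S.y t) (2 ^ s.val))))
    (Sum.elim (fun δ => wP (S.wc t (t + δ.val) j))
      (Sum.elim (fun _ => wI (ind (NN S.y t))) (fun _ => wP (S.w1 t j))))

/-- Size of the first family of weights. -/
def M1 (t : ℕ) : ℝ := (1 / ((JJ S.y t : ℝ) + 1)) ^ 2 * (1 / 2) ^ 240

lemma M1_pos (t : ℕ) : 0 < M1 S t := by unfold M1; positivity

/-- Entry bounds of the weighted tests. -/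
def mFam (t : ℕ) : AWt D S.cc → ℝ :=
  Sum.elim (fun _ => 1) (Sum.elim (fun _ => 2) (Sum.elim (fun _ => 1) (fun _ => M1 S t)))

/-- Tails of the weighted tests. -/
def uFam (u : ℝ) : AWt D S.cc → ℝ :=
  Sum.elim (fun s => u + (s.val : ℝ)) (Sum.elim (fun δ => u + (δ.val : ℝ))
    (Sum.elim (fun _ => u) (fun _ => u)))

/-- The two points of the node. -/
def pts (x y : D → ℝ) : Fin 2 → D → ℝ := ![x, y]

/-- The row tests. -/
def fFam (t j : ℕ) (x y : D → ℝ) (e : Fin 2) : Pc D → ℝ :=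
  wI (tr (NN S.y t) (fun a => S.Aw t j a * pts x y e a))

/-- Index set for the chaining tests. -/
abbrev AKt := Unit ⊕ Unit ⊕ Unit ⊕ Fin 2 ⊕ Fin 2

/-- The chaining tests. -/
def lFam (t : ℕ) (x y : D → ℝ) : AKt → Mat (Pc D) :=
  Sum.elim (fun _ => wmat (wI (ind (TF S.y t))))
    (Sum.elim (fun _ => rmat (wP (dg (TF S.y t))))
      (Sum.elim (fun _ => rmat wU)
        (Sum.elim (fun e => rmat (wI (tr (TF S.y t) (pts x y e))))
          (fun e => rmat (wP (trr (TF S.y t) (pts x y e)))))))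

/-- The raw tests at the children level. -/
def Raw (t j : ℕ) (u : ℝ) (x y : D → ℝ) (R : Finset I) (v : Pc D → ℝ) : Prop :=
  RawOK (wFam S t j) (mFam S t) (uFam S u) (fFam S t j x y) (fun _ => u) (lFam S t x y)
    (fun _ => 2 ^ 13) (pv S.z) R v

/-- Explicit form of the tests. -/
structure Noise (t j : ℕ) (u : ℝ) (x y : D → ℝ) (R : Finset I) (v : Pc D → ℝ) : Prop where
  pr : ∀ s : ℕ, s < Fintype.card D + 1 →
    ∑ a ∈ pre S.y (HH S.y t) (2 ^ s), vi v a ^ 2 ≤ 2 ^ 32 * (2 * 2 ^ s + 4 * (u + s))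
  cl : ∀ δ : ℕ, δ < S.cc → qf (S.wc t (t + δ) j) (vp v) ≤
    2 ^ 32 * (2 * ∑ q, S.wc t (t + δ) j q + 8 * (u + δ))
  nn : ∑ a ∈ NN S.y t, vi v a ^ 2 ≤ 2 ^ 32 * (2 * ((NN S.y t).card : ℝ) + 4 * u)
  w1 : qf (S.w1 t j) (vp v) ≤ 2 ^ 32 * (2 * ∑ q, S.w1 t j q + 4 * (M1 S t * u))
  fx : (∑ a ∈ NN S.y t, S.Aw t j a * x a * vi v a) ^ 2 ≤
    2 ^ 32 * ((2 + 4 * u) * ∑ a ∈ NN S.y t, (S.Aw t j a * x a) ^ 2)
  fy : (∑ a ∈ NN S.y t, S.Aw t j a * y a * vi v a) ^ 2 ≤
    2 ^ 32 * ((2 + 4 * u) * ∑ a ∈ NN S.y t, (S.Aw t j a * y a) ^ 2)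
  kT : ∑ a ∈ TF S.y t, vi v a ^ 2 ≤ 2 ^ 45 * S.Yy (TF S.y t) R
  kx : (∑ a ∈ TF S.y t, x a * vi v a) ^ 2 ≤ 2 ^ 45 * S.Nn (TF S.y t) R x ^ 2
  ky : (∑ a ∈ TF S.y t, y a * vi v a) ^ 2 ≤ 2 ^ 45 * S.Nn (TF S.y t) R y ^ 2
  ks : (∑ a ∈ TF S.y t, vp v (a, a)) ^ 2 ≤ 2 ^ 45 * ∑ i ∈ R, (∑ a ∈ TF S.y t, S.z i a ^ 2) ^ 2
  kpx : (∑ a ∈ TF S.y t, ∑ b ∈ TF S.y t, x a * x b * vp v (a, b)) ^ 2 ≤
    2 ^ 45 * ∑ i ∈ R, ((∑ a ∈ TF S.y t, x a * S.z i a) ^ 2) ^ 2
  kpy : (∑ a ∈ TF S.y t, ∑ b ∈ TF S.y t, y a * y b * vp v (a, b)) ^ 2 ≤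
    2 ^ 45 * ∑ i ∈ R, ((∑ a ∈ TF S.y t, y a * S.z i a) ^ 2) ^ 2
  kc : vc v ^ 2 ≤ 2 ^ 45 * (R.card : ℝ)

variable {S}

lemma wFam_nonneg (t j : ℕ) (a : AWt D S.cc) (α : Pc D) : 0 ≤ wFam S t j a α := by
  have hind : ∀ (X : Finset D) (a : D), 0 ≤ ind X a := by
    intro X a
    unfold ind
    split_ifs <;> norm_num
  rcases a with s | δ | _ | _
  · rcases α with a | _ | _ <;> simp [wFam, wI, hind]
  · rcases α with a | q | _ <;> simp [wFam, wP, S.wc_nonneg]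
  · rcases α with a | _ | _ <;> simp [wFam, wI, hind]
  · rcases α with a | q | _ <;> simp [wFam, wP, S.w1_nonneg]

lemma wFam_le {t j : ℕ} (hj : j ≤ jj S.y (t + 1)) (a : AWt D S.cc) (α : Pc D) :
    wFam S t j a α ≤ mFam S t a := by
  have hind : ∀ (X : Finset D) (a : D), ind X a ≤ 1 := by
    intro X a
    unfold ind
    split_ifs <;> norm_num
  have h1 := M1_pos S t
  rcases a with s | δ | _ | _
  · rcases α with a | _ | _ <;> simp [wFam, wI, mFam, hind]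
  · rcases α with a | q | _ <;> simp [wFam, wP, mFam, S.wc_le_two]
  · rcases α with a | _ | _ <;> simp [wFam, wI, mFam, hind]
  · rcases α with a | q | _
    · simp [wFam, wP, mFam, h1.le]
    · exact S.w1_small hj q
    · simp [wFam, wP, mFam, h1.le]

lemma mFam_pos (t : ℕ) (a : AWt D S.cc) : 0 < mFam S t a := by
  have h1 := M1_pos S t
  rcases a with s | δ | _ | _ <;> simp [mFam, h1]

lemma uFam_nonneg {u : ℝ} (hu : 0 ≤ u) (a : AWt D S.cc) : 0 ≤ uFam S u a := by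
  rcases a with s | δ | _ | _ <;> simp [uFam, hu] <;> positivity

/-- Geometric sum of exponentials. -/
lemma sum_exp_le (n : ℕ) (u : ℝ) : ∑ s : Fin n, Real.exp (-(u + (s.val : ℝ))) ≤ 2 * Real.exp (- u) := by
  rw [Fin.sum_univ_eq_sum_range (fun s : ℕ => Real.exp (-(u + (s : ℝ)))) n]
  have h0 : ∀ s : ℕ, Real.exp (-(u + (s : ℝ))) ≤ Real.exp (-u) * (1 / 2) ^ s := by
    intro s
    have h1 : Real.exp (-(u + (s : ℝ))) = Real.exp (-u) * (Real.exp (-1)) ^ s := by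
      rw [← Real.exp_nat_mul, ← Real.exp_add]
      congr 1
      ring
    rw [h1]
    have h2 : Real.exp (-1) ≤ 1 / 2 := by
      rw [Real.exp_neg, one_div]
      have := Real.exp_one_gt_d9
      exact inv_anti₀ (by norm_num) (by linarith)
    gcongr
  have h3 : ∑ s ∈ Finset.range n, (1 / 2 : ℝ) ^ s ≤ 2 := by
    rw [geom_sum_eq (by norm_num)]
    have h4 : (0 : ℝ) < (1 / 2) ^ n := by positivity
    rw [div_le_iff_of_neg (by norm_num)]
    linarith
  calc ∑ s ∈ Finset.range n, Real.exp (-(u + (s : ℝ)))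
      ≤ ∑ s ∈ Finset.range n, Real.exp (-u) * (1 / 2) ^ s := Finset.sum_le_sum (fun s _ => h0 s)
    _ = Real.exp (-u) * ∑ s ∈ Finset.range n, (1 / 2 : ℝ) ^ s := by rw [Finset.mul_sum]
    _ ≤ Real.exp (-u) * 2 := by gcongr
    _ = _ := by ring

/-- The union bound. -/
lemma budget_ok (S : Sys I D) (K : ℕ) (u : ℝ) (hu : (K : ℝ) + 7 ≤ u) :
    (2 ^ K : ℝ) * (∑ a, Real.exp (- uFam S u a) + ∑ _a : Fin 2, Real.exp (- u)) +
      ∑ _a : AKt, 8 / (2 ^ 13 : ℝ) ≤ 1 / 40 := by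
  have h1 : ∑ a, Real.exp (- uFam S u a) ≤ 6 * Real.exp (- u) := by
    simp only [uFam, Fintype.sum_sum_type, Sum.elim_inl, Sum.elim_inr]
    have h2 := sum_exp_le (Fintype.card D + 1) u
    have h3 := sum_exp_le S.cc u
    simp
    simp at h2 h3
    linarith
  have h2 : ∑ _a : Fin 2, Real.exp (- u) = 2 * Real.exp (- u) := by simp
  have h3 : (2 ^ K : ℝ) * Real.exp (-u) ≤ 1 / 1000 := by
    have h4 : Real.exp (-u) ≤ Real.exp (-((K : ℝ) + 7)) := Real.exp_le_exp.mpr (by linarith)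
    have h5 : Real.exp (-((K : ℝ) + 7)) = (Real.exp (-1)) ^ K * (Real.exp (-1)) ^ 7 := by
      rw [← Real.exp_nat_mul, ← Real.exp_nat_mul, ← Real.exp_add]
      congr 1
      push_cast
      ring
    have h6 : Real.exp (-1) ≤ 1 / 2 := by
      rw [Real.exp_neg, one_div]
      have := Real.exp_one_gt_d9
      exact inv_anti₀ (by norm_num) (by linarith)
    have h6' : Real.exp (-1) ≤ 1 / 2.7 := by
      rw [Real.exp_neg, one_div]
      have := Real.exp_one_gt_d9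
      exact inv_anti₀ (by norm_num) (by linarith)
    have h7 : (Real.exp (-1)) ^ 7 ≤ (1 / 2.7) ^ 7 :=
      pow_le_pow_left₀ (Real.exp_pos _).le h6' 7
    have h8 : (2 : ℝ) ^ K * (Real.exp (-1)) ^ K ≤ 1 := by
      rw [← mul_pow]
      refine pow_le_one₀ (by positivity) ?_
      linarith
    have h9 : (0 : ℝ) < 2 ^ K := by positivity
    calc (2 ^ K : ℝ) * Real.exp (-u) ≤ 2 ^ K * Real.exp (-((K : ℝ) + 7)) := by gcongr
      _ = (2 ^ K * (Real.exp (-1)) ^ K) * (Real.exp (-1)) ^ 7 := by rw [h5]; ring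
      _ ≤ 1 * (1 / 2.7) ^ 7 := by
        refine mul_le_mul h8 h7 (by positivity) (by norm_num)
      _ ≤ 1 / 1000 := by norm_num
  have h4 : ∑ _a : AKt, 8 / (2 ^ 13 : ℝ) = 7 * (8 / 2 ^ 13) := by
    simp
  rw [h2, h4]
  have h5 : (0 : ℝ) < 2 ^ K := by positivity
  have h6 : (2 ^ K : ℝ) * (∑ a, Real.exp (- uFam S u a) + 2 * Real.exp (- u)) ≤
      2 ^ K * (8 * Real.exp (- u)) := by
    gcongr
    linarith
  have h7 : (2 ^ K : ℝ) * (8 * Real.exp (- u)) = 8 * ((2 ^ K : ℝ) * Real.exp (-u)) := by ring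
  have h8 : (7 : ℝ) * (8 / 2 ^ 13) ≤ 7 / 1024 := by norm_num
  have h9 : (1 / 1000 : ℝ) * 8 + 7 / 1024 ≤ 1 / 40 := by norm_num
  linarith

/-- Conversion of the raw tests. -/
lemma noise_of_raw {t j : ℕ} {u : ℝ} {x y : D → ℝ} {R : Finset I} {v : Pc D → ℝ}
    (h : Raw S t j u x y R v) : Noise S t j u x y R v := by
  obtain ⟨hW, hF, hK⟩ := h
  have hind0 : ∀ (X : Finset D) (a : D), 0 ≤ ind X a := by
    intro X a
    unfold ind
    split_ifs <;> norm_num
  have hwI : ∀ (X : Finset D), ∀ α, 0 ≤ wI (ind X) α := by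
    intro X α
    rcases α with a | _
    · exact hind0 X a
    · exact le_rfl
  have hwP : ∀ (w : D × D → ℝ), (∀ q, 0 ≤ w q) → ∀ α, 0 ≤ wP w α := by
    intro w hw α
    rcases α with a | q | _
    · exact le_rfl
    · exact hw q
    · exact le_rfl
  have lsnI : ∀ (X : Finset D) (g : Pc D → ℝ), lsn (wmat (wI (ind X))) g ^ 2 = ∑ a ∈ X, vi g a ^ 2 := by
    intro X g
    rw [lsn_wmat _ (hwI X)]
    have := sum_wI (ind X) (fun α => g α ^ 2)
    rw [this]
    have h2 := sum_ind X (fun a => vi g a ^ 2)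
    exact h2
  have lsnP : ∀ (w : D × D → ℝ), (∀ q, 0 ≤ w q) → ∀ g : Pc D → ℝ, lsn (wmat (wP w)) g ^ 2 = qf w (vp g) := by
    intro w hw g
    rw [lsn_wmat _ (hwP w hw)]
    exact sum_wP w (fun α => g α ^ 2)
  have rI : ∀ (f : D → ℝ) (g : Pc D → ℝ), lsn (rmat (wI f)) g ^ 2 = (∑ a, f a * vi g a) ^ 2 := by
    intro f g
    rw [lsn_rmat, sum_wI]
  have rP : ∀ (f : D × D → ℝ) (g : Pc D → ℝ), lsn (rmat (wP f)) g ^ 2 = (∑ q, f q * vp g q) ^ 2 := by
    intro f g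
    rw [lsn_rmat, sum_wP]
  have rU : ∀ g : Pc D → ℝ, lsn (rmat wU) g ^ 2 = (vc g) ^ 2 := by
    intro g
    rw [lsn_rmat, sum_wU]
  have hvi : ∀ (i : I) (a : D), vi (pv S.z i) a = S.z i a := fun _ _ => rfl
  have hvp : ∀ (i : I) (q : D × D), vp (pv S.z i) q = S.z i q.1 * S.z i q.2 := fun _ _ => rfl
  have hvc : ∀ (i : I), vc (pv S.z i) = 1 := fun _ => rfl
  have hK' : ∀ a : AKt, lsn (lFam S t x y a) v ^ 2 ≤
      2 ^ 45 * ∑ i ∈ R, lsn (lFam S t x y a) (pv S.z i) ^ 2 := by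
    intro a
    have h1 := hK a
    refine h1.trans (le_of_eq ?_)
    simp only [lsn_sq]
    ring
  refine ⟨?_, ?_, ?_, ?_, ?_, ?_, ?_, ?_, ?_, ?_, ?_, ?_, ?_⟩
  · intro s hs
    have h1 := hW (Sum.inl ⟨s, hs⟩)
    simp only [wFam, Sum.elim_inl, mFam, uFam, mass_wI, mass_ind] at h1
    rw [lsnI] at h1
    refine h1.trans ?_
    have h2 : ((pre S.y (HH S.y t) (2 ^ s)).card : ℝ) ≤ 2 ^ s := by
      exact_mod_cast pre_card S.y (HH S.y t) (2 ^ s)
    refine mul_le_mul_of_nonneg_left ?_ (by positivity)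
    linarith
  · intro δ hδ
    have h1 := hW (Sum.inr (Sum.inl ⟨δ, hδ⟩))
    simp only [wFam, Sum.elim_inl, Sum.elim_inr, mFam, uFam, mass_wP] at h1
    rw [lsnP _ (S.wc_nonneg _ _ _)] at h1
    refine h1.trans (le_of_eq ?_)
    ring
  · have h1 := hW (Sum.inr (Sum.inr (Sum.inl ())))
    simp only [wFam, Sum.elim_inl, Sum.elim_inr, mFam, uFam, mass_wI, mass_ind] at h1
    rw [lsnI] at h1
    refine h1.trans (le_of_eq ?_)
    ring
  · have h1 := hW (Sum.inr (Sum.inr (Sum.inr ())))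
    simp only [wFam, Sum.elim_inl, Sum.elim_inr, mFam, uFam, mass_wP] at h1
    rw [lsnP _ (S.w1_nonneg _ _)] at h1
    refine h1.trans (le_of_eq ?_)
    ring
  · have h1 := hF 0
    simp only [fFam, sq_wI] at h1
    rw [rI, sum_tr] at h1
    have e : ∑ a, (tr (NN S.y t) (fun a => S.Aw t j a * pts x y 0 a) a) ^ 2 =
        ∑ a ∈ NN S.y t, (S.Aw t j a * x a) ^ 2 := by
      have := sum_tr (NN S.y t) (fun a => S.Aw t j a * pts x y 0 a)
        (tr (NN S.y t) (fun a => S.Aw t j a * pts x y 0 a))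
      simp only [← sq] at this
      rw [this]
      refine Finset.sum_congr rfl (fun a ha => ?_)
      simp [tr, ha, pts, sq]
    rw [e] at h1
    simpa [pts] using h1
  · have h1 := hF 1
    simp only [fFam, sq_wI] at h1
    rw [rI, sum_tr] at h1
    have e : ∑ a, (tr (NN S.y t) (fun a => S.Aw t j a * pts x y 1 a) a) ^ 2 =
        ∑ a ∈ NN S.y t, (S.Aw t j a * y a) ^ 2 := by
      have := sum_tr (NN S.y t) (fun a => S.Aw t j a * pts x y 1 a)
        (tr (NN S.y t) (fun a => S.Aw t j a * pts x y 1 a))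
      simp only [← sq] at this
      rw [this]
      refine Finset.sum_congr rfl (fun a ha => ?_)
      simp [tr, ha, pts, sq]
    rw [e] at h1
    simpa [pts] using h1
  · have h1 := hK' (Sum.inl ())
    simp only [lFam, Sum.elim_inl, lsnI] at h1
    exact h1
  · have h1 := hK' (Sum.inr (Sum.inr (Sum.inr (Sum.inl 0))))
    simp only [lFam, Sum.elim_inl, Sum.elim_inr, rI, sum_tr] at h1
    simpa [pts, hvi, Sys.Nn_sq] using h1
  · have h1 := hK' (Sum.inr (Sum.inr (Sum.inr (Sum.inl 1))))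
    simp only [lFam, Sum.elim_inl, Sum.elim_inr, rI, sum_tr] at h1
    simpa [pts, hvi, Sys.Nn_sq] using h1
  · have h1 := hK' (Sum.inr (Sum.inl ()))
    simp only [lFam, Sum.elim_inl, Sum.elim_inr, rP, sum_dg] at h1
    simpa [hvp, sq] using h1
  · have h1 := hK' (Sum.inr (Sum.inr (Sum.inr (Sum.inr 0))))
    simp only [lFam, Sum.elim_inl, Sum.elim_inr, rP, sum_trr] at h1
    have e : ∀ i, ∑ a ∈ TF S.y t, ∑ b ∈ TF S.y t, pts x y 0 a * pts x y 0 b * vp (pv S.z i) (a, b) =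
        (∑ a ∈ TF S.y t, x a * S.z i a) ^ 2 := by
      intro i
      rw [sq, Finset.sum_mul_sum]
      refine Finset.sum_congr rfl (fun a _ => Finset.sum_congr rfl (fun b _ => ?_))
      simp [pts, hvp]
      ring
    simp only [e] at h1
    simpa [pts] using h1
  · have h1 := hK' (Sum.inr (Sum.inr (Sum.inr (Sum.inr 1))))
    simp only [lFam, Sum.elim_inl, Sum.elim_inr, rP, sum_trr] at h1
    have e : ∀ i, ∑ a ∈ TF S.y t, ∑ b ∈ TF S.y t, pts x y 1 a * pts x y 1 b * vp (pv S.z i) (a, b) =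
        (∑ a ∈ TF S.y t, y a * S.z i a) ^ 2 := by
      intro i
      rw [sq, Finset.sum_mul_sum]
      refine Finset.sum_congr rfl (fun a _ => Finset.sum_congr rfl (fun b _ => ?_))
      simp [pts, hvp]
      ring
    simp only [e] at h1
    simpa [pts] using h1
  · have h1 := hK' (Sum.inr (Sum.inr (Sum.inl ())))
    simp only [lFam, Sum.elim_inl, Sum.elim_inr, rU, hvc] at h1
    simpa using h1

end Bn

end

end Vale.Agent.Lib.P262S
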