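import Vale.Agent.Lib.P262S.ChildMain

open Finset
open Vale.Agent.Lib.P262 (nm nm_nonneg nm_sq nm_add_le nm_mono nm_smul nm_le_of_sq sum_sq_le_of_nm)

namespace Vale.Agent.Lib.P262S

noncomputable section

variable {I D : Type} [Fintype I] [DecidableEq I] [Fintype D] [DecidableEq D]

variable (S : Sys I D)

/-- Potential on the fallen coordinates. -/
def Pot (t : ℕ) (s : Finset I) (Yh : ℝ) (u : D → ℝ) : ℝ :=
  ∑ a ∈ TF S.y t, u a ^ 2 + 2 ^ 36 * S.Nn (TF S.y t) s u + 2 ^ 70 * Yh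

/-- Weighted mass on the coordinates in transition. -/
def Bn (t j : ℕ) (u : D → ℝ) : ℝ := ∑ a ∈ NN S.y t, S.Aw t j a * u a ^ 2

variable {S}

/-- The convex combination inequality. -/
lemma conv_sq (τ X Y : ℝ) (h0 : 0 ≤ τ) (h1 : τ ≤ 1) :
    ((1 - τ) * X + τ * Y) ^ 2 ≤ (1 - τ) * X ^ 2 + τ * Y ^ 2 := by
  have h2 : 0 ≤ τ * (1 - τ) := mul_nonneg h0 (by linarith)
  nlinarith [mul_nonneg h2 (sq_nonneg (X - Y))]

/-- **The potential lemma.** -/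
lemma Pot_mid {t : ℕ} {s C : Finset I} {Yh τ : ℝ} {x y n m : D → ℝ} (hY0 : 0 ≤ Yh) (h0 : 0 ≤ τ) (h1 : τ ≤ 1)
    (hm : ∀ a, m a = (1 - τ) * x a + τ * y a + n a)
    (hNx : S.Nn (TF S.y t) C x ≤ 4 / 5 * S.Nn (TF S.y t) s x)
    (hNy : S.Nn (TF S.y t) C y ≤ 4 / 5 * S.Nn (TF S.y t) s y)
    (hYC : S.Yy (TF S.y t) C ≤ 7 / 10 * Yh)
    (hn : ∑ a ∈ TF S.y t, n a ^ 2 ≤ 2 ^ 64 * Yh)
    (hnx : (∑ a ∈ TF S.y t, x a * n a) ^ 2 ≤ 2 ^ 64 * S.Nn (TF S.y t) s x ^ 2)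
    (hny : (∑ a ∈ TF S.y t, y a * n a) ^ 2 ≤ 2 ^ 64 * S.Nn (TF S.y t) s y ^ 2) :
    Pot S t C (7 / 10 * Yh) m ≤ (1 - τ) * Pot S t s Yh x + τ * Pot S t s Yh y := by
  set T := TF S.y t with hT
  set Nx := S.Nn T s x with hNxd
  set Ny := S.Nn T s y with hNyd
  have hNx0 : 0 ≤ Nx := S.Nn_nonneg _ _ _
  have hNy0 : 0 ≤ Ny := S.Nn_nonneg _ _ _
  have h2 : 0 ≤ 1 - τ := by linarith
  -- the squares
  have a1 : ∑ a ∈ T, m a ^ 2 ≤ (1 - τ) * ∑ a ∈ T, x a ^ 2 + τ * ∑ a ∈ T, y a ^ 2 +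
      2 * ((1 - τ) * ∑ a ∈ T, x a * n a + τ * ∑ a ∈ T, y a * n a) + ∑ a ∈ T, n a ^ 2 := by
    simp only [Finset.mul_sum, ← Finset.sum_add_distrib]
    refine Finset.sum_le_sum (fun a _ => ?_)
    rw [hm a]
    have := conv_sq τ (x a) (y a) h0 h1
    nlinarith
  have a2 : |∑ a ∈ T, x a * n a| ≤ 2 ^ 32 * Nx := by
    refine abs_le_of_sq_le_sq ?_ (by positivity)
    refine hnx.trans (le_of_eq ?_)
    ring
  have a3 : |∑ a ∈ T, y a * n a| ≤ 2 ^ 32 * Ny := by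
    refine abs_le_of_sq_le_sq ?_ (by positivity)
    refine hny.trans (le_of_eq ?_)
    ring
  -- the seminorm
  have a4 : S.Nn T C n ≤ 2 ^ 32 * Yh := by
    refine abs_le.mp (abs_le_of_sq_le_sq ?_ (by positivity)) |>.2
    refine (S.Nn_le T C n).trans ?_
    have h3 := S.Yy_nonneg T C
    calc (∑ a ∈ T, n a ^ 2) * S.Yy T C ≤ (2 ^ 64 * Yh) * (7 / 10 * Yh) := by
          refine mul_le_mul hn hYC h3 (by positivity)
      _ ≤ (2 ^ 32 * Yh) ^ 2 := by nlinarith [mul_nonneg hY0 hY0]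
  have a5 : S.Nn T C m ≤ (1 - τ) * S.Nn T C x + τ * S.Nn T C y + S.Nn T C n := by
    have e : (fun i => ∑ a ∈ T, m a * S.z i a) = fun i =>
        ((1 - τ) * ∑ a ∈ T, x a * S.z i a + τ * ∑ a ∈ T, y a * S.z i a) + ∑ a ∈ T, n a * S.z i a := by
      funext i
      rw [Finset.mul_sum, Finset.mul_sum, ← Finset.sum_add_distrib, ← Finset.sum_add_distrib]
      refine Finset.sum_congr rfl (fun a _ => ?_)
      rw [hm a]
      ring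
    unfold Sys.Nn
    rw [e]
    refine (nm_add_le _ _ _).trans ?_
    refine add_le_add ((nm_add_le _ _ _).trans ?_) le_rfl
    rw [nm_smul, nm_smul, abs_of_nonneg h2, abs_of_nonneg h0]
  have a6 : S.Nn T C m ≤ 4 / 5 * ((1 - τ) * Nx + τ * Ny) + 2 ^ 32 * Yh := by
    have h3 : (1 - τ) * S.Nn T C x ≤ (1 - τ) * (4 / 5 * Nx) := by gcongr
    have h4 : τ * S.Nn T C y ≤ τ * (4 / 5 * Ny) := by gcongr
    linarith
  unfold Pot
  rw [← hT, ← hNxd, ← hNyd]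
  have a7 := (abs_le.mp a2).2
  have a8 := (abs_le.mp a3).2
  have h5 : (1 - τ) * ∑ a ∈ T, x a * n a ≤ (1 - τ) * (2 ^ 32 * Nx) := by gcongr
  have h6 : τ * ∑ a ∈ T, y a * n a ≤ τ * (2 ^ 32 * Ny) := by gcongr
  have h7 : 0 ≤ (1 - τ) * Nx := by positivity
  have h8 : 0 ≤ τ * Ny := by positivity
  nlinarith

/-- **The transition coordinates lemma.** -/
lemma sum_mid {X : Finset D} {A A' : D → ℝ} {d c2 τ : ℝ} {x y n m : D → ℝ} (hd : 0 < d) (hc2 : 0 ≤ c2)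
    (h0 : 0 ≤ τ) (h1 : τ ≤ 1)
    (hm : ∀ a, m a = (1 - τ) * x a + τ * y a + n a)
    (hdrop : ∀ a ∈ X, A' a + d ≤ A a) (hA0 : ∀ a ∈ X, 0 ≤ A' a) (hA5 : ∀ a ∈ X, A' a ≤ 5)
    (hx : (∑ a ∈ X, A' a * x a * n a) ^ 2 ≤ c2 * ∑ a ∈ X, x a ^ 2)
    (hy : (∑ a ∈ X, A' a * y a * n a) ^ 2 ≤ c2 * ∑ a ∈ X, y a ^ 2) :
    ∑ a ∈ X, A' a * m a ^ 2 ≤ (1 - τ) * ∑ a ∈ X, A a * x a ^ 2 + τ * ∑ a ∈ X, A a * y a ^ 2 +
      c2 / d + 5 * ∑ a ∈ X, n a ^ 2 := by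
  have h2 : 0 ≤ 1 - τ := by linarith
  have a1 : ∑ a ∈ X, A' a * m a ^ 2 ≤ (1 - τ) * ∑ a ∈ X, A' a * x a ^ 2 + τ * ∑ a ∈ X, A' a * y a ^ 2 +
      2 * ((1 - τ) * ∑ a ∈ X, A' a * x a * n a + τ * ∑ a ∈ X, A' a * y a * n a) + 5 * ∑ a ∈ X, n a ^ 2 := by
    simp only [Finset.mul_sum, ← Finset.sum_add_distrib]
    refine Finset.sum_le_sum (fun a ha => ?_)
    rw [hm a]
    have h3 := conv_sq τ (x a) (y a) h0 h1
    have h4 := mul_le_mul_of_nonneg_left h3 (hA0 a ha)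
    have h5 := mul_le_mul_of_nonneg_right (hA5 a ha) (sq_nonneg (n a))
    nlinarith
  have key : ∀ (g : D → ℝ), (∑ a ∈ X, A' a * g a * n a) ^ 2 ≤ c2 * ∑ a ∈ X, g a ^ 2 →
      ∑ a ∈ X, A' a * g a ^ 2 + 2 * ∑ a ∈ X, A' a * g a * n a ≤ ∑ a ∈ X, A a * g a ^ 2 + c2 / d := by
    intro g hg
    have h3 : ∑ a ∈ X, A' a * g a ^ 2 + d * ∑ a ∈ X, g a ^ 2 ≤ ∑ a ∈ X, A a * g a ^ 2 := by
      rw [Finset.mul_sum, ← Finset.sum_add_distrib]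
      refine Finset.sum_le_sum (fun a ha => ?_)
      have := mul_le_mul_of_nonneg_right (hdrop a ha) (sq_nonneg (g a))
      linarith
    set G := ∑ a ∈ X, g a ^ 2 with hG
    have hG0 : 0 ≤ G := Finset.sum_nonneg (fun _ _ => sq_nonneg _)
    have h4 : 2 * ∑ a ∈ X, A' a * g a * n a ≤ d * G + c2 / d := by
      refine abs_le.mp (abs_le_of_sq_le_sq ?_ (by positivity)) |>.2
      have h5 : (2 * ∑ a ∈ X, A' a * g a * n a) ^ 2 ≤ 4 * (c2 * G) := by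
        nlinarith
      refine h5.trans ?_
      have h6 : (d * G + c2 / d) ^ 2 - 4 * (c2 * G) = (d * G - c2 / d) ^ 2 := by
        field_simp
        ring
      nlinarith [sq_nonneg (d * G - c2 / d)]
    linarith
  have k1 := key x hx
  have k2 := key y hy
  have k3 := mul_le_mul_of_nonneg_left k1 h2
  have k4 := mul_le_mul_of_nonneg_left k2 h0
  nlinarith

section AwLemmas

variable {t j : ℕ} {a : D}

lemma Aw_gap (ha : a ∈ NN S.y t) :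
    1 ≤ (if a ∈ (st S.y t).P then (3 : ℝ) else 5) - (if a ∈ WW S.y t then 2 else 3) := by
  by_cases h1 : a ∈ (st S.y t).P
  · have h2 : a ∈ WW S.y t := (mem_WW S.y).mpr (Or.inl h1)
    simp [h1, h2]
    norm_num
  · simp only [h1, if_false]
    split_ifs <;> norm_num

lemma Aw_ratio (hj1 : jj S.y t ≤ j) (hj2 : j ≤ jj S.y (t + 1)) :
    0 ≤ (((jj S.y (t + 1) - j : ℕ) : ℝ) / (JJ S.y t : ℝ)) ∧
      (((jj S.y (t + 1) - j : ℕ) : ℝ) / (JJ S.y t : ℝ)) ≤ 1 := by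
  have h1 : (1 : ℝ) ≤ JJ S.y t := by exact_mod_cast JJ_pos S.y t
  refine ⟨by positivity, ?_⟩
  rw [div_le_one (by linarith)]
  have h2 : jj S.y (t + 1) - j ≤ JJ S.y t := by
    rw [jj_succ]
    omega
  exact_mod_cast h2

lemma Aw_le_five (ha : a ∈ NN S.y t) (hj1 : jj S.y t ≤ j) (hj2 : j ≤ jj S.y (t + 1)) :
    2 ≤ S.Aw t j a ∧ S.Aw t j a ≤ 5 := by
  have h1 := Aw_gap (S := S) ha
  obtain ⟨h2, h3⟩ := Aw_ratio (S := S) hj1 hj2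
  unfold Sys.Aw
  set ρ := (((jj S.y (t + 1) - j : ℕ) : ℝ) / (JJ S.y t : ℝ))
  have e1 : (2 : ℝ) ≤ (if a ∈ WW S.y t then 2 else 3) := by split_ifs <;> norm_num
  have e2 : (if a ∈ (st S.y t).P then (3 : ℝ) else 5) ≤ 5 := by split_ifs <;> norm_num
  have h4 : 0 ≤ (if a ∈ (st S.y t).P then (3 : ℝ) else 5) - (if a ∈ WW S.y t then 2 else 3) := by linarith
  constructor
  · nlinarith
  · nlinarith

lemma Aw_drop (ha : a ∈ NN S.y t) {J' : ℕ} (hj2 : j + J' ≤ jj S.y (t + 1)) :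
    S.Aw t (j + J') a + (J' : ℝ) / (JJ S.y t : ℝ) ≤ S.Aw t j a := by
  have h1 := Aw_gap (S := S) ha
  have hJ : (1 : ℝ) ≤ JJ S.y t := by exact_mod_cast JJ_pos S.y t
  unfold Sys.Aw
  have e : ((jj S.y (t + 1) - j : ℕ) : ℝ) = ((jj S.y (t + 1) - (j + J') : ℕ) : ℝ) + J' := by
    have : jj S.y (t + 1) - j = (jj S.y (t + 1) - (j + J')) + J' := by omega
    rw [this]
    push_cast
    congr 2
  rw [e, add_div]
  have h2 : (0 : ℝ) ≤ (J' : ℝ) / (JJ S.y t : ℝ) := by positivity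
  nlinarith

lemma Aw_anti (ha : a ∈ NN S.y t) {J' : ℕ} (hj2 : j + J' ≤ jj S.y (t + 1)) :
    S.Aw t (j + J') a ≤ S.Aw t j a := by
  have h2 : (0 : ℝ) ≤ (J' : ℝ) / (JJ S.y t : ℝ) := by positivity
  have := Aw_drop (S := S) ha hj2
  linarith

lemma Aw_end (a : D) : S.Aw t (jj S.y (t + 1)) a = if a ∈ WW S.y t then 2 else 3 := by
  unfold Sys.Aw
  simp

lemma Aw_start (a : D) : S.Aw t (jj S.y t) a = if a ∈ (st S.y t).P then 3 else 5 := by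
  unfold Sys.Aw
  have hJ : (1 : ℝ) ≤ JJ S.y t := by exact_mod_cast JJ_pos S.y t
  have e : ((jj S.y (t + 1) - jj S.y t : ℕ) : ℝ) = (JJ S.y t : ℝ) := by
    rw [jj_succ]
    congr 1
    omega
  rw [e, div_self (by linarith)]
  ring

end AwLemmas

/-- Second moment of the heavy sum on a set of coordinates. -/
lemma sum_h_sq (X : Finset D) (E : Finset I) :
    ∑ a ∈ X, (∑ i ∈ E, S.z i a) ^ 2 ≤ (E.card : ℝ) * S.Yy X E := by
  unfold Sys.Yy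
  rw [Finset.sum_comm, Finset.mul_sum]
  refine Finset.sum_le_sum (fun a _ => ?_)
  exact sq_sum_le_card_mul_sum_sq

lemma Yy_le_card (X : Finset D) (E : Finset I) : S.Yy X E ≤ (E.card : ℝ) := by
  unfold Sys.Yy
  have h1 : ∀ i ∈ E, ∑ a ∈ X, S.z i a ^ 2 ≤ 1 := by
    intro i _
    refine le_trans ?_ (S.hz i)
    exact Finset.sum_le_sum_of_subset_of_nonneg (Finset.subset_univ X) (fun _ _ _ => sq_nonneg _)
  refine (Finset.sum_le_sum h1).trans ?_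
  simp

/-- Action of a vector on the heavy sum. -/
lemma sum_g_h_sq (X : Finset D) (E : Finset I) (g : D → ℝ) :
    (∑ a ∈ X, g a * (∑ i ∈ E, S.z i a)) ^ 2 ≤ (E.card : ℝ) * S.Nn X E g ^ 2 := by
  rw [S.Nn_sq]
  have e : ∑ a ∈ X, g a * (∑ i ∈ E, S.z i a) = ∑ i ∈ E, ∑ a ∈ X, g a * S.z i a := by
    rw [Finset.sum_comm]
    exact Finset.sum_congr rfl (fun a _ => Finset.mul_sum _ _ _)
  rw [e]
  exact sq_sum_le_card_mul_sum_sq

lemma three_sq (A B C : ℝ) : (A + B + C) ^ 2 ≤ 3 * (A ^ 2 + B ^ 2 + C ^ 2) := by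
  nlinarith [sq_nonneg (A - B), sq_nonneg (A - C), sq_nonneg (B - C)]

/-- **The potential at a new point.** -/
theorem point_T {t j J' : ℕ} {Yh τ c u : ℝ} {x y m : D → ℝ} {s Ex C : Finset I} {v f : Pc D → ℝ}
    (hI : Inv S t j s Yh) (hH : Heavy S t Yh x y s Ex) (h0 : 0 ≤ τ) (h1 : τ ≤ 1) (hc : |c| ≤ 1)
    (hm : ∀ a, m a = (1 - τ) * x a + τ * y a + (vi v a + c * ∑ i ∈ Ex, S.z i a + vi f a))
    (hn : Noise S t (j + J') u x y (s \ Ex) v) (hf : TiltOK S t (j + J') Yh x y s (s \ Ex) f)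
    (hNx : S.Nn (TF S.y t) C x ≤ 4 / 5 * S.Nn (TF S.y t) s x)
    (hNy : S.Nn (TF S.y t) C y ≤ 4 / 5 * S.Nn (TF S.y t) s y)
    (hYC : S.Yy (TF S.y t) C ≤ 7 / 10 * Yh) :
    Pot S t C (7 / 10 * Yh) m ≤ (1 - τ) * Pot S t s Yh x + τ * Pot S t s Yh y := by
  set T := TF S.y t with hT
  have hY0 : 0 ≤ Yh := (S.Yy_nonneg _ _).trans hI.i3
  have hc2 : c ^ 2 ≤ 1 := by
    have := abs_le.mp hc
    nlinarith
  have hRs : s \ Ex ⊆ s := Finset.sdiff_subset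
  have hEc := hH.hcard
  have hEc0 : (0 : ℝ) ≤ Ex.card := by positivity
  refine Pot_mid (n := fun a => vi v a + c * ∑ i ∈ Ex, S.z i a + vi f a) hY0 h0 h1 hm hNx hNy hYC ?_ ?_ ?_
  · have h3 : ∑ a ∈ T, (vi v a + c * ∑ i ∈ Ex, S.z i a + vi f a) ^ 2 ≤
        3 * (∑ a ∈ T, vi v a ^ 2 + ∑ a ∈ T, (∑ i ∈ Ex, S.z i a) ^ 2 + ∑ a ∈ T, vi f a ^ 2) := by
      rw [← Finset.sum_add_distrib, ← Finset.sum_add_distrib, Finset.mul_sum]
      refine Finset.sum_le_sum (fun a _ => ?_)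
      refine (three_sq _ _ _).trans ?_
      have h4 : (c * ∑ i ∈ Ex, S.z i a) ^ 2 ≤ (∑ i ∈ Ex, S.z i a) ^ 2 := by
        rw [mul_pow]
        nlinarith [sq_nonneg (∑ i ∈ Ex, S.z i a)]
      linarith
    refine h3.trans ?_
    have h4 : ∑ a ∈ T, vi v a ^ 2 ≤ 2 ^ 45 * Yh :=
      hn.kT.trans (by gcongr; exact (S.Yy_mono T hRs).trans hI.i3)
    have h5 : ∑ a ∈ T, (∑ i ∈ Ex, S.z i a) ^ 2 ≤ 2 ^ 62 * Yh := by
      refine (sum_h_sq T Ex).trans ?_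
      exact mul_le_mul hEc ((S.Yy_mono T hH.hsub).trans hI.i3) (S.Yy_nonneg _ _) (by norm_num)
    have h6 := hf.kT
    nlinarith
  · set Nx := S.Nn T s x
    have e : ∑ a ∈ T, x a * (vi v a + c * ∑ i ∈ Ex, S.z i a + vi f a) =
        ∑ a ∈ T, x a * vi v a + c * ∑ a ∈ T, x a * (∑ i ∈ Ex, S.z i a) + ∑ a ∈ T, x a * vi f a := by
      rw [Finset.mul_sum, ← Finset.sum_add_distrib, ← Finset.sum_add_distrib]
      exact Finset.sum_congr rfl (fun a _ => by ring)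
    rw [e]
    refine (three_sq _ _ _).trans ?_
    have h4 : (∑ a ∈ T, x a * vi v a) ^ 2 ≤ 2 ^ 45 * Nx ^ 2 := by
      refine hn.kx.trans ?_
      have : S.Nn T (s \ Ex) x ^ 2 ≤ Nx ^ 2 :=
        pow_le_pow_left₀ (S.Nn_nonneg _ _ _) (S.Nn_mono T hRs x) 2
      gcongr
    have h5 : (∑ a ∈ T, x a * (∑ i ∈ Ex, S.z i a)) ^ 2 ≤ 2 ^ 62 * Nx ^ 2 := by
      refine (sum_g_h_sq T Ex x).trans ?_
      have h6 : S.Nn T Ex x ^ 2 ≤ Nx ^ 2 :=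
        pow_le_pow_left₀ (S.Nn_nonneg _ _ _) (S.Nn_mono T hH.hsub x) 2
      exact mul_le_mul hEc h6 (sq_nonneg _) (by norm_num)
    have h6 := hf.kx
    have h7 : (c * ∑ a ∈ T, x a * (∑ i ∈ Ex, S.z i a)) ^ 2 ≤ (∑ a ∈ T, x a * (∑ i ∈ Ex, S.z i a)) ^ 2 := by
      rw [mul_pow]
      nlinarith [sq_nonneg (∑ a ∈ T, x a * (∑ i ∈ Ex, S.z i a))]
    nlinarith [sq_nonneg Nx]
  · set Ny := S.Nn T s y
    have e : ∑ a ∈ T, y a * (vi v a + c * ∑ i ∈ Ex, S.z i a + vi f a) =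
        ∑ a ∈ T, y a * vi v a + c * ∑ a ∈ T, y a * (∑ i ∈ Ex, S.z i a) + ∑ a ∈ T, y a * vi f a := by
      rw [Finset.mul_sum, ← Finset.sum_add_distrib, ← Finset.sum_add_distrib]
      exact Finset.sum_congr rfl (fun a _ => by ring)
    rw [e]
    refine (three_sq _ _ _).trans ?_
    have h4 : (∑ a ∈ T, y a * vi v a) ^ 2 ≤ 2 ^ 45 * Ny ^ 2 := by
      refine hn.ky.trans ?_
      have : S.Nn T (s \ Ex) y ^ 2 ≤ Ny ^ 2 :=
        pow_le_pow_left₀ (S.Nn_nonneg _ _ _) (S.Nn_mono T hRs y) 2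
      gcongr
    have h5 : (∑ a ∈ T, y a * (∑ i ∈ Ex, S.z i a)) ^ 2 ≤ 2 ^ 62 * Ny ^ 2 := by
      refine (sum_g_h_sq T Ex y).trans ?_
      have h6 : S.Nn T Ex y ^ 2 ≤ Ny ^ 2 :=
        pow_le_pow_left₀ (S.Nn_nonneg _ _ _) (S.Nn_mono T hH.hsub y) 2
      exact mul_le_mul hEc h6 (sq_nonneg _) (by norm_num)
    have h6 := hf.ky
    have h7 : (c * ∑ a ∈ T, y a * (∑ i ∈ Ex, S.z i a)) ^ 2 ≤ (∑ a ∈ T, y a * (∑ i ∈ Ex, S.z i a)) ^ 2 := by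
      rw [mul_pow]
      nlinarith [sq_nonneg (∑ a ∈ T, y a * (∑ i ∈ Ex, S.z i a))]
    nlinarith [sq_nonneg Ny]

/-- The cross term bound for the transition coordinates. -/
lemma cross_N {X : Finset D} {A' g n₁ n₂ n₃ : D → ℝ} {β F c : ℝ} (hA0 : ∀ a ∈ X, 0 ≤ A' a) (hA5 : ∀ a ∈ X, A' a ≤ 5)
    (hc : |c| ≤ 1) (hH : ∑ a ∈ X, n₂ a ^ 2 ≤ 2 ^ 124) (hF : ∑ a ∈ X, n₃ a ^ 2 ≤ F)
    (h1 : (∑ a ∈ X, A' a * g a * n₁ a) ^ 2 ≤ β * ∑ a ∈ X, (A' a * g a) ^ 2) (hβ : 0 ≤ β) :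
    (∑ a ∈ X, A' a * g a * (n₁ a + c * n₂ a + n₃ a)) ^ 2 ≤
      (75 * (β + 2 ^ 124 + F)) * ∑ a ∈ X, g a ^ 2 := by
  have e : ∑ a ∈ X, A' a * g a * (n₁ a + c * n₂ a + n₃ a) =
      ∑ a ∈ X, A' a * g a * n₁ a + c * ∑ a ∈ X, A' a * g a * n₂ a + ∑ a ∈ X, A' a * g a * n₃ a := by
    rw [Finset.mul_sum, ← Finset.sum_add_distrib, ← Finset.sum_add_distrib]
    exact Finset.sum_congr rfl (fun a _ => by ring)
  rw [e]
  refine (three_sq _ _ _).trans ?_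
  have hG : ∑ a ∈ X, (A' a * g a) ^ 2 ≤ 25 * ∑ a ∈ X, g a ^ 2 := by
    rw [Finset.mul_sum]
    refine Finset.sum_le_sum (fun a ha => ?_)
    rw [mul_pow]
    have h2 : A' a ^ 2 ≤ 25 := by
      have := hA0 a ha
      have := hA5 a ha
      nlinarith
    nlinarith [sq_nonneg (g a)]
  set G := ∑ a ∈ X, g a ^ 2 with hGd
  have hG0 : 0 ≤ G := Finset.sum_nonneg (fun _ _ => sq_nonneg _)
  have hF0 : 0 ≤ F := le_trans (Finset.sum_nonneg (fun _ _ => sq_nonneg _)) hF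
  have a1 : (∑ a ∈ X, A' a * g a * n₁ a) ^ 2 ≤ β * (25 * G) := h1.trans (by gcongr)
  have a2 : (∑ a ∈ X, A' a * g a * n₂ a) ^ 2 ≤ (25 * G) * 2 ^ 124 := by
    refine (Finset.sum_mul_sq_le_sq_mul_sq _ _ _).trans ?_
    exact mul_le_mul hG hH (Finset.sum_nonneg (fun _ _ => sq_nonneg _)) (by positivity)
  have a3 : (∑ a ∈ X, A' a * g a * n₃ a) ^ 2 ≤ (25 * G) * F := by
    refine (Finset.sum_mul_sq_le_sq_mul_sq _ _ _).trans ?_
    exact mul_le_mul hG hF (Finset.sum_nonneg (fun _ _ => sq_nonneg _)) (by positivity)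
  have h7 : (c * ∑ a ∈ X, A' a * g a * n₂ a) ^ 2 ≤ (∑ a ∈ X, A' a * g a * n₂ a) ^ 2 := by
    rw [mul_pow]
    have : c ^ 2 ≤ 1 := by
      have := abs_le.mp hc
      nlinarith
    nlinarith [sq_nonneg (∑ a ∈ X, A' a * g a * n₂ a)]
  nlinarith

/-- **The transition coordinates at a new point.** -/
theorem point_N {t j J' : ℕ} {Yh τ c u : ℝ} {x y m : D → ℝ} {s Ex : Finset I} {v f : Pc D → ℝ}
    (hI : Inv S t j s Yh) (hJ1 : 1 ≤ J') (hle : j + J' ≤ jj S.y (t + 1)) (hEx : (Ex.card : ℝ) ≤ 2 ^ 62)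
    (h0 : 0 ≤ τ) (h1 : τ ≤ 1) (hc : |c| ≤ 1)
    (hm : ∀ a, m a = (1 - τ) * x a + τ * y a + (vi v a + c * ∑ i ∈ Ex, S.z i a + vi f a))
    (hu0 : 0 ≤ u) (hu1 : u ≤ J' + 7)
    (hn : Noise S t (j + J') u x y (s \ Ex) v) :
    Bn S t (j + J') m ≤ (1 - τ) * Bn S t j x + τ * Bn S t j y +
      (2 ^ 132 * ((JJ S.y t : ℝ) + ((NN S.y t).card : ℝ) + 1) +
        100 * ((JJ S.y t : ℝ) + 1) * ∑ a ∈ NN S.y t, vi f a ^ 2) := by
  set N := NN S.y t with hN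
  set J := (JJ S.y t : ℝ) with hJ
  set F := ∑ a ∈ N, vi f a ^ 2 with hF
  have hF0 : 0 ≤ F := Finset.sum_nonneg (fun _ _ => sq_nonneg _)
  have hJ1' : (1 : ℝ) ≤ J := by
    rw [hJ]
    exact_mod_cast JJ_pos S.y t
  have hJ'1 : (1 : ℝ) ≤ J' := by exact_mod_cast hJ1
  have hJ'J : (J' : ℝ) ≤ J := by
    have : J' ≤ JJ S.y t := by
      have h3 := hI.lev1
      have h4 := jj_succ S.y t
      omega
    rw [hJ]
    exact_mod_cast this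
  have hlev : jj S.y t ≤ j + J' := by
    have := hI.lev1
    omega
  have hA0 : ∀ a ∈ N, 0 ≤ S.Aw t (j + J') a := fun a ha => by
    have := (Aw_le_five (S := S) ha hlev hle).1
    linarith
  have hA5 : ∀ a ∈ N, S.Aw t (j + J') a ≤ 5 := fun a ha => (Aw_le_five (S := S) ha hlev hle).2
  have hH : ∑ a ∈ N, (∑ i ∈ Ex, S.z i a) ^ 2 ≤ 2 ^ 124 := by
    refine (sum_h_sq N Ex).trans ?_
    have h2 := Yy_le_card (S := S) N Ex
    have h3 := S.Yy_nonneg N Ex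
    calc (Ex.card : ℝ) * S.Yy N Ex ≤ 2 ^ 62 * 2 ^ 62 := mul_le_mul hEx (h2.trans hEx) h3 (by norm_num)
      _ = 2 ^ 124 := by norm_num
  have hβ : (0 : ℝ) ≤ 2 ^ 32 * (2 + 4 * u) := by positivity
  have hx := cross_N (X := N) (g := x) (n₁ := vi v) (n₂ := fun a => ∑ i ∈ Ex, S.z i a) (n₃ := vi f)
    hA0 hA5 hc hH le_rfl (by
      have := hn.fx
      refine this.trans (le_of_eq ?_)
      ring) hβ
  have hy := cross_N (X := N) (g := y) (n₁ := vi v) (n₂ := fun a => ∑ i ∈ Ex, S.z i a) (n₃ := vi f)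
    hA0 hA5 hc hH le_rfl (by
      have := hn.fy
      refine this.trans (le_of_eq ?_)
      ring) hβ
  have hd : (0 : ℝ) < (J' : ℝ) / J := by positivity
  have hmid := sum_mid (X := N) (A := S.Aw t j) (A' := S.Aw t (j + J')) (d := (J' : ℝ) / J)
    (c2 := 75 * (2 ^ 32 * (2 + 4 * u) + 2 ^ 124 + F)) (τ := τ) (x := x) (y := y)
    (n := fun a => vi v a + c * ∑ i ∈ Ex, S.z i a + vi f a) (m := m) hd (by positivity) h0 h1 hm
    (fun a ha => Aw_drop ha hle) hA0 hA5 hx hy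
  unfold Bn
  refine hmid.trans ?_
  have hv := hn.nn
  have hn2 : ∑ a ∈ N, (vi v a + c * ∑ i ∈ Ex, S.z i a + vi f a) ^ 2 ≤
      3 * (∑ a ∈ N, vi v a ^ 2 + ∑ a ∈ N, (∑ i ∈ Ex, S.z i a) ^ 2 + F) := by
    rw [hF, ← Finset.sum_add_distrib, ← Finset.sum_add_distrib, Finset.mul_sum]
    refine Finset.sum_le_sum (fun a _ => ?_)
    refine (three_sq _ _ _).trans ?_
    have h4 : (c * ∑ i ∈ Ex, S.z i a) ^ 2 ≤ (∑ i ∈ Ex, S.z i a) ^ 2 := by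
      rw [mul_pow]
      have : c ^ 2 ≤ 1 := by
        have := abs_le.mp hc
        nlinarith
      nlinarith [sq_nonneg (∑ i ∈ Ex, S.z i a)]
    linarith
  -- the term with the drop
  have hdiv : 75 * (2 ^ 32 * (2 + 4 * u) + 2 ^ 124 + F) / ((J' : ℝ) / J) ≤
      75 * J * (2 ^ 32 * 34 + 2 ^ 124 + F) := by
    rw [div_div_eq_mul_div, div_le_iff₀ (by linarith)]
    have h2 : (2 : ℝ) + 4 * u ≤ 34 * J' := by linarith
    have h3 : (2 : ℝ) ^ 32 * (2 + 4 * u) ≤ 2 ^ 32 * 34 * J' := by nlinarith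
    have h4 : (0 : ℝ) < J := by linarith
    have h5 : (0 : ℝ) < 2 ^ 124 := by norm_num
    have h6 : 2 ^ 32 * (2 + 4 * u) + 2 ^ 124 + F ≤ (2 ^ 32 * 34 + 2 ^ 124 + F) * J' := by
      nlinarith
    have h7 := mul_le_mul_of_nonneg_left h6 (by positivity : (0 : ℝ) ≤ 75 * J)
    nlinarith
  have hNc : (0 : ℝ) ≤ (N.card : ℝ) := by positivity
  have hu2 : u ≤ 8 * J := by linarith
  have h8 : 5 * ∑ a ∈ N, (vi v a + c * ∑ i ∈ Ex, S.z i a + vi f a) ^ 2 ≤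
      15 * (2 ^ 32 * (2 * (N.card : ℝ) + 4 * (8 * J)) + 2 ^ 124 + F) := by
    have h9 : ∑ a ∈ N, vi v a ^ 2 ≤ 2 ^ 32 * (2 * (N.card : ℝ) + 4 * (8 * J)) := by
      refine hv.trans ?_
      gcongr
    linarith
  have h10 : 75 * J * (2 ^ 32 * 34 + 2 ^ 124 + F) + 15 * (2 ^ 32 * (2 * (N.card : ℝ) + 4 * (8 * J)) + 2 ^ 124 + F) ≤
      2 ^ 132 * (J + (N.card : ℝ) + 1) + 100 * (J + 1) * F := by
    have h11 : 0 ≤ J * F := by positivity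
    nlinarith
  linarith

end

end Vale.Agent.Lib.P262S
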