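import Vale.Agent.Lib.P262S.Chain

open MeasureTheory Set
open scoped ENNReal

namespace Vale.Agent.Lib.P262S

open Vale.Agent.P074 (E)

noncomputable section

variable {m : ℕ}

/-- Coordinate functional. -/
def cp (x : Fin m) : E m →ₗ[ℝ] ℝ where
  toFun W := W x
  map_add' _ _ := rfl
  map_smul' _ _ := rfl

@[simp] lemma cp_apply (x : Fin m) (W : E m) : cp x W = W x := rfl

/-- Weighted body. -/
def WB (w : Fin m → ℝ) (c : ℝ) : Set (E m) := {W | ∑ x, w x * W x ^ 2 < c}

lemma WB_eq_QB (w : Fin m → ℝ) (hw : ∀ x, 0 ≤ w x) (c : ℝ) :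
    WB w c = QB (fun x => Real.sqrt (w x) • cp x) c := by
  ext W
  simp only [WB, QB, Set.mem_ofPred_eq, LinearMap.smul_apply, cp_apply, smul_eq_mul, mul_pow,
    Real.sq_sqrt (hw _)]

/-- Functional body. -/
def FB (f : E m) (c : ℝ) : Set (E m) := {W | (inner ℝ f W) ^ 2 < c}

lemma FB_eq_QB (f : E m) (c : ℝ) :
    FB f c = QB (fun _ : Unit => (innerSL ℝ f).toLinearMap) c := by
  ext W
  simp [FB, QB]

/-- The maximal body. -/
def KB {Ξ : Type} [Fintype Ξ] (p : Fin m → Ξ → ℝ) (σ : ℕ → Finset (Fin m)) (B : ℕ) (c : ℝ) : Set (E m) :=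
  {W | ∀ b ≤ B, NS p (σ b) W < c}

/-- The linear functionals for `NS`. -/
def NSL {Ξ : Type} (p : Fin m → Ξ → ℝ) (σ : Finset (Fin m)) (ξ : Ξ) : E m →ₗ[ℝ] ℝ :=
  ∑ i ∈ σ, p i ξ • cp i

lemma NSL_apply {Ξ : Type} (p : Fin m → Ξ → ℝ) (σ : Finset (Fin m)) (ξ : Ξ) (W : E m) :
    NSL p σ ξ W = ∑ i ∈ σ, W i * p i ξ := by
  simp [NSL, LinearMap.sum_apply, mul_comm]

lemma KB_eq {Ξ : Type} [Fintype Ξ] (p : Fin m → Ξ → ℝ) (σ : ℕ → Finset (Fin m)) (B : ℕ) (c : ℝ) :
    KB p σ B c = ⋂ b ∈ Finset.range (B + 1), QB (NSL p (σ b)) c := by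
  ext W
  simp only [KB, QB, NS, NSL_apply, Set.mem_ofPred_eq, Set.mem_iInter, Finset.mem_range, Nat.lt_succ_iff]

lemma KB_open {Ξ : Type} [Fintype Ξ] (p : Fin m → Ξ → ℝ) (σ : ℕ → Finset (Fin m)) (B : ℕ) (c : ℝ) :
    IsOpen (KB p σ B c) := by
  rw [KB_eq]
  exact isOpen_biInter_finset (fun b _ => QB_open _ _)

lemma KB_convex {Ξ : Type} [Fintype Ξ] (p : Fin m → Ξ → ℝ) (σ : ℕ → Finset (Fin m)) (B : ℕ) (c : ℝ) :
    Convex ℝ (KB p σ B c) := by
  rw [KB_eq]
  exact convex_iInter (fun b => convex_iInter (fun _ => QB_convex _ _))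

lemma KB_symm {Ξ : Type} [Fintype Ξ] (p : Fin m → Ξ → ℝ) (σ : ℕ → Finset (Fin m)) (B : ℕ) (c : ℝ)
    (W : E m) (hW : W ∈ KB p σ B c) : -W ∈ KB p σ B c := by
  intro b hb
  have := hW b hb
  unfold NS at this ⊢
  simpa [Finset.sum_neg_distrib] using this

/-- Failure of a maximal body. -/
lemma KB_fail {Ξ : Type} [Fintype Ξ] (p : Fin m → Ξ → ℝ) (σ : ℕ → Finset (Fin m))
    (hσ : ∀ b, σ b ⊆ σ (b + 1)) (B : ℕ) (c τ : ℝ) (hc : 0 < c)
    (hτ : τ = ∑ i ∈ σ B, ∑ ξ, p i ξ ^ 2) :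
    gam m (KB p σ B (if τ = 0 then 1 else c * τ))ᶜ ≤ ENNReal.ofReal (8 / c) * TT m := by
  have hτ0 : 0 ≤ τ := by
    rw [hτ]
    exact Finset.sum_nonneg (fun _ _ => Finset.sum_nonneg (fun _ _ => sq_nonneg _))
  set t : ℝ := if τ = 0 then 1 else c * τ with ht
  have htpos : 0 < t := by
    rw [ht]
    split_ifs with h
    · norm_num
    · exact mul_pos hc (lt_of_le_of_ne hτ0 (Ne.symm h))
  have hcompl : (KB p σ B t)ᶜ = {x | ∃ b ≤ B, t ≤ NS p (σ b) x} := by
    ext x
    simp only [KB, Set.mem_compl_iff, Set.mem_ofPred_eq, not_forall, not_lt, exists_prop]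
  rw [hcompl]
  have h1 := kolm_fail p σ hσ t htpos B
  rw [← hτ] at h1
  have hT := TT_ne_top m
  have h2 : ENNReal.ofReal t * ENNReal.ofReal (8 / c) * TT m ≥ ENNReal.ofReal τ * (8 * TT m) := by
    by_cases h0 : τ = 0
    · rw [h0]
      simp
    · rw [ht, if_neg h0]
      rw [← ENNReal.ofReal_mul (by positivity), ← mul_assoc]
      have e : c * τ * (8 / c) = τ * 8 := by
        field_simp
      rw [e, ENNReal.ofReal_mul hτ0]
      simp [mul_assoc]
  have h3 : ENNReal.ofReal t * gam m {x | ∃ b ≤ B, t ≤ NS p (σ b) x} ≤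
      ENNReal.ofReal t * (ENNReal.ofReal (8 / c) * TT m) := by
    rw [← mul_assoc]
    exact h1.trans h2
  have htne : ENNReal.ofReal t ≠ 0 := by
    simpa using htpos
  exact (ENNReal.mul_le_mul_iff_right htne ENNReal.ofReal_ne_top).mp h3

lemma WB_fail (w : Fin m → ℝ) (M u : ℝ) (hM : 0 < M) (hw0 : ∀ i, 0 ≤ w i) (hw : ∀ i, w i ≤ M) :
    gam m (WB w (2 * ∑ i, w i + 4 * M * u))ᶜ ≤ ENNReal.ofReal (Real.exp (-u)) * TT m := by
  have : (WB w (2 * ∑ i, w i + 4 * M * u))ᶜ = {x | 2 * ∑ i, w i + 4 * M * u ≤ ∑ i, w i * x i ^ 2} := by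
    ext x
    simp [WB]
  rw [this]
  exact wtail w M u hM hw0 hw

lemma FB_fail (f : E m) (hf : f ≠ 0) (u : ℝ) :
    gam m (FB f ((2 + 4 * u) * ‖f‖ ^ 2))ᶜ ≤ ENNReal.ofReal (Real.exp (-u)) * TT m := by
  have : (FB f ((2 + 4 * u) * ‖f‖ ^ 2))ᶜ = {x | (2 + 4 * u) * ‖f‖ ^ 2 ≤ (inner ℝ f x) ^ 2} := by
    ext x
    simp [FB]
  rw [this]
  exact ftail f hf u

/-! ### Seminorms by rows -/

section Lsn

variable {P : Type} [Fintype P]

/-- Row matrices with at most `|P|+1` rows. -/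
abbrev Mat (P : Type) := Option P → P → ℝ

/-- The seminorm attached to a matrix. -/
def lsn (L : Mat P) (v : P → ℝ) : ℝ := Real.sqrt (∑ ξ, (∑ α, L ξ α * v α) ^ 2)

lemma lsn_nonneg (L : Mat P) (v : P → ℝ) : 0 ≤ lsn L v := Real.sqrt_nonneg _

lemma lsn_sq (L : Mat P) (v : P → ℝ) : lsn L v ^ 2 = ∑ ξ, (∑ α, L ξ α * v α) ^ 2 :=
  Real.sq_sqrt (Finset.sum_nonneg (fun _ _ => sq_nonneg _))

lemma lsn_add (L : Mat P) (u v : P → ℝ) : lsn L (u + v) ≤ lsn L u + lsn L v := by
  unfold lsn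
  have h1 : ∀ ξ, ∑ α, L ξ α * (u + v) α = ∑ α, L ξ α * u α + ∑ α, L ξ α * v α := by
    intro ξ
    rw [← Finset.sum_add_distrib]
    refine Finset.sum_congr rfl (fun α _ => ?_)
    simp only [Pi.add_apply]
    ring
  simp_rw [h1]
  refine Real.sqrt_le_iff.mpr ⟨by positivity, ?_⟩
  have h2 := Real.sum_mul_le_sqrt_mul_sqrt Finset.univ (fun ξ => ∑ α, L ξ α * u α) (fun ξ => ∑ α, L ξ α * v α)
  have h3 := Real.sq_sqrt (Finset.sum_nonneg (s := Finset.univ) (f := fun ξ => (∑ α, L ξ α * u α) ^ 2) (fun ξ _ => sq_nonneg _))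
  have h4 := Real.sq_sqrt (Finset.sum_nonneg (s := Finset.univ) (f := fun ξ => (∑ α, L ξ α * v α) ^ 2) (fun ξ _ => sq_nonneg _))
  simp only [add_sq, Finset.sum_add_distrib, ← Finset.mul_sum]
  have e : ∑ ξ, 2 * (∑ α, L ξ α * u α) * ∑ α, L ξ α * v α =
      2 * ∑ ξ, (∑ α, L ξ α * u α) * ∑ α, L ξ α * v α := by
    rw [Finset.mul_sum]
    exact Finset.sum_congr rfl (fun _ _ => by ring)
  rw [e]
  nlinarith

lemma lsn_smul (L : Mat P) (c : ℝ) (v : P → ℝ) : lsn L (c • v) = |c| * lsn L v := by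
  unfold lsn
  have h1 : ∀ ξ, ∑ α, L ξ α * (c • v) α = c * ∑ α, L ξ α * v α := by
    intro ξ
    rw [Finset.mul_sum]
    refine Finset.sum_congr rfl (fun α _ => ?_)
    simp only [Pi.smul_apply, smul_eq_mul]
    ring
  simp_rw [h1, mul_pow, ← Finset.mul_sum]
  rw [Real.sqrt_mul (sq_nonneg _), Real.sqrt_sq_eq_abs]

/-- Diagonal matrix of square roots of weights. -/
def wmat [DecidableEq P] (w : P → ℝ) : Mat P := fun ξ α =>
  match ξ with
  | some β => if α = β then Real.sqrt (w β) else 0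
  | none => 0

lemma lsn_wmat [DecidableEq P] (w : P → ℝ) (hw : ∀ α, 0 ≤ w α) (v : P → ℝ) :
    lsn (wmat w) v ^ 2 = ∑ α, w α * v α ^ 2 := by
  rw [lsn_sq, Fintype.sum_option]
  simp only [wmat, zero_mul, Finset.sum_const_zero, ne_eq, OfNat.ofNat_ne_zero, not_false_eq_true,
    zero_pow, zero_add, ite_mul, Finset.sum_ite_eq', Finset.mem_univ, if_true, mul_pow,
    Real.sq_sqrt (hw _)]

/-- Single row matrix. -/
def rmat (f : P → ℝ) : Mat P := fun ξ α =>
  match ξ with
  | some _ => 0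
  | none => f α

lemma lsn_rmat (f : P → ℝ) (v : P → ℝ) : lsn (rmat f) v ^ 2 = (∑ α, f α * v α) ^ 2 := by
  rw [lsn_sq, Fintype.sum_option]
  simp [rmat]

end Lsn

/-! ### Lifted atoms and signs -/

section Signs

variable {P I : Type} [Fintype P] [DecidableEq P] [Fintype I] [DecidableEq I]

/-- Signed prefix vector. -/
def QQ (ε t : I → ℝ) (p : I → P → ℝ) (l : List I) : P → ℝ :=
  fun α => (l.map (fun i => (ε i - t i) * p i α)).sum

lemma QQ_nil (ε t : I → ℝ) (p : I → P → ℝ) : QQ ε t p [] = 0 := by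
  funext α
  simp [QQ]

/-- The coordinate index of the lifted space. -/
abbrev Lf (P I : Type) := P ⊕ I

variable {m : ℕ}

/-- The lifted atoms. -/
def lift (e : Lf P I ≃ Fin m) (p : I → P → ℝ) (i : I) : E m :=
  WithLp.toLp 2 (fun x => (1 / 2 ^ 15 : ℝ) * Sum.elim (fun α => p i α) (fun j => if j = i then 1 else 0) (e.symm x))

lemma lift_inl (e : Lf P I ≃ Fin m) (p : I → P → ℝ) (i : I) (α : P) :
    lift e p i (e (Sum.inl α)) = (1 / 2 ^ 15 : ℝ) * p i α := by
  simp [lift]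

lemma lift_inr (e : Lf P I ≃ Fin m) (p : I → P → ℝ) (i j : I) :
    lift e p i (e (Sum.inr j)) = (1 / 2 ^ 15 : ℝ) * (if j = i then 1 else 0) := by
  simp [lift]

lemma lift_norm (e : Lf P I ≃ Fin m) (p : I → P → ℝ) (hp : ∀ i, ∑ α, p i α ^ 2 ≤ 3) (i : I) :
    ‖lift e p i‖ ≤ 1 / 2 ^ 14 := by
  have h1 : ‖lift e p i‖ ^ 2 = ∑ x : Lf P I, (lift e p i (e x)) ^ 2 := by
    rw [norm_sq_coord]
    exact (Equiv.sum_comp e (fun x => (lift e p i x) ^ 2)).symm
  have h2 : ∑ x : Lf P I, (lift e p i (e x)) ^ 2 ≤ (1 / 2 ^ 14 : ℝ) ^ 2 := by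
    rw [Fintype.sum_sum_type]
    simp only [lift_inl, lift_inr, mul_pow, ← Finset.mul_sum]
    have h3 : ∑ j : I, ((if j = i then 1 else 0 : ℝ)) ^ 2 = 1 := by
      rw [Finset.sum_eq_single i]
      · simp
      · intro b _ hb
        simp [hb]
      · simp
    rw [h3]
    have := hp i
    norm_num
    linarith
  rw [← h1] at h2
  have h5 := norm_nonneg (lift e p i)
  by_contra hc
  push Not at hc
  have h6 : (0 : ℝ) < 1 / 2 ^ 14 := by norm_num
  nlinarith

/-- Coordinates of the signed sum along a list. -/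
lemma LS_inl (e : Lf P I ≃ Fin m) (p : I → P → ℝ) (ε t : I → ℝ) (l : List I) (α : P) :
    LS ε t (lift e p) l (e (Sum.inl α)) = (1 / 2 ^ 15 : ℝ) * QQ ε t p l α := by
  induction l with
  | nil => simp [LS, QQ]
  | cons i l ih =>
    rw [LS_cons]
    simp only [PiLp.add_apply, PiLp.smul_apply, smul_eq_mul, lift_inl, ih, QQ, List.map_cons, List.sum_cons]
    ring

lemma LS_inr_not (e : Lf P I ≃ Fin m) (p : I → P → ℝ) (ε t : I → ℝ) (l : List I) (j : I) (hj : j ∉ l) :
    LS ε t (lift e p) l (e (Sum.inr j)) = 0 := by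
  induction l with
  | nil => simp [LS]
  | cons i l ih =>
    rw [LS_cons]
    simp only [PiLp.add_apply, PiLp.smul_apply, smul_eq_mul, lift_inr]
    have hne : j ≠ i := fun h => hj (h ▸ List.mem_cons_self)
    have hj' : j ∉ l := fun h => hj (List.mem_cons_of_mem _ h)
    rw [ih hj']
    simp [hne]

lemma LS_inr (e : Lf P I ≃ Fin m) (p : I → P → ℝ) (ε t : I → ℝ) (l : List I) (hl : l.Nodup) (j : I)
    (hj : j ∈ l) :
    LS ε t (lift e p) l (e (Sum.inr j)) = (1 / 2 ^ 15 : ℝ) * (ε j - t j) := by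
  induction l with
  | nil => simp at hj
  | cons i l ih =>
    rw [LS_cons]
    obtain ⟨hi, hl'⟩ := List.nodup_cons.mp hl
    simp only [PiLp.add_apply, PiLp.smul_apply, smul_eq_mul, lift_inr]
    by_cases hji : j = i
    · subst hji
      rw [LS_inr_not e p ε t l j hi]
      simp
      ring
    · have hj' : j ∈ l := by
        rcases List.mem_cons.mp hj with h | h
        · exact absurd h hji
        · exact h
      rw [ih hl' hj']
      simp [hji]

/-- Extension of a weight by zero. -/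
def wx (e : Lf P I ≃ Fin m) (w : P → ℝ) : Fin m → ℝ := fun x => Sum.elim w (fun _ => 0) (e.symm x)

lemma wx_sum (e : Lf P I ≃ Fin m) (w : P → ℝ) (g : Fin m → ℝ) :
    ∑ x, wx e w x * g x = ∑ α, w α * g (e (Sum.inl α)) := by
  rw [← Equiv.sum_comp e, Fintype.sum_sum_type]
  simp [wx]

lemma wx_sum1 (e : Lf P I ≃ Fin m) (w : P → ℝ) : ∑ x, wx e w x = ∑ α, w α := by
  have := wx_sum e w (fun _ => 1)
  simpa using this

/-- The functional vector. -/
def fx (e : Lf P I ≃ Fin m) (f : P → ℝ) : E m := WithLp.toLp 2 (wx e f)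

lemma fx_inner (e : Lf P I ≃ Fin m) (f : P → ℝ) (W : E m) :
    inner ℝ (fx e f) W = ∑ α, f α * W (e (Sum.inl α)) := by
  rw [← wx_sum e f (fun x => W x)]
  simp [fx, PiLp.inner_apply, mul_comm]

lemma fx_norm (e : Lf P I ≃ Fin m) (f : P → ℝ) : ‖fx e f‖ ^ 2 = ∑ α, f α ^ 2 := by
  rw [fx, norm_sq_toLp, ← Equiv.sum_comp e, Fintype.sum_sum_type]
  simp [wx]

lemma fx_ne (e : Lf P I ≃ Fin m) (f : P → ℝ) (h : ∑ α, f α ^ 2 ≠ 0) : fx e f ≠ 0 := by
  intro h0
  apply h
  rw [← fx_norm e f, h0]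
  simp

/-- Row vectors of the `q`-view. -/
def qx (e : Lf P I ≃ Fin m) (q : I → Option P → ℝ) : Fin m → Option P → ℝ :=
  fun x ξ => Sum.elim (fun _ => 0) (fun i => q i ξ) (e.symm x)

/-- Coordinate sets of prefixes. -/
def sg (e : Lf P I ≃ Fin m) (l : List I) (b : ℕ) : Finset (Fin m) :=
  ((l.take b).map (fun i => e (Sum.inr i))).toFinset

lemma sg_mono (e : Lf P I ≃ Fin m) (l : List I) (b : ℕ) : sg e l b ⊆ sg e l (b + 1) := by
  intro x hx
  simp only [sg, List.mem_toFinset, List.mem_map] at hx ⊢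
  obtain ⟨i, hi, rfl⟩ := hx
  exact ⟨i, (List.take_prefix_take_left (by omega : b ≤ b + 1)).subset hi, rfl⟩

lemma sg_sum (e : Lf P I ≃ Fin m) (l : List I) (hl : l.Nodup) (b : ℕ) (g : Fin m → ℝ) :
    ∑ x ∈ sg e l b, g x = ((l.take b).map (fun i => g (e (Sum.inr i)))).sum := by
  have hnd : ((l.take b).map (fun i => e (Sum.inr i))).Nodup :=
    (List.Nodup.sublist (List.take_sublist b l) hl).map (fun a b h => by simpa using h)
  rw [sg, List.sum_toFinset _ hnd, List.map_map]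
  rfl

lemma QQ_row (ε t : I → ℝ) (p : I → P → ℝ) (r : P → ℝ) (l : List I) :
    ∑ α, r α * QQ ε t p l α = (l.map (fun i => (ε i - t i) * ∑ α, r α * p i α)).sum := by
  induction l with
  | nil => simp [QQ]
  | cons i l ih =>
    simp only [List.map_cons, List.sum_cons]
    rw [← ih, Finset.mul_sum, ← Finset.sum_add_distrib]
    refine Finset.sum_congr rfl (fun α _ => ?_)
    simp only [QQ, List.map_cons, List.sum_cons]
    ring

/-- The signed sum theorem with the three families of tests. -/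
theorem round_signs (l : List I) (hl : l.Nodup) (t : I → ℝ) (ht : ∀ i, |t i| ≤ 1 / 2)
    (p : I → P → ℝ) (hp : ∀ i, ∑ α, p i α ^ 2 ≤ 3) (pos : Finset ℕ)
    {AW AF AK : Type} [Fintype AW] [Fintype AF] [Fintype AK]
    (w : AW → P → ℝ) (M uW : AW → ℝ) (hM : ∀ a, 0 < M a) (hu : ∀ a, 0 ≤ uW a)
    (hw0 : ∀ a α, 0 ≤ w a α) (hw1 : ∀ a α, w a α ≤ M a)
    (f : AF → P → ℝ) (uF : AF → ℝ) (huF : ∀ a, 0 ≤ uF a)
    (L : AK → Mat P) (c : AK → ℝ) (hc : ∀ a, 0 < c a)
    (hbudget : (pos.card : ℝ) * (∑ a, Real.exp (- uW a) + ∑ a, Real.exp (- uF a)) + ∑ a, 8 / c a ≤ 1 / 40) :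
    ∃ ε : I → ℝ, (∀ i, ε i = 1 ∨ ε i = -1) ∧
      (∀ k ∈ pos, k ≤ l.length → ∀ a, lsn (wmat (w a)) (QQ ε t p (l.take k)) ^ 2 ≤
        2 ^ 32 * (2 * ∑ α, w a α + 4 * M a * uW a)) ∧
      (∀ k ∈ pos, k ≤ l.length → ∀ a, lsn (rmat (f a)) (QQ ε t p (l.take k)) ^ 2 ≤
        2 ^ 32 * ((2 + 4 * uF a) * ∑ α, f a α ^ 2)) ∧
      (∀ k ≤ l.length, ∀ a, lsn (L a) (QQ ε t p (l.take k)) ^ 2 ≤
        2 ^ 32 * (c a * ∑ i ∈ l.toFinset, ∑ ξ, (∑ α, L a ξ α * p i α) ^ 2)) := by
  have hzeroQ : ∀ (ε : I → ℝ) (L₀ : Mat P), lsn L₀ (QQ ε t p []) = 0 := by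
    intro ε L₀
    rw [QQ_nil]
    simp [lsn]
  have hMsum : ∀ a, 0 ≤ 2 * ∑ α, w a α + 4 * M a * uW a := by
    intro a
    have h1 : 0 ≤ ∑ α, w a α := Finset.sum_nonneg (fun α _ => hw0 a α)
    have h2 := mul_nonneg (hM a).le (hu a)
    nlinarith
  have hFsum : ∀ a, 0 ≤ (2 + 4 * uF a) * ∑ α, f a α ^ 2 := fun a =>
    mul_nonneg (by linarith [huF a]) (Finset.sum_nonneg (fun _ _ => sq_nonneg _))
  have hKsum : ∀ a, 0 ≤ c a * ∑ i ∈ l.toFinset, ∑ ξ, (∑ α, L a ξ α * p i α) ^ 2 := fun a =>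
    mul_nonneg (hc a).le (Finset.sum_nonneg (fun _ _ => Finset.sum_nonneg (fun _ _ => sq_nonneg _)))
  by_cases hl0 : l = []
  · subst hl0
    refine ⟨fun _ => 1, fun _ => Or.inl rfl, ?_, ?_, ?_⟩
    · intro k _ _ a
      simp only [List.take_nil]
      rw [hzeroQ, zero_pow (by norm_num)]
      exact mul_nonneg (by norm_num) (hMsum a)
    · intro k _ _ a
      simp only [List.take_nil]
      rw [hzeroQ, zero_pow (by norm_num)]
      exact mul_nonneg (by norm_num) (hFsum a)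
    · intro k _ a
      simp only [List.take_nil]
      rw [hzeroQ, zero_pow (by norm_num)]
      exact mul_nonneg (by norm_num) (hKsum a)
  set m := Fintype.card (Lf P I) with hm
  set e : Lf P I ≃ Fin m := Fintype.equivFin _ with he
  set u : I → E m := lift e p with hu'
  have hunorm : ∀ i, ‖u i‖ ≤ 1 / 2 ^ 14 := lift_norm e p hp
  -- bodies
  set cW : AW → ℝ := fun a => 2 * ∑ x, wx e (w a) x + 4 * M a * uW a with hcW
  set cF : AF → ℝ := fun a => if fx e (f a) = 0 then 1 else (2 + 4 * uF a) * ‖fx e (f a)‖ ^ 2 with hcF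
  set qq : AK → I → Option P → ℝ := fun a i ξ => ∑ α, L a ξ α * p i α with hqq
  set τ : AK → ℝ := fun a => ∑ x ∈ sg e l l.length, ∑ ξ, (qx e (qq a) x ξ) ^ 2 with hτ
  set cK : AK → ℝ := fun a => if τ a = 0 then 1 else c a * τ a with hcK
  set BA : Set (E m) := (⋂ a, WB (wx e (w a)) (cW a)) ∩ (⋂ a, FB (fx e (f a)) (cF a)) with hBA
  set BK : Set (E m) := ⋂ a, KB (qx e (qq a)) (sg e l) l.length (cK a) with hBK
  set Bod : ℕ → Set (E m) := fun k =>
    (if k ∈ pos then BA else univ) ∩ (if k = l.length then BK else univ) with hBod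
  have hwx0 : ∀ a x, 0 ≤ wx e (w a) x := by
    intro a x
    simp only [wx]
    rcases e.symm x with α | i
    · exact hw0 a α
    · exact le_rfl
  have hwx1 : ∀ a x, wx e (w a) x ≤ M a := by
    intro a x
    simp only [wx]
    rcases e.symm x with α | i
    · exact hw1 a α
    · exact (hM a).le
  have hBAo : IsOpen BA := by
    refine IsOpen.inter (isOpen_iInter_of_finite (fun a => ?_)) (isOpen_iInter_of_finite (fun a => ?_))
    · rw [WB_eq_QB _ (hwx0 a)]
      exact QB_open _ _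
    · rw [FB_eq_QB]
      exact QB_open _ _
  have hBAc : Convex ℝ BA := by
    refine Convex.inter (convex_iInter (fun a => ?_)) (convex_iInter (fun a => ?_))
    · rw [WB_eq_QB _ (hwx0 a)]
      exact QB_convex _ _
    · rw [FB_eq_QB]
      exact QB_convex _ _
  have hBAs : ∀ x, x ∈ BA → -x ∈ BA := by
    rintro x ⟨h1, h2⟩
    refine ⟨?_, ?_⟩
    · simp only [Set.mem_iInter] at h1 ⊢
      intro a
      have := h1 a
      rw [WB_eq_QB _ (hwx0 a)] at this ⊢
      exact QB_symm _ _ _ this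
    · simp only [Set.mem_iInter] at h2 ⊢
      intro a
      have := h2 a
      rw [FB_eq_QB] at this ⊢
      exact QB_symm _ _ _ this
  have hBKo : IsOpen BK := isOpen_iInter_of_finite (fun a => KB_open _ _ _ _)
  have hBKc : Convex ℝ BK := convex_iInter (fun a => KB_convex _ _ _ _)
  have hBKs : ∀ x, x ∈ BK → -x ∈ BK := by
    intro x hx
    simp only [hBK, Set.mem_iInter] at hx ⊢
    intro a
    exact KB_symm _ _ _ _ _ (hx a)
  have hBo : ∀ k, IsOpen (Bod k) := by
    intro k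
    simp only [hBod]
    refine IsOpen.inter ?_ ?_
    · split_ifs
      · exact hBAo
      · exact isOpen_univ
    · split_ifs
      · exact hBKo
      · exact isOpen_univ
  have hBc : ∀ k, Convex ℝ (Bod k) := by
    intro k
    simp only [hBod]
    refine Convex.inter ?_ ?_
    · split_ifs
      · exact hBAc
      · exact convex_univ
    · split_ifs
      · exact hBKc
      · exact convex_univ
  have hBs : ∀ k x, x ∈ Bod k → -x ∈ Bod k := by
    intro k x hx
    simp only [hBod] at hx ⊢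
    refine ⟨?_, ?_⟩
    · by_cases h : k ∈ pos
      · rw [if_pos h] at hx ⊢
        exact hBAs x hx.1
      · rw [if_neg h]
        exact Set.mem_univ _
    · by_cases h : k = l.length
      · rw [if_pos h] at hx ⊢
        exact hBKs x hx.2
      · rw [if_neg h]
        exact Set.mem_univ _
  -- failure
  set T := TT m with hT
  set fA : ℝ := ∑ a, Real.exp (- uW a) + ∑ a, Real.exp (- uF a) with hfA
  set fK : ℝ := ∑ a, 8 / c a with hfK
  have hfA0 : 0 ≤ fA := add_nonneg (Finset.sum_nonneg (fun _ _ => (Real.exp_pos _).le))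
    (Finset.sum_nonneg (fun _ _ => (Real.exp_pos _).le))
  have hfK0 : 0 ≤ fK := Finset.sum_nonneg (fun a _ => div_nonneg (by norm_num) (hc a).le)
  have hBAf : gam m BAᶜ ≤ ENNReal.ofReal fA * T := by
    have hsub : BAᶜ ⊆ (⋃ a, (WB (wx e (w a)) (cW a))ᶜ) ∪ (⋃ a, (FB (fx e (f a)) (cF a))ᶜ) := by
      rw [hBA, Set.compl_inter, Set.compl_iInter, Set.compl_iInter]
    have h1 : gam m (⋃ a, (WB (wx e (w a)) (cW a))ᶜ) ≤ ENNReal.ofReal (∑ a, Real.exp (- uW a)) * T := by
      refine (measure_iUnion_fintype_le _ _).trans ?_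
      rw [ENNReal.ofReal_sum_of_nonneg (fun _ _ => (Real.exp_pos _).le), Finset.sum_mul]
      exact Finset.sum_le_sum (fun a _ => WB_fail _ _ _ (hM a) (hwx0 a) (hwx1 a))
    have h2 : gam m (⋃ a, (FB (fx e (f a)) (cF a))ᶜ) ≤ ENNReal.ofReal (∑ a, Real.exp (- uF a)) * T := by
      refine (measure_iUnion_fintype_le _ _).trans ?_
      rw [ENNReal.ofReal_sum_of_nonneg (fun _ _ => (Real.exp_pos _).le), Finset.sum_mul]
      refine Finset.sum_le_sum (fun a _ => ?_)
      by_cases h0 : fx e (f a) = 0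
      · have : (FB (fx e (f a)) (cF a))ᶜ = ∅ := by
          ext W
          simp [FB, hcF, h0]
        rw [this]
        simp
      · simp only [hcF, if_neg h0]
        exact FB_fail _ h0 _
    calc gam m BAᶜ ≤ _ := measure_mono hsub
      _ ≤ _ := measure_union_le _ _
      _ ≤ ENNReal.ofReal (∑ a, Real.exp (- uW a)) * T + ENNReal.ofReal (∑ a, Real.exp (- uF a)) * T :=
          add_le_add h1 h2
      _ = ENNReal.ofReal fA * T := by
          rw [← add_mul, ← ENNReal.ofReal_add (Finset.sum_nonneg (fun _ _ => (Real.exp_pos _).le))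
            (Finset.sum_nonneg (fun _ _ => (Real.exp_pos _).le))]
  have hBKf : gam m BKᶜ ≤ ENNReal.ofReal fK * T := by
    rw [hBK, Set.compl_iInter]
    refine (measure_iUnion_fintype_le _ _).trans ?_
    rw [hfK, ENNReal.ofReal_sum_of_nonneg (fun a _ => div_nonneg (by norm_num) (hc a).le), Finset.sum_mul]
    refine Finset.sum_le_sum (fun a _ => ?_)
    exact KB_fail (qx e (qq a)) (sg e l) (sg_mono e l) l.length (c a) (τ a) (hc a) rfl
  have hfailk : ∀ k, gam m (Bod k)ᶜ ≤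
      (if k ∈ pos then ENNReal.ofReal fA * T else 0) + (if k = l.length then ENNReal.ofReal fK * T else 0) := by
    intro k
    simp only [hBod]
    rw [Set.compl_inter]
    refine (measure_union_le _ _).trans (add_le_add ?_ ?_)
    · split_ifs
      · exact hBAf
      · simp
    · split_ifs
      · exact hBKf
      · simp
  have hfail : ∑ k ∈ Finset.Ico 1 (l.length + 1), gam m (Bod k)ᶜ ≤ ENNReal.ofReal (1 / 40) * T := by
    calc ∑ k ∈ Finset.Ico 1 (l.length + 1), gam m (Bod k)ᶜ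
        ≤ ∑ k ∈ Finset.Ico 1 (l.length + 1), ((if k ∈ pos then ENNReal.ofReal fA * T else 0) +
            (if k = l.length then ENNReal.ofReal fK * T else 0)) := Finset.sum_le_sum (fun k _ => hfailk k)
      _ = ∑ k ∈ Finset.Ico 1 (l.length + 1), (if k ∈ pos then ENNReal.ofReal fA * T else 0) +
            ∑ k ∈ Finset.Ico 1 (l.length + 1), (if k = l.length then ENNReal.ofReal fK * T else 0) :=
          Finset.sum_add_distrib
      _ ≤ (pos.card : ℝ≥0∞) * (ENNReal.ofReal fA * T) + ENNReal.ofReal fK * T := by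
          refine add_le_add ?_ ?_
          · rw [← Finset.sum_filter]
            rw [Finset.sum_const, nsmul_eq_mul]
            gcongr
            intro x hx
            exact (Finset.mem_filter.mp hx).2
          · rw [Finset.sum_ite_eq']
            split_ifs
            · exact le_rfl
            · simp
      _ = ENNReal.ofReal ((pos.card : ℝ) * fA + fK) * T := by
          rw [ENNReal.ofReal_add (by positivity) hfK0, ENNReal.ofReal_mul (by positivity), add_mul, mul_assoc]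
          simp
      _ ≤ ENNReal.ofReal (1 / 40) * T := by
          gcongr
  obtain ⟨ε, hε, hεp⟩ := balance l hl t u hunorm ht Bod hBo hBc hBs hfail
  have hlpos : 1 ≤ l.length := by
    rcases l with _ | ⟨a, l'⟩
    · exact absurd rfl hl0
    · simp
  have hcoord : ∀ k α, (((1 / 2 : ℝ) • LS ε t u (l.take k)) : E m) (e (Sum.inl α)) =
      (1 / 2 ^ 16 : ℝ) * QQ ε t p (l.take k) α := by
    intro k α
    simp only [PiLp.smul_apply, smul_eq_mul, hu', LS_inl]
    ring
  refine ⟨ε, hε, ?_, ?_, ?_⟩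
  · intro k hk hkl a
    rcases Nat.eq_zero_or_pos k with h0 | h0
    · subst h0
      simp only [List.take_zero]
      rw [hzeroQ]
      have := hMsum a
      norm_num
      linarith
    · have h1 := hεp k hkl h0
      have h2 : (1 / 2 : ℝ) • LS ε t u (l.take k) ∈ BA := by
        have := h1.1
        simp only [hBod, if_pos hk] at this
        exact this
      have h3 := Set.mem_iInter.mp h2.1 a
      simp only [WB, Set.mem_ofPred_eq] at h3
      rw [wx_sum e (w a) (fun x => ((1 / 2 : ℝ) • LS ε t u (l.take k) : E m) x ^ 2)] at h3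
      simp only [hcoord, hcW, wx_sum1] at h3
      rw [lsn_wmat _ (hw0 a)]
      have h4 : ∑ α, w a α * ((1 / 2 ^ 16 : ℝ) * QQ ε t p (l.take k) α) ^ 2 =
          (1 / 2 ^ 32 : ℝ) * ∑ α, w a α * QQ ε t p (l.take k) α ^ 2 := by
        rw [Finset.mul_sum]
        refine Finset.sum_congr rfl (fun α _ => ?_)
        ring
      rw [h4] at h3
      have h5 : (0 : ℝ) < 2 ^ 32 := by norm_num
      have h6 : (1 / 2 ^ 32 : ℝ) * (2 ^ 32) = 1 := by norm_num
      nlinarith
  · intro k hk hkl a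
    by_cases hf0 : ∑ α, f a α ^ 2 = 0
    · have hf1 : ∀ α, f a α = 0 := by
        intro α
        have := (Finset.sum_eq_zero_iff_of_nonneg (fun _ _ => sq_nonneg _)).mp hf0 α (Finset.mem_univ _)
        exact pow_eq_zero_iff (by norm_num) |>.mp this
      rw [lsn_rmat, hf0]
      simp [hf1]
    rcases Nat.eq_zero_or_pos k with h0 | h0
    · subst h0
      simp only [List.take_zero]
      rw [hzeroQ]
      have := hFsum a
      norm_num
      linarith
    · have h1 := hεp k hkl h0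
      have h2 : (1 / 2 : ℝ) • LS ε t u (l.take k) ∈ BA := by
        have := h1.1
        simp only [hBod, if_pos hk] at this
        exact this
      have h3 := Set.mem_iInter.mp h2.2 a
      have hne := fx_ne e (f a) hf0
      simp only [FB, Set.mem_ofPred_eq, hcF, if_neg hne] at h3
      rw [fx_inner, fx_norm] at h3
      simp only [hcoord] at h3
      rw [lsn_rmat]
      have h4 : ∑ α, f a α * ((1 / 2 ^ 16 : ℝ) * QQ ε t p (l.take k) α) =
          (1 / 2 ^ 16 : ℝ) * ∑ α, f a α * QQ ε t p (l.take k) α := by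
        rw [Finset.mul_sum]
        refine Finset.sum_congr rfl (fun α _ => ?_)
        ring
      rw [h4, mul_pow] at h3
      norm_num at h3 ⊢
      nlinarith
  · intro k hk a
    have h1 := hεp l.length le_rfl hlpos
    have h2 : (1 / 2 : ℝ) • LS ε t u (l.take l.length) ∈ BK := by
      have := h1.2
      simp only [hBod, if_true] at this
      exact this
    have h3 := Set.mem_iInter.mp h2 a k hk
    rw [List.take_length] at h3
    simp only [NS] at h3
    have hrow : ∀ ξ, ∑ x ∈ sg e l k, ((1 / 2 : ℝ) • LS ε t u l : E m) x * qx e (qq a) x ξ =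
        (1 / 2 ^ 16 : ℝ) * ∑ α, L a ξ α * QQ ε t p (l.take k) α := by
      intro ξ
      rw [sg_sum e l hl k, QQ_row, ← List.sum_map_mul_left]
      refine congrArg List.sum (List.map_congr_left (fun i hi => ?_))
      have hil : i ∈ l := (List.take_sublist k l).subset hi
      simp only [PiLp.smul_apply, smul_eq_mul, hu', LS_inr e p ε t l hl i hil, qx, Equiv.symm_apply_apply,
        Sum.elim_inr, hqq]
      ring
    simp_rw [hrow, mul_pow] at h3
    rw [← Finset.mul_sum] at h3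
    rw [lsn_sq]
    have hτeq : τ a = ∑ i ∈ l.toFinset, ∑ ξ, (∑ α, L a ξ α * p i α) ^ 2 := by
      simp only [hτ]
      rw [sg_sum e l hl l.length, List.take_length, List.sum_toFinset _ hl]
      refine congrArg List.sum (List.map_congr_left (fun i _ => ?_))
      simp only [qx, Equiv.symm_apply_apply, Sum.elim_inr, hqq]
    by_cases hτ0 : τ a = 0
    · rw [hτeq] at hτ0
      have hz : ∀ i ∈ l, ∀ ξ, ∑ α, L a ξ α * p i α = 0 := by
        intro i hi ξ
        have h5 := (Finset.sum_eq_zero_iff_of_nonneg (fun _ _ => Finset.sum_nonneg (fun _ _ => sq_nonneg _))).mp hτ0 i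
          (List.mem_toFinset.mpr hi)
        have h6 := (Finset.sum_eq_zero_iff_of_nonneg (fun _ _ => sq_nonneg _)).mp h5 ξ (Finset.mem_univ _)
        exact pow_eq_zero_iff (by norm_num) |>.mp h6
      have h7 : ∀ ξ, ∑ α, L a ξ α * QQ ε t p (l.take k) α = 0 := by
        intro ξ
        rw [QQ_row]
        refine List.sum_eq_zero ?_
        intro x hx
        obtain ⟨i, hi, rfl⟩ := List.mem_map.mp hx
        rw [hz i ((List.take_sublist k l).subset hi) ξ, mul_zero]
      simp only [h7]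
      simp only [ne_eq, OfNat.ofNat_ne_zero, not_false_eq_true, zero_pow, Finset.sum_const_zero]
      exact mul_nonneg (by norm_num) (hKsum a)
    · simp only [hcK, if_neg hτ0] at h3
      rw [← hτeq]
      norm_num at h3 ⊢
      nlinarith

end Signs

end

end Vale.Agent.Lib.P262S
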