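import Vale.Agent.Lib.P262S.Tt

open Finset
open Vale.Agent.Lib.P262 (nm nm_nonneg nm_sq nm_add_le nm_mono nm_smul nm_le_of_sq sum_sq_le_of_nm exists_tilt)

namespace Vale.Agent.Lib.P262S

noncomputable section

variable {I D : Type} [Fintype I] [DecidableEq I] [Fintype D] [DecidableEq D]

variable (S : Sys I D)

/-- Quadratic form of a group. -/
def Qf (s : Finset I) (w : D → ℝ) : ℝ := ∑ i ∈ s, (∑ a, w a * S.z i a) ^ 2

variable {S}

lemma Qf_nonneg (s : Finset I) (w : D → ℝ) : 0 ≤ Qf S s w :=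
  Finset.sum_nonneg (fun _ _ => sq_nonneg _)

lemma Qf_mono {s s' : Finset I} (h : s ⊆ s') (w : D → ℝ) : Qf S s w ≤ Qf S s' w :=
  Finset.sum_le_sum_of_subset_of_nonneg h (fun _ _ _ => sq_nonneg _)

omit [DecidableEq I] in
/-- Restriction of a sum over coordinates to a support. -/
lemma sum_supp {H : Finset D} {w : D → ℝ} (hw : ∀ a, a ∉ H → w a = 0) (g : D → ℝ) :
    ∑ a, w a * g a = ∑ a ∈ H, w a * g a := by
  symm
  refine Finset.sum_subset (Finset.subset_univ H) (fun a _ ha => ?_)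
  rw [hw a ha, zero_mul]

/-- The quadratic form in terms of the second moments. -/
lemma Qf_eq {H : Finset D} {w : D → ℝ} (hw : ∀ a, a ∉ H → w a = 0) (s : Finset I) :
    Qf S s w = ∑ a ∈ H, ∑ b ∈ H, w a * w b * S.gr s (a, b) := by
  unfold Qf Sys.gr
  simp only [sum_supp hw]
  have e : ∀ i, (∑ a ∈ H, w a * S.z i a) ^ 2 = ∑ a ∈ H, ∑ b ∈ H, w a * w b * (S.z i a * S.z i b) := by
    intro i
    rw [sq, Finset.sum_mul_sum]
    refine Finset.sum_congr rfl (fun a _ => Finset.sum_congr rfl (fun b _ => by ring))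
  simp only [e]
  rw [Finset.sum_comm]
  refine Finset.sum_congr rfl (fun a _ => ?_)
  rw [Finset.sum_comm]
  refine Finset.sum_congr rfl (fun b _ => ?_)
  rw [Finset.mul_sum]

lemma qf_w1_eq (t j : ℕ) (f : D × D → ℝ) :
    qf (S.w1 t j) f = ∑ a ∈ HH S.y t, ∑ b ∈ HH S.y t, S.vx j a * S.vx j b * f (a, b) ^ 2 := by
  unfold qf Sys.w1
  simp only [ite_mul, zero_mul]
  exact sum_box _ _ (fun q => S.vx j q.1 * S.vx j q.2 * f q ^ 2)

lemma y_gt_of_HH {t j : ℕ} (hj : j ≤ jj S.y (t + 1)) {a : D} (ha : a ∈ HH S.y t) : j < S.y a := by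
  have := y_HH S.y ha
  omega

/-- Deviation form: the off-diagonal part is small. -/
lemma dev_form {t j : ℕ} {s : Finset I} (hI : qf (S.w1 t j) (S.dv j s) ≤ 1 / 16) (hj : j ≤ jj S.y (t + 1))
    (w : D → ℝ) :
    |∑ a ∈ HH S.y t, ∑ b ∈ HH S.y t, w a * w b * S.dv j s (a, b)| ≤
      1 / 2 * ∑ a ∈ HH S.y t, S.gl j a * w a ^ 2 := by
  set H := HH S.y t with hH
  set G := ∑ a ∈ H, S.gl j a * w a ^ 2 with hG
  have hgl : ∀ a, 0 ≤ S.gl j a := fun a => div_nonneg (S.hΛ0 a) (by positivity)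
  have hG0 : 0 ≤ G := Finset.sum_nonneg (fun a _ => mul_nonneg (hgl a) (sq_nonneg _))
  refine abs_le_of_sq_le_sq ?_ (by positivity)
  rw [← Finset.sum_product' H H (fun a b => w a * w b * S.dv j s (a, b))]
  have h1 := Finset.sum_sq_le_sum_mul_sum_of_sq_le_mul (H ×ˢ H)
    (r := fun q => w q.1 * w q.2 * S.dv j s q)
    (f := fun q => (w q.1 ^ 2 / S.vx j q.1) * (w q.2 ^ 2 / S.vx j q.2))
    (g := fun q => S.vx j q.1 * S.vx j q.2 * S.dv j s q ^ 2)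
    (fun q _ => by
      have h2 := S.vx_pos j q.1
      have h3 := S.vx_pos j q.2
      positivity)
    (fun q _ => by
      have h2 := S.vx_pos j q.1
      have h3 := S.vx_pos j q.2
      positivity)
    (fun q _ => by
      have h2 := S.vx_pos j q.1
      have h3 := S.vx_pos j q.2
      refine le_of_eq ?_
      field_simp)
  refine h1.trans ?_
  have e1 : ∑ q ∈ H ×ˢ H, (w q.1 ^ 2 / S.vx j q.1) * (w q.2 ^ 2 / S.vx j q.2) =
      (∑ a ∈ H, w a ^ 2 / S.vx j a) ^ 2 := by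
    rw [sq, Finset.sum_mul_sum, Finset.sum_product]
  have e2 : ∑ q ∈ H ×ˢ H, S.vx j q.1 * S.vx j q.2 * S.dv j s q ^ 2 = qf (S.w1 t j) (S.dv j s) := by
    rw [qf_w1_eq, Finset.sum_product]
  rw [e1, e2]
  have h3 : ∑ a ∈ H, w a ^ 2 / S.vx j a ≤ 2 * G := by
    rw [hG, Finset.mul_sum]
    refine Finset.sum_le_sum (fun a ha => ?_)
    have h4 := S.one_le_vx_gl (y_gt_of_HH hj ha)
    have h5 := S.vx_pos j a
    rw [div_le_iff₀ h5]
    nlinarith [mul_le_mul_of_nonneg_right h4 (sq_nonneg (w a))]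
  have h4 : 0 ≤ ∑ a ∈ H, w a ^ 2 / S.vx j a := Finset.sum_nonneg (fun a _ => by
    have h5 := S.vx_pos j a
    positivity)
  have h5 : (∑ a ∈ H, w a ^ 2 / S.vx j a) ^ 2 ≤ (2 * G) ^ 2 := pow_le_pow_left₀ h4 h3 2
  have h6 : 0 ≤ qf (S.w1 t j) (S.dv j s) := qf_nonneg (S.w1_nonneg t j) _
  calc (∑ a ∈ H, w a ^ 2 / S.vx j a) ^ 2 * qf (S.w1 t j) (S.dv j s) ≤ (2 * G) ^ 2 * (1 / 16) :=
        mul_le_mul h5 hI h6 (by positivity)
    _ = (1 / 2 * G) ^ 2 := by ring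

/-- The diagonal split of the quadratic form. -/
lemma Qf_split {H : Finset D} {w : D → ℝ} (hw : ∀ a, a ∉ H → w a = 0) (j : ℕ) (s : Finset I) :
    Qf S s w = ∑ a ∈ H, S.gl j a * w a ^ 2 + ∑ a ∈ H, ∑ b ∈ H, w a * w b * S.dv j s (a, b) := by
  rw [Qf_eq hw, ← Finset.sum_add_distrib]
  refine Finset.sum_congr rfl (fun a ha => ?_)
  have e : ∀ b, S.gr s (a, b) = S.dv j s (a, b) + if a = b then S.gl j a else 0 := by
    intro b
    unfold Sys.dv
    simp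
  simp only [e, mul_add, Finset.sum_add_distrib]
  rw [add_comm]
  congr 1
  rw [Finset.sum_eq_single a]
  · simp
    ring
  · intro b _ hb
    simp [Ne.symm hb]
  · intro h
    exact absurd ha h

/-- Two-sided bound for the quadratic form. -/
lemma G_bounds {t j : ℕ} {s : Finset I} (hI : qf (S.w1 t j) (S.dv j s) ≤ 1 / 16) (hj : j ≤ jj S.y (t + 1))
    {w : D → ℝ} (hw : ∀ a, a ∉ HH S.y t → w a = 0) :
    1 / 2 * ∑ a ∈ HH S.y t, S.gl j a * w a ^ 2 ≤ Qf S s w ∧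
      Qf S s w ≤ 3 / 2 * ∑ a ∈ HH S.y t, S.gl j a * w a ^ 2 := by
  have h1 := dev_form hI hj w
  have h2 := abs_le.mp h1
  rw [Qf_split hw j s]
  constructor <;> linarith [h2.1, h2.2]

lemma gl_large {t j : ℕ} (hj : j ≤ jj S.y (t + 1)) {a : D} (ha : a ∈ HH S.y t) : (2 : ℝ) ^ 64 ≤ S.gl j a := by
  have h1 := S.gl_lower (y_gt_of_HH hj ha)
  have hm := margin S.y ha
  have h2 : 1 ≤ rk S.y (HH S.y t) a := rk_pos S.y ha
  have h3 : L0 * 1 ≤ L0 * rk S.y (HH S.y t) a := Nat.mul_le_mul_left _ h2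
  have h4 : L0 = 1024 := rfl
  have h5 : 65 ≤ S.y a - j := by omega
  have h6 : (2 : ℝ) ^ 65 ≤ 2 ^ (S.y a - j) := pow_le_pow_right₀ (by norm_num) h5
  have h7 : (2 : ℝ) ^ 65 = 2 * 2 ^ 64 := by norm_num
  linarith

/-- Lower bound on the nonheavy part. -/
lemma G_lower_R {t j : ℕ} {s Ex : Finset I} (hI : qf (S.w1 t j) (S.dv j s) ≤ 1 / 16) (hj : j ≤ jj S.y (t + 1))
    (hEx : Ex ⊆ s) (hExc : (Ex.card : ℝ) ≤ 2 ^ 62)
    {w : D → ℝ} (hw : ∀ a, a ∉ HH S.y t → w a = 0) :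
    1 / 4 * ∑ a ∈ HH S.y t, S.gl j a * w a ^ 2 ≤ Qf S (s \ Ex) w := by
  set G := ∑ a ∈ HH S.y t, S.gl j a * w a ^ 2 with hG
  have h1 := (G_bounds (s := s) hI hj hw).1
  have h2 : Qf S s w = Qf S (s \ Ex) w + Qf S Ex w := by
    unfold Qf
    exact (Finset.sum_sdiff hEx).symm
  have h3 : ∑ a ∈ HH S.y t, w a ^ 2 ≤ (1 / 2 ^ 64) * G := by
    rw [hG, Finset.mul_sum]
    refine Finset.sum_le_sum (fun a ha => ?_)
    have h4 := gl_large hj ha
    have h5 : (1 : ℝ) ≤ (1 / 2 ^ 64) * S.gl j a := by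
      have h6 : (1 / 2 ^ 64 : ℝ) * 2 ^ 64 ≤ (1 / 2 ^ 64) * S.gl j a := by gcongr
      refine le_trans (by norm_num) h6
    have := mul_le_mul_of_nonneg_right h5 (sq_nonneg (w a))
    linarith
  have h4 : Qf S Ex w ≤ (Ex.card : ℝ) * ∑ a ∈ HH S.y t, w a ^ 2 := by
    unfold Qf
    have h5 : ∀ i ∈ Ex, (∑ a, w a * S.z i a) ^ 2 ≤ ∑ a ∈ HH S.y t, w a ^ 2 := by
      intro i _
      rw [sum_supp hw]
      refine (Finset.sum_mul_sq_le_sq_mul_sq _ _ _).trans ?_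
      have h6 : ∑ a ∈ HH S.y t, S.z i a ^ 2 ≤ 1 :=
        (Finset.sum_le_sum_of_subset_of_nonneg (Finset.subset_univ _) (fun _ _ _ => sq_nonneg _)).trans (S.hz i)
      have h7 : 0 ≤ ∑ a ∈ HH S.y t, w a ^ 2 := Finset.sum_nonneg (fun _ _ => sq_nonneg _)
      nlinarith
    refine (Finset.sum_le_sum h5).trans ?_
    simp
  have h5 : (0 : ℝ) ≤ ∑ a ∈ HH S.y t, w a ^ 2 := Finset.sum_nonneg (fun _ _ => sq_nonneg _)
  have hG0 : 0 ≤ G := by
    have : ∑ a ∈ HH S.y t, w a ^ 2 ≤ (1 / 2 ^ 64) * G := h3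
    have h6 : (0 : ℝ) < 1 / 2 ^ 64 := by positivity
    by_contra hneg
    push Not at hneg
    nlinarith
  have h6 : Qf S Ex w ≤ 2 ^ 62 * ((1 / 2 ^ 64) * G) := by
    refine h4.trans ?_
    exact mul_le_mul hExc h3 h5 (by norm_num)
  have h7 : (2 : ℝ) ^ 62 * ((1 / 2 ^ 64) * G) = 1 / 4 * G := by
    norm_num
    ring
  linarith

/-- The tilt: a solution of the target equations with small coefficients. -/
theorem tilt_exists {t j : ℕ} {s Ex : Finset I} (hI : qf (S.w1 t j) (S.dv j s) ≤ 1 / 16) (hj : j ≤ jj S.y (t + 1))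
    (hEx : Ex ⊆ s) (hExc : (Ex.card : ℝ) ≤ 2 ^ 62) (tgt : D → ℝ) {Γ : ℝ}
    (hΓ : ∑ a ∈ HH S.y t, tgt a ^ 2 / S.gl j a ≤ Γ) :
    ∃ τ : D → ℝ, (∀ a, a ∉ HH S.y t → τ a = 0) ∧
      (∀ a ∈ HH S.y t, ∑ i ∈ s \ Ex, (∑ b, τ b * S.z i b) * S.z i a = tgt a) ∧
      ∑ i ∈ s \ Ex, (∑ b, τ b * S.z i b) ^ 2 ≤ 4 * Γ ∧
      ∑ a ∈ HH S.y t, S.gl j a * τ a ^ 2 ≤ 16 * Γ := by
  set H := HH S.y t with hH
  set R := s \ Ex with hR
  have hglpos : ∀ a ∈ H, 0 < S.gl j a := fun a ha =>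
    lt_of_lt_of_le (by norm_num) (gl_large hj ha)
  obtain ⟨τ, hτ0, hτ⟩ := exists_tilt S.z R H (fun a => 1 / 4 * S.gl j a)
    (fun a ha => by have := hglpos a ha; positivity)
    (fun v hv => by
      have h1 := G_lower_R (s := s) hI hj hEx hExc hv
      rw [Finset.mul_sum] at h1
      refine le_trans (le_of_eq ?_) h1
      exact Finset.sum_congr rfl (fun a _ => by ring)) tgt
  refine ⟨τ, hτ0, hτ, ?_⟩
  set E := ∑ i ∈ R, (∑ b, τ b * S.z i b) ^ 2 with hE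
  set A := ∑ a ∈ H, S.gl j a * τ a ^ 2 with hA
  have hA0 : 0 ≤ A := Finset.sum_nonneg (fun a ha => mul_nonneg (hglpos a ha).le (sq_nonneg _))
  have hE0 : 0 ≤ E := Finset.sum_nonneg (fun _ _ => sq_nonneg _)
  have h1 : 1 / 4 * A ≤ E := G_lower_R (s := s) hI hj hEx hExc hτ0
  have h2 : E = ∑ a ∈ H, τ a * tgt a := by
    rw [hE]
    have e : ∀ i, (∑ b, τ b * S.z i b) ^ 2 = (∑ b, τ b * S.z i b) * ∑ a ∈ H, τ a * S.z i a := by
      intro i
      rw [sq, sum_supp hτ0 (S.z i)]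
    simp only [e]
    simp only [Finset.mul_sum]
    rw [Finset.sum_comm]
    refine Finset.sum_congr rfl (fun a ha => ?_)
    rw [← hτ a ha, Finset.mul_sum]
    refine Finset.sum_congr rfl (fun i _ => by ring)
  have h3 : E ^ 2 ≤ A * Γ := by
    rw [h2]
    have h4 := Finset.sum_sq_le_sum_mul_sum_of_sq_le_mul H
      (r := fun a => τ a * tgt a) (f := fun a => S.gl j a * τ a ^ 2) (g := fun a => tgt a ^ 2 / S.gl j a)
      (fun a ha => mul_nonneg (hglpos a ha).le (sq_nonneg _))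
      (fun a ha => div_nonneg (sq_nonneg _) (hglpos a ha).le)
      (fun a ha => by
        have := hglpos a ha
        refine le_of_eq ?_
        field_simp)
    exact h4.trans (mul_le_mul_of_nonneg_left hΓ hA0)
  have hΓ0 : 0 ≤ Γ := le_trans (Finset.sum_nonneg (fun a ha =>
    div_nonneg (sq_nonneg _) (hglpos a ha).le)) hΓ
  have h5 : E ≤ 4 * Γ := by
    by_contra hc
    push Not at hc
    have h6 : A ≤ 4 * E := by linarith
    have h7 : E ^ 2 ≤ 4 * E * Γ := h3.trans (mul_le_mul_of_nonneg_right h6 hΓ0)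
    nlinarith
  exact ⟨h5, by linarith⟩

end

end Vale.Agent.Lib.P262S
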