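import Vale.Agent.Lib.P262S.TiltA

open Finset
open Vale.Agent.Lib.P262 (nm nm_nonneg nm_sq nm_add_le nm_mono nm_smul nm_le_of_sq sum_sq_le_of_nm exists_tilt)

namespace Vale.Agent.Lib.P262S

noncomputable section

variable {I D : Type} [Fintype I] [DecidableEq I] [Fintype D] [DecidableEq D]

variable (S : Sys I D)

/-- The tilt vector in the lifted coordinates. -/
def Tw (tt : I → ℝ) (R : Finset I) : Pc D → ℝ := fun α => ∑ i ∈ R, tt i * pv S.z i α

variable {S}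

lemma vi_Tw (tt : I → ℝ) (R : Finset I) (a : D) : vi (Tw S tt R) a = ∑ i ∈ R, tt i * S.z i a := rfl
lemma vp_Tw (tt : I → ℝ) (R : Finset I) (q : D × D) :
    vp (Tw S tt R) q = ∑ i ∈ R, tt i * (S.z i q.1 * S.z i q.2) := rfl
lemma vc_Tw (tt : I → ℝ) (R : Finset I) : vc (Tw S tt R) = ∑ i ∈ R, tt i := by
  simp [vc, Tw, pv]

/-- The main diagonal of a group. -/
lemma gr_diag_le {t j : ℕ} {s : Finset I} (hI : qf (S.w1 t j) (S.dv j s) ≤ 1 / 16) (hj : j ≤ jj S.y (t + 1))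
    {a : D} (ha : a ∈ HH S.y t) : S.gr s (a, a) ≤ 3 / 2 * S.gl j a := by
  have hw : ∀ b, b ∉ HH S.y t → (if b = a then (1 : ℝ) else 0) = 0 := by
    intro b hb
    rw [if_neg]
    rintro rfl
    exact hb ha
  have h1 := (G_bounds (s := s) hI hj hw).2
  have e1 : Qf S s (fun b => if b = a then (1 : ℝ) else 0) = S.gr s (a, a) := by
    unfold Qf Sys.gr
    refine Finset.sum_congr rfl (fun i _ => ?_)
    simp [sq]
  have e2 : ∑ b ∈ HH S.y t, S.gl j b * (if b = a then (1 : ℝ) else 0) ^ 2 = S.gl j a := by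
    rw [Finset.sum_eq_single a]
    · simp
    · intro b _ hb
      simp [hb]
    · intro h
      exact absurd ha h
  rw [e1, e2] at h1
  exact h1

/-- Smallness of the slow weight squared against the gain. -/
lemma vx_sq_gl {t j : ℕ} (hj : j + 1 ≤ jj S.y (t + 1)) {a : D} (ha : a ∈ HH S.y t) :
    S.vx (j + 1) a ^ 2 * S.gl j a ≤ 2 * ((1 / 2) ^ 170) ^ rk S.y (HH S.y t) a := by
  have hm := margin S.y ha
  have hy : j < S.y a := y_gt_of_HH (by omega) ha
  have h1 := S.gl_upper (j := j) (a := a) (by omega)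
  unfold Sys.vx
  set x := S.y a - (j + 1) with hx
  have e : S.y a - j = x + 1 := by omega
  rw [e] at h1
  have hx2 : 1024 * rk S.y (HH S.y t) a ≤ x := by
    have : L0 = 1024 := rfl
    have h3 : L0 * rk S.y (HH S.y t) a = 1024 * rk S.y (HH S.y t) a := by rw [this]
    omega
  have h0 : (0 : ℝ) ≤ ((2 / 3) ^ x) ^ 2 := by positivity
  calc ((2 / 3 : ℝ) ^ x) ^ 2 * S.gl j a ≤ ((2 / 3) ^ x) ^ 2 * 2 ^ (x + 1) := by gcongr
    _ = 2 * (8 / 9) ^ x := by
      have h9 : (8 / 9 : ℝ) ^ x = ((2 / 3) ^ x) ^ 2 * 2 ^ x := by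
        rw [← pow_mul, mul_comm x 2, pow_mul, ← mul_pow]
        norm_num
      rw [h9, pow_succ]
      ring
    _ ≤ 2 * (8 / 9) ^ (1024 * rk S.y (HH S.y t) a) := by
      gcongr ?_ * ?_
      exact pow_le_pow_of_le_one (by norm_num) (by norm_num) hx2
    _ ≤ 2 * ((1 / 2) ^ 170) ^ rk S.y (HH S.y t) a := by
      gcongr
      rw [pow_mul]
      refine pow_le_pow_left₀ (by positivity) ?_ _
      have e2 : (8 / 9 : ℝ) ^ 1024 = ((8 / 9) ^ 6) ^ 170 * (8 / 9) ^ 4 := by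
        rw [← pow_mul, ← pow_add]
      rw [e2]
      have h3 : ((8 / 9 : ℝ) ^ 6) ^ 170 ≤ (1 / 2) ^ 170 :=
        pow_le_pow_left₀ (by positivity) (by norm_num) _
      have h4 : (8 / 9 : ℝ) ^ 4 ≤ 1 := by norm_num
      have h5 : (0 : ℝ) ≤ ((8 / 9 : ℝ) ^ 6) ^ 170 := by positivity
      nlinarith

/-- The tilt on the first family of weights. -/
lemma tilt_w1 {t j : ℕ} {s R : Finset I} {tt : I → ℝ} {ε : ℝ} (hI : qf (S.w1 t j) (S.dv j s) ≤ 1 / 16)
    (hj : j + 1 ≤ jj S.y (t + 1)) (hR : R ⊆ s) (hE : ∑ i ∈ R, tt i ^ 2 ≤ ε) :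
    qf (S.w1 t (j + 1)) (vp (Tw S tt R)) ≤ ε * (6 * (1 / 2) ^ 170) := by
  set H := HH S.y t with hH
  have hε : 0 ≤ ε := le_trans (Finset.sum_nonneg (fun _ _ => sq_nonneg _)) hE
  have h1 : ∀ q : D × D, vp (Tw S tt R) q ^ 2 ≤ ε * ∑ i ∈ R, (S.z i q.1 * S.z i q.2) ^ 2 := by
    intro q
    rw [vp_Tw]
    refine (Finset.sum_mul_sq_le_sq_mul_sq _ _ _).trans ?_
    exact mul_le_mul_of_nonneg_right hE (Finset.sum_nonneg (fun _ _ => sq_nonneg _))
  have h2 : qf (S.w1 t (j + 1)) (vp (Tw S tt R)) ≤ ε * ∑ i ∈ R, ∑ q, S.w1 t (j + 1) q * (S.z i q.1 * S.z i q.2) ^ 2 := by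
    unfold qf
    rw [Finset.sum_comm, Finset.mul_sum]
    refine Finset.sum_le_sum (fun q _ => ?_)
    have h3 := mul_le_mul_of_nonneg_left (h1 q) (S.w1_nonneg t (j + 1) q)
    refine h3.trans (le_of_eq ?_)
    rw [Finset.mul_sum, Finset.mul_sum, Finset.mul_sum]
    refine Finset.sum_congr rfl (fun i _ => by ring)
  refine h2.trans (mul_le_mul_of_nonneg_left ?_ hε)
  have h3 : ∀ i, ∑ q, S.w1 t (j + 1) q * (S.z i q.1 * S.z i q.2) ^ 2 ≤
      ∑ a ∈ H, S.vx (j + 1) a ^ 2 * S.z i a ^ 2 := by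
    intro i
    have e : ∑ q, S.w1 t (j + 1) q * (S.z i q.1 * S.z i q.2) ^ 2 =
        (∑ a ∈ H, S.vx (j + 1) a * S.z i a ^ 2) ^ 2 := by
      have e0 := qf_w1_eq (S := S) t (j + 1) (fun q => S.z i q.1 * S.z i q.2)
      unfold qf at e0
      rw [e0, sq, Finset.sum_mul_sum]
      refine Finset.sum_congr rfl (fun a _ => Finset.sum_congr rfl (fun b _ => ?_))
      simp only
      ring
    rw [e]
    have h4 := Finset.sum_mul_sq_le_sq_mul_sq H (fun a => S.vx (j + 1) a * S.z i a) (S.z i)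
    have h5 : ∑ a ∈ H, S.z i a ^ 2 ≤ 1 :=
      (Finset.sum_le_sum_of_subset_of_nonneg (Finset.subset_univ _) (fun _ _ _ => sq_nonneg _)).trans (S.hz i)
    have h6 : 0 ≤ ∑ a ∈ H, (S.vx (j + 1) a * S.z i a) ^ 2 := Finset.sum_nonneg (fun _ _ => sq_nonneg _)
    have e2 : ∑ a ∈ H, S.vx (j + 1) a * S.z i a ^ 2 = ∑ a ∈ H, S.vx (j + 1) a * S.z i a * S.z i a :=
      Finset.sum_congr rfl (fun a _ => by ring)
    rw [e2]
    refine h4.trans ?_
    have e3 : ∑ a ∈ H, (S.vx (j + 1) a * S.z i a) ^ 2 = ∑ a ∈ H, S.vx (j + 1) a ^ 2 * S.z i a ^ 2 :=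
      Finset.sum_congr rfl (fun a _ => by ring)
    rw [e3] at h6 ⊢
    nlinarith
  refine (Finset.sum_le_sum (fun i _ => h3 i)).trans ?_
  rw [Finset.sum_comm]
  have h4 : ∀ a ∈ H, ∑ i ∈ R, S.vx (j + 1) a ^ 2 * S.z i a ^ 2 ≤ 3 * ((1 / 2) ^ 170) ^ rk S.y H a := by
    intro a ha
    rw [← Finset.mul_sum]
    have e1 : ∑ i ∈ R, S.z i a ^ 2 ≤ S.gr s (a, a) := by
      unfold Sys.gr
      refine (Finset.sum_le_sum_of_subset_of_nonneg hR (fun _ _ _ => sq_nonneg _)).trans (le_of_eq ?_)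
      exact Finset.sum_congr rfl (fun i _ => by ring)
    have h5 := gr_diag_le hI (by omega) ha
    have h6 := vx_sq_gl hj ha
    have h7 : 0 ≤ S.vx (j + 1) a ^ 2 := sq_nonneg _
    calc S.vx (j + 1) a ^ 2 * ∑ i ∈ R, S.z i a ^ 2 ≤ S.vx (j + 1) a ^ 2 * (3 / 2 * S.gl j a) := by
          gcongr
          exact e1.trans h5
      _ = 3 / 2 * (S.vx (j + 1) a ^ 2 * S.gl j a) := by ring
      _ ≤ 3 / 2 * (2 * ((1 / 2) ^ 170) ^ rk S.y H a) := by gcongr
      _ = _ := by ring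
  refine (Finset.sum_le_sum h4).trans ?_
  rw [← Finset.mul_sum]
  have h5 := sum_geom_rank S.y H ((1 / 2 : ℝ) ^ 170) (by positivity) (by norm_num)
  linarith

/-- The size of the gain weight against the gain, one level down. -/
lemma ux_succ_gl (j : ℕ) (a : D) : S.ux (j + 1) a * S.gl j a ≤ 2 := by
  have h1 := S.ux_up j 1 a
  have h2 := S.ux_gl_le j a
  have h3 : 0 ≤ S.gl j a := div_nonneg (S.hΛ0 a) (by positivity)
  simp only [pow_one] at h1
  nlinarith

/-- The dual quadratic bound. -/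
lemma dual_off {t j : ℕ} {s R : Finset I} (hI : qf (S.w1 t j) (S.dv j s) ≤ 1 / 16) (hj : j ≤ jj S.y (t + 1))
    (hR : R ⊆ s) (c : I → ℝ) :
    ∑ b ∈ HH S.y t, S.ux (j + 1) b * (∑ i ∈ R, c i * S.z i b) ^ 2 ≤ 3 * ∑ i ∈ R, c i ^ 2 := by
  set H := HH S.y t with hH
  set f : D → ℝ := fun b => ∑ i ∈ R, c i * S.z i b with hf
  set B := ∑ b ∈ H, S.ux (j + 1) b * f b ^ 2 with hB
  set C := ∑ i ∈ R, c i ^ 2 with hC
  have hB0 : 0 ≤ B := Finset.sum_nonneg (fun b _ => mul_nonneg (S.ux_pos _ _).le (sq_nonneg _))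
  have hC0 : 0 ≤ C := Finset.sum_nonneg (fun _ _ => sq_nonneg _)
  set w : D → ℝ := fun b => if b ∈ H then S.ux (j + 1) b * f b else 0 with hw
  have hw0 : ∀ b, b ∉ H → w b = 0 := by
    intro b hb
    simp [hw, hb]
  have e1 : B = ∑ i ∈ R, c i * ∑ b, w b * S.z i b := by
    simp only [sum_supp hw0]
    simp only [Finset.mul_sum]
    rw [Finset.sum_comm, hB]
    refine Finset.sum_congr rfl (fun b hb => ?_)
    simp only [hw, hb, if_true]
    have : f b ^ 2 = f b * ∑ i ∈ R, c i * S.z i b := by rw [sq]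
    rw [this, ← mul_assoc, Finset.mul_sum]
    refine Finset.sum_congr rfl (fun i _ => ?_)
    ring
  have h1 : B ^ 2 ≤ C * Qf S R w := by
    rw [e1]
    exact Finset.sum_mul_sq_le_sq_mul_sq _ _ _
  have h2 : Qf S R w ≤ 3 * B := by
    refine (Qf_mono hR w).trans ((G_bounds hI hj hw0).2.trans ?_)
    have h3 : ∑ a ∈ H, S.gl j a * w a ^ 2 ≤ 2 * B := by
      rw [hB, Finset.mul_sum]
      refine Finset.sum_le_sum (fun a ha => ?_)
      simp only [hw, ha, if_true]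
      have h4 := ux_succ_gl (S := S) j a
      have h5 := S.ux_pos (j + 1) a
      have h6 : 0 ≤ S.ux (j + 1) a * f a ^ 2 := by positivity
      calc S.gl j a * (S.ux (j + 1) a * f a) ^ 2 = (S.ux (j + 1) a * S.gl j a) * (S.ux (j + 1) a * f a ^ 2) := by ring
        _ ≤ 2 * (S.ux (j + 1) a * f a ^ 2) := by gcongr
    linarith
  have h3 : B ^ 2 ≤ C * (3 * B) := h1.trans (mul_le_mul_of_nonneg_left h2 hC0)
  by_contra hc
  push Not at hc
  have h4 : 0 < B := by nlinarith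
  nlinarith

/-- The class weight dominates its parts. -/
lemma qf_wc_ge {t c j : ℕ} {f : D × D → ℝ} :
    ∑ a ∈ WW S.y c, (∑ b ∈ HH S.y t, S.ux j b * f (a, b) ^ 2 + S.ux j a * f (a, a) ^ 2) = qf (S.wc t c j) f := by
  unfold qf
  rw [Fintype.sum_prod_type, ← Finset.sum_filter_add_sum_filter_not univ (fun a => a ∈ WW S.y c)]
  have h0 : ∑ a ∈ univ.filter (fun a => a ∉ WW S.y c), ∑ b, S.wc t c j (a, b) * f (a, b) ^ 2 = 0 := by
    refine Finset.sum_eq_zero (fun a ha => Finset.sum_eq_zero (fun b _ => ?_))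
    have h1 := (Finset.mem_filter.mp ha).2
    simp [Sys.wc, h1]
  rw [h0, add_zero]
  have e : univ.filter (fun a => a ∈ WW S.y c) = WW S.y c := by simp
  rw [e]
  refine Finset.sum_congr rfl (fun a ha => ?_)
  simp only [Sys.wc, ha, if_true, add_mul]
  rw [Finset.sum_add_distrib]
  congr 1
  · simp only [ite_mul, zero_mul]
    rw [← Finset.sum_filter]
    simp
  · simp

/-- The tilt on the class weights. -/
lemma tilt_cl {t c j : ℕ} {s R : Finset I} {tt : I → ℝ} {ε : ℝ} (hI : qf (S.w1 t j) (S.dv j s) ≤ 1 / 16)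
    (hj : j ≤ jj S.y (t + 1)) (hR : R ⊆ s) (hE : ∑ i ∈ R, tt i ^ 2 ≤ ε) :
    qf (S.wc t c (j + 1)) (vp (Tw S tt R)) ≤ (6 + qf (S.wc t c j) (S.dv j s)) * ε := by
  set E := qf (S.wc t c j) (S.dv j s) with hEdef
  have hE0 : 0 ≤ E := qf_nonneg (S.wc_nonneg t c j) _
  have hε : 0 ≤ ε := le_trans (Finset.sum_nonneg (fun _ _ => sq_nonneg _)) hE
  rw [← qf_wc_ge]
  have key : ∀ a ∈ WW S.y c, ∑ b ∈ HH S.y t, S.ux (j + 1) b * vp (Tw S tt R) (a, b) ^ 2 +
      S.ux (j + 1) a * vp (Tw S tt R) (a, a) ^ 2 ≤ (6 + E) * ∑ i ∈ R, tt i ^ 2 * S.z i a ^ 2 := by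
    intro a ha
    set A := ∑ i ∈ R, tt i ^ 2 * S.z i a ^ 2 with hA
    have hA0 : 0 ≤ A := Finset.sum_nonneg (fun _ _ => by positivity)
    -- off diagonal
    have h1 : ∑ b ∈ HH S.y t, S.ux (j + 1) b * vp (Tw S tt R) (a, b) ^ 2 ≤ 3 * A := by
      have h2 := dual_off hI hj hR (fun i => tt i * S.z i a)
      have e : ∑ i ∈ R, (tt i * S.z i a) ^ 2 = A := Finset.sum_congr rfl (fun i _ => by ring)
      rw [e] at h2
      refine le_trans (le_of_eq ?_) h2
      refine Finset.sum_congr rfl (fun b _ => ?_)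
      congr 2
      rw [vp_Tw]
      exact Finset.sum_congr rfl (fun i _ => by ring)
    -- diagonal
    have h3 : vp (Tw S tt R) (a, a) ^ 2 ≤ A * S.gr s (a, a) := by
      rw [vp_Tw]
      have h4 := Finset.sum_mul_sq_le_sq_mul_sq R (fun i => tt i * S.z i a) (fun i => S.z i a)
      have e1 : ∑ i ∈ R, (tt i * S.z i a) * S.z i a = ∑ i ∈ R, tt i * (S.z i (a, a).1 * S.z i (a, a).2) :=
        Finset.sum_congr rfl (fun i _ => by simp; ring)
      rw [e1] at h4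
      refine h4.trans ?_
      have e2 : ∑ i ∈ R, (tt i * S.z i a) ^ 2 = A := Finset.sum_congr rfl (fun i _ => by ring)
      rw [e2]
      refine mul_le_mul_of_nonneg_left ?_ hA0
      unfold Sys.gr
      refine (Finset.sum_le_sum_of_subset_of_nonneg hR (fun _ _ _ => sq_nonneg _)).trans (le_of_eq ?_)
      exact Finset.sum_congr rfl (fun i _ => by simp; ring)
    have h5 : S.ux (j + 1) a * S.gr s (a, a) ≤ 3 + E := by
      have e : S.gr s (a, a) = S.gl j a + S.dv j s (a, a) := by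
        unfold Sys.dv
        simp
      rw [e, mul_add]
      have h6 := ux_succ_gl (S := S) j a
      have h7 : S.ux (j + 1) a * S.dv j s (a, a) ≤ 1 + E := by
        have h8 : S.ux j a * S.dv j s (a, a) ^ 2 ≤ E := by
          rw [hEdef, ← qf_wc_ge]
          refine le_trans ?_ (Finset.single_le_sum (f := fun a => ∑ b ∈ HH S.y t, S.ux j b * S.dv j s (a, b) ^ 2 +
            S.ux j a * S.dv j s (a, a) ^ 2) (fun a _ => add_nonneg (Finset.sum_nonneg (fun b _ =>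
              mul_nonneg (S.ux_pos _ _).le (sq_nonneg _))) (mul_nonneg (S.ux_pos _ _).le (sq_nonneg _))) ha)
          have h9 : 0 ≤ ∑ b ∈ HH S.y t, S.ux j b * S.dv j s (a, b) ^ 2 := Finset.sum_nonneg (fun b _ =>
              mul_nonneg (S.ux_pos _ _).le (sq_nonneg _))
          linarith
        have h10 : S.ux (j + 1) a ≤ 2 * S.ux j a := by simpa using S.ux_up j 1 a
        have h11 := S.ux_le_one (j + 1) a
        have h12 := S.ux_pos (j + 1) a
        refine (abs_le.mp (abs_le_of_sq_le_sq ?_ (by linarith))).2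
        have h13 : (S.ux (j + 1) a * S.dv j s (a, a)) ^ 2 ≤ 2 * E := by
          have h14 : (S.ux (j + 1) a) ^ 2 ≤ 2 * S.ux j a := by nlinarith
          have h15 := sq_nonneg (S.dv j s (a, a))
          calc (S.ux (j + 1) a * S.dv j s (a, a)) ^ 2 = (S.ux (j + 1) a) ^ 2 * S.dv j s (a, a) ^ 2 := by ring
            _ ≤ (2 * S.ux j a) * S.dv j s (a, a) ^ 2 := by gcongr
            _ = 2 * (S.ux j a * S.dv j s (a, a) ^ 2) := by ring
            _ ≤ 2 * E := by gcongr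
        nlinarith
      linarith
    have h6 : S.ux (j + 1) a * vp (Tw S tt R) (a, a) ^ 2 ≤ (3 + E) * A := by
      have h7 := mul_le_mul_of_nonneg_left h3 (S.ux_pos (j + 1) a).le
      have h8 : S.ux (j + 1) a * (A * S.gr s (a, a)) = (S.ux (j + 1) a * S.gr s (a, a)) * A := by ring
      rw [h8] at h7
      exact h7.trans (mul_le_mul_of_nonneg_right h5 hA0)
    nlinarith
  refine (Finset.sum_le_sum key).trans ?_
  rw [← Finset.mul_sum, Finset.sum_comm]
  refine mul_le_mul_of_nonneg_left ?_ (by linarith)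
  have h2 : ∀ i ∈ R, ∑ a ∈ WW S.y c, tt i ^ 2 * S.z i a ^ 2 ≤ tt i ^ 2 := by
    intro i _
    rw [← Finset.mul_sum]
    have h3 : ∑ a ∈ WW S.y c, S.z i a ^ 2 ≤ 1 :=
      (Finset.sum_le_sum_of_subset_of_nonneg (Finset.subset_univ _) (fun _ _ _ => sq_nonneg _)).trans (S.hz i)
    nlinarith [sq_nonneg (tt i)]
  exact (Finset.sum_le_sum h2).trans hE

end

end Vale.Agent.Lib.P262S
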