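import Vale.Agent.Lib.P262S.TiltB

open Finset
open Vale.Agent.Lib.P262 (nm nm_nonneg nm_sq nm_add_le nm_mono nm_smul nm_le_of_sq sum_sq_le_of_nm exists_tilt)

namespace Vale.Agent.Lib.P262S

noncomputable section

variable {I D : Type} [Fintype I] [DecidableEq I] [Fintype D] [DecidableEq D]

variable {S : Sys I D}

/-- Squares of sums against squares of the weights. -/
lemma tt_cs {R : Finset I} {tt g : I → ℝ} {ε : ℝ} (hE : ∑ i ∈ R, tt i ^ 2 ≤ ε) :
    (∑ i ∈ R, tt i * g i) ^ 2 ≤ ε * ∑ i ∈ R, g i ^ 2 :=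
  (Finset.sum_mul_sq_le_sq_mul_sq _ _ _).trans
    (mul_le_mul_of_nonneg_right hE (Finset.sum_nonneg (fun _ _ => sq_nonneg _)))

/-- **The tilt vector passes the tests.** -/
theorem tiltOK {t j : ℕ} {Yh : ℝ} {x y : D → ℝ} {s Ex : Finset I} {tt : I → ℝ} {c ε : ℝ}
    (hI : Inv S t j s Yh) (hH : Heavy S t Yh x y s Ex) (hE : ∑ i ∈ s \ Ex, tt i ^ 2 ≤ ε)
    (hε : ε ≤ (1 / 2) ^ 100) (hc : c ^ 2 ≤ 1 / 4) :
    TiltOK S t (j + 1) Yh x y s (s \ Ex) (fun α => c * Tw S tt (s \ Ex) α) := by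
  set R := s \ Ex with hR
  set T := TF S.y t with hT
  have hRs : R ⊆ s := Finset.sdiff_subset
  have hε0 : 0 ≤ ε := le_trans (Finset.sum_nonneg (fun _ _ => sq_nonneg _)) hE
  have hY0 : 0 ≤ Yh := (S.Yy_nonneg _ _).trans hI.i3
  have hYR : S.Yy T R ≤ Yh := (S.Yy_mono T hRs).trans hI.i3
  have hj : j + 1 ≤ jj S.y (t + 1) := hI.lev2
  have hvp : ∀ q, vp (fun α => c * Tw S tt R α) q = c * vp (Tw S tt R) q := fun _ => rfl
  have hvi : ∀ a, vi (fun α => c * Tw S tt R α) a = c * vi (Tw S tt R) a := fun _ => rfl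
  have hvc : vc (fun α => c * Tw S tt R α) = c * vc (Tw S tt R) := rfl
  have hpow : (0 : ℝ) ≤ (1 / 2) ^ 100 := by positivity
  have hpp : ∀ {g : I → ℝ} {F : ℝ}, 0 ≤ F → ∑ i ∈ R, g i ^ 2 ≤ F ^ 2 →
      |c * ∑ i ∈ R, tt i * g i| ≤ (1 / 2) ^ 10 * F := by
    intro g F hF hg
    refine abs_le_of_sq_le_sq ?_ (by positivity)
    rw [mul_pow]
    have h1 := tt_cs (g := g) hE
    have h2 : (∑ i ∈ R, tt i * g i) ^ 2 ≤ ε * F ^ 2 := h1.trans (mul_le_mul_of_nonneg_left hg hε0)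
    have h3 : 0 ≤ (∑ i ∈ R, tt i * g i) ^ 2 := sq_nonneg _
    have h4 : 0 ≤ F ^ 2 := sq_nonneg _
    have h5 : ε * F ^ 2 ≤ (1 / 2) ^ 100 * F ^ 2 := by gcongr
    have h6 : c ^ 2 * (∑ i ∈ R, tt i * g i) ^ 2 ≤ 1 / 4 * ((1 / 2) ^ 100 * F ^ 2) := by
      refine mul_le_mul hc (h2.trans h5) h3 (by norm_num)
    refine h6.trans ?_
    rw [mul_pow]
    have h7 : (1 / 4 : ℝ) * (1 / 2) ^ 100 ≤ ((1 / 2) ^ 10) ^ 2 := by norm_num
    nlinarith
  have hNxR : ∀ g : D → ℝ, S.Nn T R g ≤ S.Nn T s g := fun g => S.Nn_mono T hRs g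
  refine ⟨?_, ?_, ?_, ?_, ?_, ?_, ?_, ?_, ?_⟩
  · -- first weights
    have h1 := tilt_w1 (S := S) (tt := tt) hI.i1 hj hRs hE
    have e : vp (fun α => c * Tw S tt R α) = fun q => c * vp (Tw S tt R) q := rfl
    rw [e, qf_smul]
    have h2 : 0 ≤ qf (S.w1 t (j + 1)) (vp (Tw S tt R)) := qf_nonneg (S.w1_nonneg _ _) _
    calc c ^ 2 * qf (S.w1 t (j + 1)) (vp (Tw S tt R)) ≤ 1 / 4 * ((1 / 2) ^ 100 * (6 * (1 / 2) ^ 170)) := by
          refine mul_le_mul hc ?_ h2 (by norm_num)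
          refine h1.trans ?_
          gcongr
      _ ≤ (1 / 2) ^ 30 := by norm_num
  · -- class weights
    intro c' hc'
    have h1 := tilt_cl (S := S) (tt := tt) (c := c') hI.i1 (by omega) hRs hE
    have e : vp (fun α => c * Tw S tt R α) = fun q => c * vp (Tw S tt R) q := rfl
    rw [e, qf_smul]
    have h2 : 0 ≤ qf (S.wc t c' (j + 1)) (vp (Tw S tt R)) := qf_nonneg (S.wc_nonneg _ _ _) _
    have h3 := hI.i2 c' hc'
    have h4 : (6 + qf (S.wc t c' j) (S.dv j s)) * ε ≤ (6 + 2 ^ 43 * Xc S t c') * (1 / 2) ^ 100 := by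
      have h5 : 0 ≤ qf (S.wc t c' j) (S.dv j s) := qf_nonneg (S.wc_nonneg _ _ _) _
      refine mul_le_mul (by linarith) hε hε0 (by
        have := Xc_pos S hc'
        positivity)
    have hX := Xc_pos S hc'
    have hX2 : 0 ≤ 2 ^ 43 * Xc S t c' := by positivity
    calc c ^ 2 * qf (S.wc t c' (j + 1)) (vp (Tw S tt R)) ≤ 1 / 4 * ((6 + 2 ^ 43 * Xc S t c') * (1 / 2) ^ 100) :=
          mul_le_mul hc (h1.trans h4) h2 (by norm_num)
      _ ≤ (1 / 2) ^ 10 * (1 + 2 ^ 43 * Xc S t c') := by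
          norm_num
          nlinarith
  · -- diagonal statistic
    have e : ∑ a ∈ T, vp (fun α => c * Tw S tt R α) (a, a) = c * ∑ i ∈ R, tt i * ∑ a ∈ T, S.z i a ^ 2 := by
      simp only [hvp, vp_Tw]
      rw [← Finset.mul_sum]
      congr 1
      rw [Finset.sum_comm]
      refine Finset.sum_congr rfl (fun i _ => ?_)
      rw [Finset.mul_sum]
      exact Finset.sum_congr rfl (fun a _ => by rw [sq])
    rw [e]
    refine hpp hY0 ?_
    have h1 : ∀ i ∈ R, (∑ a ∈ T, S.z i a ^ 2) ^ 2 ≤ Yh * ∑ a ∈ T, S.z i a ^ 2 := by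
      intro i hi
      have h2 := hH.hY i hi
      have h3 : 0 ≤ ∑ a ∈ T, S.z i a ^ 2 := Finset.sum_nonneg (fun _ _ => sq_nonneg _)
      rw [sq]
      refine mul_le_mul_of_nonneg_right (h2.trans ?_) h3
      have h4 : (1 / 2 : ℝ) ^ 60 ≤ 1 := by norm_num
      nlinarith
    refine (Finset.sum_le_sum h1).trans ?_
    rw [← Finset.mul_sum, sq]
    exact mul_le_mul_of_nonneg_left hYR hY0
  · -- quadratic statistic x
    have e : ∑ a ∈ T, ∑ b ∈ T, x a * x b * vp (fun α => c * Tw S tt R α) (a, b) =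
        c * ∑ i ∈ R, tt i * (∑ a ∈ T, x a * S.z i a) ^ 2 := by
      simp only [hvp, vp_Tw]
      have e2 : ∀ i, (∑ a ∈ T, x a * S.z i a) ^ 2 = ∑ a ∈ T, ∑ b ∈ T, x a * x b * (S.z i a * S.z i b) := by
        intro i
        rw [sq, Finset.sum_mul_sum]
        exact Finset.sum_congr rfl (fun a _ => Finset.sum_congr rfl (fun b _ => by ring))
      simp only [e2, Finset.mul_sum]
      symm
      rw [Finset.sum_comm]
      refine Finset.sum_congr rfl (fun a _ => ?_)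
      rw [Finset.sum_comm]
      refine Finset.sum_congr rfl (fun b _ => ?_)
      exact Finset.sum_congr rfl (fun i _ => by ring)
    rw [e]
    refine hpp (sq_nonneg _) ?_
    have hN0 := S.Nn_nonneg T s x
    have h1 : ∀ i ∈ R, ((∑ a ∈ T, x a * S.z i a) ^ 2) ^ 2 ≤ S.Nn T s x ^ 2 * (∑ a ∈ T, x a * S.z i a) ^ 2 := by
      intro i hi
      have h2 := hH.hx i hi
      rw [sq ((∑ a ∈ T, x a * S.z i a) ^ 2)]
      refine mul_le_mul_of_nonneg_right (h2.trans ?_) (sq_nonneg _)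
      have h4 : (1 / 2 : ℝ) ^ 60 ≤ 1 := by norm_num
      nlinarith [sq_nonneg (S.Nn T s x)]
    refine (Finset.sum_le_sum h1).trans ?_
    rw [← Finset.mul_sum, ← S.Nn_sq, sq (S.Nn T s x ^ 2)]
    refine mul_le_mul_of_nonneg_left ?_ (sq_nonneg _)
    exact pow_le_pow_left₀ (S.Nn_nonneg _ _ _) (hNxR x) 2
  · -- quadratic statistic y
    have e : ∑ a ∈ T, ∑ b ∈ T, y a * y b * vp (fun α => c * Tw S tt R α) (a, b) =
        c * ∑ i ∈ R, tt i * (∑ a ∈ T, y a * S.z i a) ^ 2 := by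
      simp only [hvp, vp_Tw]
      have e2 : ∀ i, (∑ a ∈ T, y a * S.z i a) ^ 2 = ∑ a ∈ T, ∑ b ∈ T, y a * y b * (S.z i a * S.z i b) := by
        intro i
        rw [sq, Finset.sum_mul_sum]
        exact Finset.sum_congr rfl (fun a _ => Finset.sum_congr rfl (fun b _ => by ring))
      simp only [e2, Finset.mul_sum]
      symm
      rw [Finset.sum_comm]
      refine Finset.sum_congr rfl (fun a _ => ?_)
      rw [Finset.sum_comm]
      refine Finset.sum_congr rfl (fun b _ => ?_)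
      exact Finset.sum_congr rfl (fun i _ => by ring)
    rw [e]
    refine hpp (sq_nonneg _) ?_
    have hN0 := S.Nn_nonneg T s y
    have h1 : ∀ i ∈ R, ((∑ a ∈ T, y a * S.z i a) ^ 2) ^ 2 ≤ S.Nn T s y ^ 2 * (∑ a ∈ T, y a * S.z i a) ^ 2 := by
      intro i hi
      have h2 := hH.hy i hi
      rw [sq ((∑ a ∈ T, y a * S.z i a) ^ 2)]
      refine mul_le_mul_of_nonneg_right (h2.trans ?_) (sq_nonneg _)
      have h4 : (1 / 2 : ℝ) ^ 60 ≤ 1 := by norm_num
      nlinarith [sq_nonneg (S.Nn T s y)]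
    refine (Finset.sum_le_sum h1).trans ?_
    rw [← Finset.mul_sum, ← S.Nn_sq, sq (S.Nn T s y ^ 2)]
    refine mul_le_mul_of_nonneg_left ?_ (sq_nonneg _)
    exact pow_le_pow_left₀ (S.Nn_nonneg _ _ _) (hNxR y) 2
  · -- mass
    simp only [hvi, vi_Tw, mul_pow]
    rw [← Finset.mul_sum]
    have h1 : ∑ a ∈ T, (∑ i ∈ R, tt i * S.z i a) ^ 2 ≤ ε * Yh := by
      have h2 : ∀ a ∈ T, (∑ i ∈ R, tt i * S.z i a) ^ 2 ≤ ε * ∑ i ∈ R, S.z i a ^ 2 := fun a _ => tt_cs hE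
      refine (Finset.sum_le_sum h2).trans ?_
      rw [← Finset.mul_sum, Finset.sum_comm]
      exact mul_le_mul_of_nonneg_left hYR hε0
    have h2 : 0 ≤ ∑ a ∈ T, (∑ i ∈ R, tt i * S.z i a) ^ 2 := Finset.sum_nonneg (fun _ _ => sq_nonneg _)
    have h3 : ε * Yh ≤ 1 * Yh := by
      gcongr
      exact hε.trans (by norm_num)
    have h4 : c ^ 2 ≤ 1 := by linarith
    nlinarith
  · -- action of x
    have e : ∑ a ∈ T, x a * vi (fun α => c * Tw S tt R α) a = c * ∑ i ∈ R, tt i * ∑ a ∈ T, x a * S.z i a := by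
      simp only [hvi, vi_Tw]
      simp only [Finset.mul_sum]
      rw [Finset.sum_comm]
      exact Finset.sum_congr rfl (fun i _ => Finset.sum_congr rfl (fun a _ => by ring))
    rw [e, mul_pow]
    have h1 := tt_cs (R := R) (tt := tt) (g := fun i => ∑ a ∈ T, x a * S.z i a) hE
    rw [← S.Nn_sq] at h1
    have h2 : S.Nn T R x ^ 2 ≤ S.Nn T s x ^ 2 := pow_le_pow_left₀ (S.Nn_nonneg _ _ _) (hNxR x) 2
    have h3 : (0 : ℝ) ≤ (∑ i ∈ R, tt i * ∑ a ∈ T, x a * S.z i a) ^ 2 := sq_nonneg _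
    have h4 : ε ≤ 1 := hε.trans (by norm_num)
    have h5 : 0 ≤ S.Nn T s x ^ 2 := sq_nonneg _
    have h6 : c ^ 2 ≤ 1 := by linarith
    have h7 : 0 ≤ S.Nn T R x ^ 2 := sq_nonneg _
    calc c ^ 2 * (∑ i ∈ R, tt i * ∑ a ∈ T, x a * S.z i a) ^ 2 ≤ 1 * (1 * S.Nn T s x ^ 2) := by
          refine mul_le_mul h6 (h1.trans ?_) h3 (by norm_num)
          exact mul_le_mul h4 h2 h7 (by norm_num)
      _ = S.Nn T s x ^ 2 := by ring
  · -- action of y
    have e : ∑ a ∈ T, y a * vi (fun α => c * Tw S tt R α) a = c * ∑ i ∈ R, tt i * ∑ a ∈ T, y a * S.z i a := by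
      simp only [hvi, vi_Tw]
      simp only [Finset.mul_sum]
      rw [Finset.sum_comm]
      exact Finset.sum_congr rfl (fun i _ => Finset.sum_congr rfl (fun a _ => by ring))
    rw [e, mul_pow]
    have h1 := tt_cs (R := R) (tt := tt) (g := fun i => ∑ a ∈ T, y a * S.z i a) hE
    rw [← S.Nn_sq] at h1
    have h2 : S.Nn T R y ^ 2 ≤ S.Nn T s y ^ 2 := pow_le_pow_left₀ (S.Nn_nonneg _ _ _) (hNxR y) 2
    have h3 : (0 : ℝ) ≤ (∑ i ∈ R, tt i * ∑ a ∈ T, y a * S.z i a) ^ 2 := sq_nonneg _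
    have h4 : ε ≤ 1 := hε.trans (by norm_num)
    have h5 : 0 ≤ S.Nn T s y ^ 2 := sq_nonneg _
    have h6 : c ^ 2 ≤ 1 := by linarith
    have h7 : 0 ≤ S.Nn T R y ^ 2 := sq_nonneg _
    calc c ^ 2 * (∑ i ∈ R, tt i * ∑ a ∈ T, y a * S.z i a) ^ 2 ≤ 1 * (1 * S.Nn T s y ^ 2) := by
          refine mul_le_mul h6 (h1.trans ?_) h3 (by norm_num)
          exact mul_le_mul h4 h2 h7 (by norm_num)
      _ = S.Nn T s y ^ 2 := by ring
  · -- count
    rw [hvc, vc_Tw]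
    have hRc : (1 : ℝ) ≤ R.card := by
      have h1 : (R.card : ℝ) + Ex.card = s.card := by
        have := Finset.card_sdiff_add_card_eq_card hH.hsub
        exact_mod_cast this
      have h2 := hH.hs
      have h3 := hH.hcard
      have h4 : (2 : ℝ) ^ 63 = 2 ^ 62 + 2 ^ 62 := by norm_num
      have h5 : (1 : ℝ) ≤ 2 ^ 62 := by norm_num
      linarith
    have e : ∑ i ∈ R, tt i = ∑ i ∈ R, tt i * 1 := by simp
    rw [e]
    refine hpp (g := fun _ => 1) (F := (R.card : ℝ)) (by positivity) ?_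
    simp only [one_pow, Finset.sum_const, nsmul_eq_mul, mul_one]
    nlinarith

/-- The size of the tilt targets against the gain. -/
lemma Gam_bound {t j : ℕ} (hj : j ≤ jj S.y (t + 1)) {tgt : D → ℝ}
    (ht : ∀ a ∈ HH S.y t, tgt a ^ 2 ≤ 4 * (2 ^ 129 * ((rk S.y (HH S.y t) a : ℝ) + 2 ^ 86 + (JJ S.y t : ℝ)))) :
    ∑ a ∈ HH S.y t, tgt a ^ 2 / S.gl j a ≤ (1 / 2) ^ 250 / ((JJ S.y t : ℝ) + 1) := by
  set H := HH S.y t with hH
  set J := (JJ S.y t : ℝ) with hJ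
  have hJ0 : (0 : ℝ) ≤ J := by positivity
  set q : ℝ := ((1 / 2) ^ 250) ^ 3 with hq
  have hq0 : 0 ≤ q := by positivity
  have hterm : ∀ a ∈ H, tgt a ^ 2 / S.gl j a ≤ (2 ^ 218 / (J + 1)) * q ^ rk S.y H a := by
    intro a ha
    have hm := margin S.y ha
    have hy := y_gt_of_HH hj ha
    have hgl := S.gl_lower hy
    have hglpos : 0 < S.gl j a := by
      have : (0 : ℝ) < 2 ^ (S.y a - j) := by positivity
      linarith
    set k := rk S.y H a with hk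
    have hx : Dl (JJ S.y t) + 1000 * k ≤ S.y a - j := by
      have : L0 = 1024 := rfl
      have h3 : L0 * k = 1024 * k := by rw [this]
      omega
    have h2 : (2 : ℝ) ^ (Dl (JJ S.y t) + 1000 * k) ≤ 2 ^ (S.y a - j) :=
      pow_le_pow_right₀ (by norm_num) hx
    have h3 : (J + 1) ^ 2 ≤ 2 ^ Dl (JJ S.y t) := pow_Dl (JJ S.y t)
    set p : ℝ := ((2 : ℝ) ^ 250) ^ 4 with hp
    have hp2 : (2 : ℝ) ^ (1000 * k) = p ^ k := by
      rw [hp, ← pow_mul, ← pow_mul]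
      congr 1
      ring
    have h4 : (J + 1) ^ 2 * p ^ k ≤ 2 * S.gl j a := by
      have h5 : (J + 1) ^ 2 * 2 ^ (1000 * k) ≤ 2 ^ Dl (JJ S.y t) * 2 ^ (1000 * k) := by gcongr
      rw [← pow_add] at h5
      rw [← hp2]
      linarith
    have h6 := ht a ha
    have hk2 : (k : ℝ) + 2 ^ 86 + J ≤ 2 ^ 86 * (J + 1) * 2 ^ k := by
      have h7 : (k : ℝ) + 1 ≤ 2 ^ k := by
        have := Nat.lt_two_pow_self (n := k)
        have h8 : k + 1 ≤ 2 ^ k := this
        exact_mod_cast h8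
      have h8 : (1 : ℝ) ≤ 2 ^ k := by
        have : (0 : ℝ) ≤ k := by positivity
        linarith
      have h9 : (0 : ℝ) ≤ k := by positivity
      have h10 : (2 : ℝ) ^ 86 * (J + 1) * ((k : ℝ) + 1) ≤ 2 ^ 86 * (J + 1) * 2 ^ k := by gcongr
      have h11 : (k : ℝ) + 2 ^ 86 + J ≤ 2 ^ 86 * (J + 1) * ((k : ℝ) + 1) := by
        have h12 : 0 ≤ J * (k : ℝ) := by positivity
        nlinarith
      linarith
    rw [div_le_iff₀ hglpos]
    have h10 : (0 : ℝ) < J + 1 := by linarith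
    have h11 : (2 : ℝ) ^ k ≤ (q * p) ^ k := by
      refine pow_le_pow_left₀ (by norm_num) ?_ _
      rw [hq, hp]
      norm_num
    have h12 : (2 ^ 218 / (J + 1)) * q ^ k * S.gl j a ≥ 2 ^ 217 * ((J + 1) * (q * p) ^ k) := by
      have h13 : (2 ^ 218 / (J + 1)) * q ^ k * ((1 / 2) * ((J + 1) ^ 2 * p ^ k)) ≤
          (2 ^ 218 / (J + 1)) * q ^ k * S.gl j a := by
        refine mul_le_mul_of_nonneg_left ?_ (by positivity)
        have h4' := mul_le_mul_of_nonneg_left h4 (by norm_num : (0 : ℝ) ≤ 1 / 2)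
        have e' : (1 / 2 : ℝ) * (2 * S.gl j a) = S.gl j a := by ring
        rw [e'] at h4'
        exact h4'
      refine le_trans (le_of_eq ?_) h13
      rw [mul_pow]
      field_simp
    have h13 : (0 : ℝ) ≤ 2 ^ 217 * ((J + 1) * (2 : ℝ) ^ k) := by positivity
    have h14 : (2 : ℝ) ^ 217 * ((J + 1) * 2 ^ k) ≤ 2 ^ 217 * ((J + 1) * (q * p) ^ k) := by gcongr
    have h15 : tgt a ^ 2 ≤ 2 ^ 217 * ((J + 1) * 2 ^ k) := by
      refine h6.trans ?_
      calc (4 : ℝ) * (2 ^ 129 * ((k : ℝ) + 2 ^ 86 + J)) ≤ 4 * (2 ^ 129 * (2 ^ 86 * (J + 1) * 2 ^ k)) := by gcongr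
        _ = 2 ^ 217 * ((J + 1) * 2 ^ k) := by ring
    exact h15.trans (h14.trans h12)
  refine (Finset.sum_le_sum hterm).trans ?_
  rw [← Finset.mul_sum]
  have h1 := sum_geom_rank S.y H q hq0 (by rw [hq]; norm_num)
  have h2 : (0 : ℝ) < J + 1 := by linarith
  calc (2 ^ 218 / (J + 1)) * ∑ a ∈ H, q ^ rk S.y H a ≤ (2 ^ 218 / (J + 1)) * (2 * q) := by gcongr
    _ = (2 ^ 219 * q) / (J + 1) := by ring
    _ ≤ (1 / 2) ^ 250 / (J + 1) := by
      gcongr
      rw [hq]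
      norm_num

/-- The mixed deviation on a class. -/
lemma qf_off_le {t c j : ℕ} {f : D × D → ℝ} :
    ∑ a ∈ WW S.y c, ∑ b ∈ HH S.y t, S.ux j b * f (a, b) ^ 2 ≤ qf (S.wc t c j) f := by
  rw [← qf_wc_ge]
  refine Finset.sum_le_sum (fun a _ => ?_)
  have : 0 ≤ S.ux j a * f (a, a) ^ 2 := mul_nonneg (S.ux_pos _ _).le (sq_nonneg _)
  linarith

/-- **The leak of the tilt to the coordinates in transition.** -/
theorem leak_N {t j : ℕ} {s Ex : Finset I} {τ : D → ℝ} {A Et Et' : ℝ}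
    (hj : j ≤ jj S.y (t + 1)) (hEx : Ex ⊆ s) (hExc : (Ex.card : ℝ) ≤ 2 ^ 62)
    (hτ0 : ∀ a, a ∉ HH S.y t → τ a = 0) (hA : ∑ a ∈ HH S.y t, S.gl j a * τ a ^ 2 ≤ A)
    (hEt : qf (S.wc t t j) (S.dv j s) ≤ Et) (hEt' : qf (S.wc t (t + 1) j) (S.dv j s) ≤ Et') :
    ∑ a ∈ NN S.y t, (∑ i ∈ s \ Ex, (∑ b, τ b * S.z i b) * S.z i a) ^ 2 ≤ 4 * A * (Et + Et') + 2 * (2 ^ 124 * A) := by
  set H := HH S.y t with hH
  set tt : I → ℝ := fun i => ∑ b, τ b * S.z i b with htt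
  have hglpos : ∀ a ∈ H, 0 < S.gl j a := fun a ha =>
    lt_of_lt_of_le (by norm_num) (gl_large hj ha)
  have hA0 : 0 ≤ A := le_trans (Finset.sum_nonneg (fun a ha => mul_nonneg (hglpos a ha).le (sq_nonneg _))) hA
  have hτ2 : ∑ a ∈ H, τ a ^ 2 ≤ A := by
    refine le_trans (Finset.sum_le_sum (fun a ha => ?_)) hA
    have h1 := gl_large hj ha
    have h2 : (1 : ℝ) ≤ S.gl j a := le_trans (by norm_num) h1
    nlinarith [sq_nonneg (τ a)]
  have htt2 : ∀ i, tt i ^ 2 ≤ A := by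
    intro i
    simp only [htt]
    rw [sum_supp hτ0]
    refine (Finset.sum_mul_sq_le_sq_mul_sq _ _ _).trans ?_
    have h1 : ∑ a ∈ H, S.z i a ^ 2 ≤ 1 :=
      (Finset.sum_le_sum_of_subset_of_nonneg (Finset.subset_univ _) (fun _ _ _ => sq_nonneg _)).trans (S.hz i)
    have h2 : 0 ≤ ∑ a ∈ H, τ a ^ 2 := Finset.sum_nonneg (fun _ _ => sq_nonneg _)
    nlinarith
  -- the two parts
  set D₁ : D → ℝ := fun a => ∑ b ∈ H, τ b * S.dv j s (a, b) with hD₁
  set X₁ : D → ℝ := fun a => ∑ i ∈ Ex, tt i * S.z i a with hX₁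
  have hsplit : ∀ a ∈ NN S.y t, ∑ i ∈ s \ Ex, tt i * S.z i a = D₁ a - X₁ a := by
    intro a ha
    have h1 : ∑ i ∈ s \ Ex, tt i * S.z i a = ∑ i ∈ s, tt i * S.z i a - X₁ a := by
      have := Finset.sum_sdiff (f := fun i => tt i * S.z i a) hEx
      simp only [hX₁]
      linarith
    rw [h1]
    congr 1
    simp only [hD₁, htt]
    simp only [sum_supp hτ0]
    have h2 : ∀ b ∈ H, τ b * S.dv j s (a, b) = ∑ i ∈ s, τ b * S.z i b * S.z i a := by
      intro b hb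
      have hne : a ≠ b := by
        rintro rfl
        exact Finset.disjoint_left.mp (NN_HH_disj S.y t) ha hb
      unfold Sys.dv Sys.gr
      simp only [hne, if_false, sub_zero, Finset.mul_sum]
      exact Finset.sum_congr rfl (fun i _ => by ring)
    rw [Finset.sum_congr rfl h2, Finset.sum_comm]
    exact Finset.sum_congr rfl (fun i _ => by rw [Finset.sum_mul])
  have hD₁le : ∑ a ∈ NN S.y t, D₁ a ^ 2 ≤ 2 * A * (Et + Et') := by
    have h1 : ∀ a, D₁ a ^ 2 ≤ (2 * A) * ∑ b ∈ H, S.ux j b * S.dv j s (a, b) ^ 2 := by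
      intro a
      have h2 := Finset.sum_sq_le_sum_mul_sum_of_sq_le_mul H
        (r := fun b => τ b * S.dv j s (a, b)) (f := fun b => τ b ^ 2 / S.ux j b)
        (g := fun b => S.ux j b * S.dv j s (a, b) ^ 2)
        (fun b _ => div_nonneg (sq_nonneg _) (S.ux_pos _ _).le)
        (fun b _ => mul_nonneg (S.ux_pos _ _).le (sq_nonneg _))
        (fun b _ => by
          have := S.ux_pos j b
          refine le_of_eq ?_
          field_simp)
      refine h2.trans ?_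
      refine mul_le_mul_of_nonneg_right ?_ (Finset.sum_nonneg (fun b _ => mul_nonneg (S.ux_pos _ _).le (sq_nonneg _)))
      rw [Finset.mul_sum] at *
      have h3 : ∑ b ∈ H, τ b ^ 2 / S.ux j b ≤ 2 * ∑ b ∈ H, S.gl j b * τ b ^ 2 := by
        rw [Finset.mul_sum]
        refine Finset.sum_le_sum (fun b hb => ?_)
        have h4 := S.one_le_ux_gl (y_gt_of_HH hj hb)
        have h5 := S.ux_pos j b
        rw [div_le_iff₀ h5]
        nlinarith [mul_le_mul_of_nonneg_right h4 (sq_nonneg (τ b))]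
      linarith
    have h2 : NN S.y t ⊆ WW S.y t ∪ WW S.y (t + 1) := by
      intro a ha
      rcases Finset.mem_union.mp ha with h | h
      · exact Finset.mem_union_left _ h
      · refine Finset.mem_union_right _ ?_
        exact (mem_WW S.y).mpr (Or.inl h)
    have h3 : ∑ a ∈ NN S.y t, ∑ b ∈ H, S.ux j b * S.dv j s (a, b) ^ 2 ≤ Et + Et' := by
      have h0 : ∀ a, 0 ≤ ∑ b ∈ H, S.ux j b * S.dv j s (a, b) ^ 2 := fun a =>
        Finset.sum_nonneg (fun b _ => mul_nonneg (S.ux_pos _ _).le (sq_nonneg _))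
      have h4 := Finset.sum_le_sum_of_subset_of_nonneg (f := fun a => ∑ b ∈ H, S.ux j b * S.dv j s (a, b) ^ 2)
        h2 (fun a _ _ => h0 a)
      refine h4.trans ?_
      have h5 := Finset.sum_union_inter (s₁ := WW S.y t) (s₂ := WW S.y (t + 1))
        (f := fun a => ∑ b ∈ H, S.ux j b * S.dv j s (a, b) ^ 2)
      have h6 : 0 ≤ ∑ a ∈ WW S.y t ∩ WW S.y (t + 1), ∑ b ∈ H, S.ux j b * S.dv j s (a, b) ^ 2 :=
        Finset.sum_nonneg (fun a _ => h0 a)
      have h7 := qf_off_le (S := S) (t := t) (c := t) (j := j) (f := S.dv j s)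
      have h8 := qf_off_le (S := S) (t := t) (c := t + 1) (j := j) (f := S.dv j s)
      linarith
    refine (Finset.sum_le_sum (fun a _ => h1 a)).trans ?_
    rw [← Finset.mul_sum]
    exact mul_le_mul_of_nonneg_left h3 (by positivity)
  have hX₁le : ∑ a ∈ NN S.y t, X₁ a ^ 2 ≤ 2 ^ 124 * A := by
    have h1 : ∀ a, X₁ a ^ 2 ≤ (Ex.card : ℝ) * ∑ i ∈ Ex, (tt i * S.z i a) ^ 2 := fun a =>
      sq_sum_le_card_mul_sum_sq
    refine (Finset.sum_le_sum (fun a _ => h1 a)).trans ?_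
    rw [← Finset.mul_sum, Finset.sum_comm]
    have h2 : ∀ i ∈ Ex, ∑ a ∈ NN S.y t, (tt i * S.z i a) ^ 2 ≤ A := by
      intro i _
      simp only [mul_pow]
      rw [← Finset.mul_sum]
      have h3 : ∑ a ∈ NN S.y t, S.z i a ^ 2 ≤ 1 :=
        (Finset.sum_le_sum_of_subset_of_nonneg (Finset.subset_univ _) (fun _ _ _ => sq_nonneg _)).trans (S.hz i)
      have h4 := htt2 i
      nlinarith [sq_nonneg (tt i)]
    have h3 : ∑ i ∈ Ex, ∑ a ∈ NN S.y t, (tt i * S.z i a) ^ 2 ≤ (Ex.card : ℝ) * A := by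
      refine (Finset.sum_le_sum h2).trans ?_
      simp
    have h4 : (0 : ℝ) ≤ Ex.card := by positivity
    calc (Ex.card : ℝ) * ∑ i ∈ Ex, ∑ a ∈ NN S.y t, (tt i * S.z i a) ^ 2 ≤ (2 ^ 62) * ((2 ^ 62) * A) := by
          refine mul_le_mul hExc (h3.trans ?_) (Finset.sum_nonneg (fun _ _ =>
            Finset.sum_nonneg (fun _ _ => sq_nonneg _))) (by norm_num)
          exact mul_le_mul_of_nonneg_right hExc hA0
      _ = 2 ^ 124 * A := by ring
  have hfinal : ∑ a ∈ NN S.y t, (∑ i ∈ s \ Ex, tt i * S.z i a) ^ 2 ≤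
      2 * ∑ a ∈ NN S.y t, D₁ a ^ 2 + 2 * ∑ a ∈ NN S.y t, X₁ a ^ 2 := by
    rw [Finset.mul_sum, Finset.mul_sum, ← Finset.sum_add_distrib]
    refine Finset.sum_le_sum (fun a ha => ?_)
    rw [hsplit a ha]
    nlinarith [sq_nonneg (D₁ a + X₁ a)]
  refine hfinal.trans ?_
  linarith

end

end Vale.Agent.Lib.P262S
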