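import Vale.Agent.Lib.P262S.Point

open Finset
open Vale.Agent.Lib.P262 (nm nm_nonneg nm_sq nm_add_le nm_mono nm_smul nm_le_of_sq sum_sq_le_of_nm)

namespace Vale.Agent.Lib.P262S

noncomputable section

variable {I D : Type} [Fintype I] [DecidableEq I] [Fintype D] [DecidableEq D]

/-- The clipping function. -/
def clip (w κ : ℝ) : ℝ := max (-κ) (min w κ)

lemma clip_abs {w κ : ℝ} (hκ : 0 ≤ κ) : |clip w κ| ≤ κ := by
  unfold clip
  rw [abs_le]
  constructor
  · exact le_max_left _ _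
  · refine max_le (by linarith) (min_le_right _ _)

/-- Pointwise gain of the clipping. -/
lemma clip_gain {w κ n ν m : ℝ} (hκ : 0 ≤ κ) (hν : 0 ≤ ν) (hc : |n| + ν ≤ κ / 2)
    (hm : m = w - clip w κ + n) (hw : 3 / 4 * κ < |w|) :
    (|m| + ν) ^ 2 ≤ w ^ 2 - κ ^ 2 / 4 := by
  have hc0 : 0 ≤ |n| + ν := by positivity
  have hcsq : (|n| + ν) ^ 2 ≤ κ ^ 2 / 4 := by nlinarith
  have hsq : |w| ^ 2 = w ^ 2 := sq_abs w
  by_cases h1 : |w| ≤ κ
  · have e : clip w κ = w := by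
      unfold clip
      have := abs_le.mp h1
      rw [min_eq_left this.2, max_eq_right this.1]
    have h2 : m = n := by rw [hm, e]; ring
    rw [h2]
    have h3 : (3 / 4 * κ) ^ 2 ≤ |w| ^ 2 := pow_le_pow_left₀ (by positivity) hw.le 2
    nlinarith
  · push Not at h1
    have h2 : |m| ≤ |w| - κ + |n| := by
      rcases le_abs'.mp h1.le with h3 | h3
      · have e : clip w κ = -κ := by
          unfold clip
          rw [min_eq_left (by linarith), max_eq_left (by linarith)]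
        have h4 : m = (w + κ) + n := by rw [hm, e]; ring
        have h5 : |w| = -w := abs_of_nonpos (by linarith)
        rw [h4, h5]
        refine (abs_add_le _ _).trans ?_
        rw [abs_of_nonpos (by linarith)]
        linarith
      · have e : clip w κ = κ := by
          unfold clip
          rw [min_eq_right h3, max_eq_right (by linarith)]
        have h4 : m = (w - κ) + n := by rw [hm, e]
        have h5 : |w| = w := abs_of_nonneg (by linarith)
        rw [h4, h5]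
        refine (abs_add_le _ _).trans ?_
        rw [abs_of_nonneg (by linarith)]
    have h3 : |m| + ν ≤ |w| - κ / 2 := by linarith
    have h4 : 0 ≤ |m| + ν := by positivity
    have h5 : (|m| + ν) ^ 2 ≤ (|w| - κ / 2) ^ 2 := pow_le_pow_left₀ h4 h3 2
    nlinarith

/-- Without a gain. -/
lemma clip_nogain {w κ n ν m : ℝ} (hκ : 0 ≤ κ)
    (hm : m = w - clip w κ + n) (hw : |w| ≤ 3 / 4 * κ) :
    |m| + ν = |n| + ν := by
  have h1 : |w| ≤ κ := by linarith
  have e : clip w κ = w := by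
    unfold clip
    have := abs_le.mp h1
    rw [min_eq_left this.2, max_eq_right this.1]
  rw [hm, e]
  simp

section Clip

variable {y : D → ℕ}

/-- **The clipping lemma.** -/
theorem clip_main (H : Finset D) (κ avg n ν m : D → ℝ) (ρ₁ N₀ : ℝ)
    (hκ0 : ∀ a ∈ H, 0 ≤ κ a) (hκ : ∀ a ∈ H, 2 ^ 129 * (rk y H a : ℝ) ≤ κ a ^ 2)
    (hν : ∀ a, 0 ≤ ν a) (hN0 : 0 ≤ N₀)
    (hm : ∀ a ∈ H, m a = avg a - clip (avg a) (κ a) + n a)
    (hc : ∀ a ∈ H, |n a| + ν a ≤ κ a / 2)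
    (hsum : ∀ r : ℕ, ∑ a ∈ pre y H r, (|n a| + ν a) ^ 2 ≤ 2 ^ 126 * (r : ℝ) + N₀)
    (hbase : ∀ r : ℕ, 5 * ∑ a ∈ pre y H r, avg a ^ 2 ≤ ρ₁ + 2 ^ 130 * (r : ℝ)) (r : ℕ) :
    5 * ∑ a ∈ pre y H r, (|m a| + ν a) ^ 2 ≤ ρ₁ + 2 ^ 130 * (r : ℝ) + 5 * N₀ := by
  have hρ : 0 ≤ ρ₁ := by
    have := hbase 0
    rw [pre_zero] at this
    simpa using this
  have hr0 : (0 : ℝ) ≤ r := by positivity
  have hpreH : pre y H r ⊆ H := Finset.filter_subset _ _
  classical
  set A := (pre y H r).filter (fun a => 3 / 4 * κ a < |avg a|) with hA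
  have hsplit : ∑ a ∈ pre y H r, (|m a| + ν a) ^ 2 ≤
      ∑ a ∈ A, (avg a ^ 2 - κ a ^ 2 / 4) + ∑ a ∈ (pre y H r).filter (fun a => ¬ (3 / 4 * κ a < |avg a|)), (|n a| + ν a) ^ 2 := by
    rw [← Finset.sum_filter_add_sum_filter_not (pre y H r) (fun a => 3 / 4 * κ a < |avg a|)]
    refine add_le_add ?_ ?_
    · refine Finset.sum_le_sum (fun a ha => ?_)
      have ha1 := Finset.mem_filter.mp ha
      exact clip_gain (hκ0 a (hpreH ha1.1)) (hν a) (hc a (hpreH ha1.1)) (hm a (hpreH ha1.1)) ha1.2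
    · refine Finset.sum_le_sum (fun a ha => ?_)
      have ha1 := Finset.mem_filter.mp ha
      rw [clip_nogain (ν := ν a) (hκ0 a (hpreH ha1.1)) (hm a (hpreH ha1.1)) (not_lt.mp ha1.2)]
  have hrest : ∑ a ∈ (pre y H r).filter (fun a => ¬ (3 / 4 * κ a < |avg a|)), (|n a| + ν a) ^ 2 ≤
      2 ^ 126 * (r : ℝ) + N₀ :=
    (Finset.sum_le_sum_of_subset_of_nonneg (Finset.filter_subset _ _) (fun _ _ _ => sq_nonneg _)).trans (hsum r)
  by_cases hne : A.Nonempty
  · obtain ⟨a₀, ha₀, hmax⟩ := Finset.exists_max_image A (rk y H) hne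
    have ha₀1 := Finset.mem_filter.mp ha₀
    have ha₀2 := Finset.mem_filter.mp ha₀1.1
    set r₀ := rk y H a₀ with hr₀
    have hr₀r : (r₀ : ℝ) ≤ r := by exact_mod_cast ha₀2.2
    have hsub : A ⊆ pre y H r₀ := by
      intro a ha
      have ha1 := Finset.mem_filter.mp ha
      have ha2 := Finset.mem_filter.mp ha1.1
      exact Finset.mem_filter.mpr ⟨ha2.1, hmax a ha⟩
    have h1 : ∑ a ∈ A, avg a ^ 2 ≤ ∑ a ∈ pre y H r₀, avg a ^ 2 :=
      Finset.sum_le_sum_of_subset_of_nonneg hsub (fun _ _ _ => sq_nonneg _)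
    have h2 : κ a₀ ^ 2 / 4 ≤ ∑ a ∈ A, κ a ^ 2 / 4 :=
      Finset.single_le_sum (f := fun a => κ a ^ 2 / 4) (fun _ _ => by positivity) ha₀
    have h3 := hκ a₀ ha₀2.1
    have h4 := hbase r₀
    rw [Finset.sum_sub_distrib] at hsplit
    have h5 : (0 : ℝ) ≤ r₀ := by positivity
    nlinarith
  · rw [Finset.not_nonempty_iff_eq_empty] at hne
    rw [hne] at hsplit
    simp only [Finset.sum_empty, zero_add] at hsplit
    nlinarith

end Clip

variable (S : Sys I D)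

/-- Length added to the rank bound. -/
def Bd (t : ℕ) : ℝ := (JJ S.y t : ℝ) + 2 ^ 86

/-- The main bound at a point. -/
def TB (t j : ℕ) (s : Finset I) (Yh : ℝ) (u : D → ℝ) (ρ : ℝ) : Prop :=
  ∀ r : ℕ, Pot S t s Yh u + Bn S t j u + 5 * ∑ a ∈ pre S.y (HH S.y t) r, u a ^ 2 ≤ ρ + 2 ^ 130 * (r : ℝ)

/-- The main bound with room for the noise of a fold. -/
def TBp (t j : ℕ) (s : Finset I) (Yh : ℝ) (u : D → ℝ) (ρ : ℝ) : Prop :=
  ∀ ν : D → ℝ, (∀ a, 0 ≤ ν a) → (∀ r : ℕ, ∑ a ∈ pre S.y (HH S.y t) r, ν a ^ 2 ≤ 2 ^ 40 * ((r : ℝ) + Bd S t)) →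
    ∀ r : ℕ, Pot S t s Yh u + Bn S t j u + 5 * ∑ a ∈ pre S.y (HH S.y t) r, (|u a| + ν a) ^ 2 ≤
      ρ + 2 ^ 130 * (r : ℝ) + 2 ^ 44 * Bd S t

variable {S}

lemma Bn_anti {t j J' : ℕ} (hle : j + J' ≤ jj S.y (t + 1)) (u : D → ℝ) :
    Bn S t (j + J') u ≤ Bn S t j u := by
  unfold Bn
  refine Finset.sum_le_sum (fun a ha => ?_)
  exact mul_le_mul_of_nonneg_right (Aw_anti ha hle) (sq_nonneg _)

lemma Pot_anti {t : ℕ} {s C : Finset I} {Yh : ℝ} (hC : C ⊆ s) (hY : 0 ≤ Yh) (u : D → ℝ) :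
    Pot S t C (7 / 10 * Yh) u ≤ Pot S t s Yh u := by
  unfold Pot
  have h1 := S.Nn_mono (TF S.y t) hC u
  nlinarith

lemma TB.mono {t j J' : ℕ} {s C : Finset I} {Yh ρ : ℝ} {u : D → ℝ} (h : TB S t j s Yh u ρ)
    (hle : j + J' ≤ jj S.y (t + 1)) (hC : C ⊆ s) (hY : 0 ≤ Yh) :
    TB S t (j + J') C (7 / 10 * Yh) u ρ := by
  intro r
  have h1 := h r
  have h2 := Bn_anti (S := S) hle u
  have h3 := Pot_anti (S := S) (t := t) hC hY u
  linarith

lemma TBp.mono {t j J' : ℕ} {s C : Finset I} {Yh ρ : ℝ} {u : D → ℝ} (h : TBp S t j s Yh u ρ)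
    (hle : j + J' ≤ jj S.y (t + 1)) (hC : C ⊆ s) (hY : 0 ≤ Yh) :
    TBp S t (j + J') C (7 / 10 * Yh) u ρ := by
  intro ν hν hsum r
  have h1 := h ν hν hsum r
  have h2 := Bn_anti (S := S) hle u
  have h3 := Pot_anti (S := S) (t := t) hC hY u
  linarith

lemma TB.le {t j : ℕ} {s : Finset I} {Yh ρ ρ' : ℝ} {u : D → ℝ} (h : TB S t j s Yh u ρ) (hρ : ρ ≤ ρ') :
    TB S t j s Yh u ρ' := fun r => (h r).trans (by linarith)

lemma TBp.le {t j : ℕ} {s : Finset I} {Yh ρ ρ' : ℝ} {u : D → ℝ} (h : TBp S t j s Yh u ρ) (hρ : ρ ≤ ρ') :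
    TBp S t j s Yh u ρ' := fun ν hν hsum r => (h ν hν hsum r).trans (by linarith)

/-- The norm of a point from the main bound. -/
lemma norm_of_TB {t j : ℕ} {s : Finset I} {Yh ρ : ℝ} {u : D → ℝ} (h : TB S t j s Yh u ρ)
    (hY : 0 ≤ Yh) (hj1 : jj S.y t ≤ j) (hj2 : j ≤ jj S.y (t + 1)) :
    ∑ a, u a ^ 2 ≤ ρ + 2 ^ 130 * (Fintype.card D : ℝ) := by
  have h1 := h (HH S.y t).card
  rw [pre_card_eq] at h1
  have h2 : ∑ a, u a ^ 2 ≤ ∑ a ∈ TF S.y t, u a ^ 2 + ∑ a ∈ NN S.y t, u a ^ 2 + ∑ a ∈ HH S.y t, u a ^ 2 := by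
    have hcov : (univ : Finset D) = (TF S.y t ∪ NN S.y t) ∪ HH S.y t := by
      ext a
      simp only [Finset.mem_univ, Finset.mem_union, true_iff]
      rcases cover3 S.y t a with h | h | h
      · exact Or.inl (Or.inl h)
      · exact Or.inl (Or.inr h)
      · exact Or.inr h
    have hd1 : Disjoint (TF S.y t) (NN S.y t) := TF_NN_disj S.y t
    have hd2 : Disjoint (TF S.y t ∪ NN S.y t) (HH S.y t) := by
      rw [Finset.disjoint_union_left]
      exact ⟨TF_HH_disj S.y t, NN_HH_disj S.y t⟩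
    rw [hcov, Finset.sum_union hd2, Finset.sum_union hd1]
  have h3 : ∑ a ∈ NN S.y t, u a ^ 2 ≤ Bn S t j u := by
    unfold Bn
    refine Finset.sum_le_sum (fun a ha => ?_)
    have h4 := (Aw_le_five (S := S) ha hj1 hj2).1
    nlinarith [sq_nonneg (u a)]
  have h4 : 0 ≤ S.Nn (TF S.y t) s u := S.Nn_nonneg _ _ _
  have h5 : 0 ≤ ∑ a ∈ HH S.y t, u a ^ 2 := Finset.sum_nonneg (fun _ _ => sq_nonneg _)
  have h6 : ((HH S.y t).card : ℝ) ≤ Fintype.card D := by
    exact_mod_cast Finset.card_le_univ _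
  unfold Pot at h1
  nlinarith

variable (S)

/-- Increment of a binary level. -/
def inc (t : ℕ) : ℝ :=
  if (NN S.y t).Nonempty then
    2 ^ 133 * ((JJ S.y t : ℝ) + ((NN S.y t).card : ℝ) + ((WW S.y t).card : ℝ) + ((WW S.y (t + 1)).card : ℝ) +
      bt S t + 1)
  else 0

/-- New fallen mass of a stage. -/
def Yst (t : ℕ) : ℝ :=
  if (WW S.y t).Nonempty then
    ((WW S.y t).card : ℝ) + 1 / 2 * (((WW S.y t).card : ℝ) +
      2 ^ 43 * (((WW S.y t).card : ℝ) + 2 ^ 88 + bt S t + (JJ S.y t : ℝ)))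
  else 0

/-- The bound at the end of a stage. -/
def Rc (R : ℝ) (t : ℕ) : ℝ :=
  R + (if (NN S.y t).Nonempty then 3 * inc S t + 2 ^ 44 * Bd S t else 0)

/-- The bound at the start of a stage. -/
def Rr : ℕ → ℝ
  | 0 => 2 ^ 70 * (Fintype.card D : ℝ)
  | t + 1 => Rc S (Rr t) t + 2 ^ 130 * ((Lv S.y (t + 1)).card : ℝ) + 2 ^ 71 * Yst S t

variable {S}

lemma inc_nonneg (t : ℕ) : 0 ≤ inc S t := by
  unfold inc
  split_ifs
  · have := bt_nonneg S t
    positivity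
  · exact le_rfl

lemma Bd_pos (t : ℕ) : 0 < Bd S t := by
  unfold Bd
  positivity

lemma Yst_nonneg (t : ℕ) : 0 ≤ Yst S t := by
  unfold Yst
  split_ifs
  · have := bt_nonneg S t
    positivity
  · exact le_rfl

lemma Rr_le_Rc (R : ℝ) (t : ℕ) : R ≤ Rc S R t := by
  unfold Rc
  split_ifs
  · have := inc_nonneg (S := S) t
    have := Bd_pos (S := S) t
    have : (0 : ℝ) ≤ 2 ^ 44 * Bd S t := by positivity
    linarith
  · linarith

lemma clean_le_Rc (R : ℝ) (t : ℕ) : R + 2 * inc S t ≤ Rc S R t := by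
  unfold Rc inc
  split_ifs with h
  · have := bt_nonneg S t
    have h2 := Bd_pos (S := S) t
    have h3 : (0 : ℝ) ≤ 2 ^ 44 * Bd S t := by positivity
    have h4 : 0 ≤ 2 ^ 133 * ((JJ S.y t : ℝ) + ((NN S.y t).card : ℝ) + ((WW S.y t).card : ℝ) + ((WW S.y (t + 1)).card : ℝ) +
      bt S t + 1) := by positivity
    linarith
  · linarith

lemma Rc_le_Rr (t : ℕ) : Rc S (Rr S t) t ≤ Rr S (t + 1) := by
  have h1 := Yst_nonneg (S := S) t
  have h2 : (0 : ℝ) ≤ 2 ^ 130 * ((Lv S.y (t + 1)).card : ℝ) := by positivity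
  show _ ≤ Rc S (Rr S t) t + 2 ^ 130 * ((Lv S.y (t + 1)).card : ℝ) + 2 ^ 71 * Yst S t
  linarith

/-- Falling coordinates have at most unit mass at the end of the stage. -/
lemma gl_end_le {t : ℕ} {a : D} (ha : a ∈ WW S.y t) : S.gl (jj S.y (t + 1)) a ≤ 1 := by
  unfold Sys.gl
  have h1 := y_WW S.y ha
  have h2 := S.hy1 a
  rw [div_le_one (by positivity)]
  exact h2.trans (pow_le_pow_right₀ (by norm_num) h1)

lemma ux_end {t : ℕ} {a : D} (ha : a ∈ WW S.y t) : S.ux (jj S.y (t + 1)) a = 1 := by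
  unfold Sys.ux
  have h1 := y_WW S.y ha
  have e : S.y a - jj S.y (t + 1) = 0 := by omega
  rw [e, pow_zero]

/-- The mass of the coordinates falling at the end of a stage. -/
lemma Y_W_le {t : ℕ} {C : Finset I} (hE : qf (S.wc t t (jj S.y (t + 1))) (S.dv (jj S.y (t + 1)) C) ≤
      2 ^ 43 * (((WW S.y t).card : ℝ) + 2 ^ 88 + bt S t + (JJ S.y t : ℝ))) :
    S.Yy (WW S.y t) C ≤ Yst S t := by
  set W := WW S.y t with hW
  set j' := jj S.y (t + 1) with hj'
  by_cases hne : W.Nonempty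
  · unfold Yst
    rw [if_pos hne]
    have e : S.Yy W C = ∑ a ∈ W, (S.gl j' a + S.dv j' C (a, a)) := by
      rw [Yy_eq]
      refine Finset.sum_congr rfl (fun a _ => ?_)
      unfold Sys.dv
      simp
      rfl
    rw [e, Finset.sum_add_distrib]
    have h1 : ∑ a ∈ W, S.gl j' a ≤ (W.card : ℝ) := by
      have : ∑ a ∈ W, S.gl j' a ≤ ∑ _a ∈ W, (1 : ℝ) :=
        Finset.sum_le_sum (fun a ha => gl_end_le ha)
      simpa using this
    have h2 : ∑ a ∈ W, (S.dv j' C (a, a)) ^ 2 ≤ qf (S.wc t t j') (S.dv j' C) := by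
      unfold qf
      rw [Fintype.sum_prod_type]
      have h3 : ∀ a ∈ W, (S.dv j' C (a, a)) ^ 2 ≤ ∑ b, S.wc t t j' (a, b) * S.dv j' C (a, b) ^ 2 := by
        intro a ha
        have h4 : S.wc t t j' (a, a) * S.dv j' C (a, a) ^ 2 ≤ ∑ b, S.wc t t j' (a, b) * S.dv j' C (a, b) ^ 2 :=
          Finset.single_le_sum (f := fun b => S.wc t t j' (a, b) * S.dv j' C (a, b) ^ 2)
            (fun b _ => mul_nonneg (S.wc_nonneg _ _ _ _) (sq_nonneg _)) (Finset.mem_univ a)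
        have h5 : 1 ≤ S.wc t t j' (a, a) := by
          have ha' : a ∈ WW S.y t := ha
          have e2 : S.wc t t j' (a, a) = (if a ∈ HH S.y t then S.ux j' a else 0) + S.ux j' a := by
            simp [Sys.wc, ha']
          rw [e2, hj', ux_end ha']
          split_ifs <;> norm_num
        have h6 := mul_le_mul_of_nonneg_right h5 (sq_nonneg (S.dv j' C (a, a)))
        linarith
      refine (Finset.sum_le_sum h3).trans ?_
      exact Finset.sum_le_sum_of_subset_of_nonneg (Finset.subset_univ W)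
        (fun a _ _ => Finset.sum_nonneg (fun b _ => mul_nonneg (S.wc_nonneg _ _ _ _) (sq_nonneg _)))
    have h3 : ∑ a ∈ W, S.dv j' C (a, a) ≤ 1 / 2 * ((W.card : ℝ) + ∑ a ∈ W, (S.dv j' C (a, a)) ^ 2) := by
      have h4 : ∑ a ∈ W, S.dv j' C (a, a) ≤ ∑ a ∈ W, (1 / 2 * (1 + (S.dv j' C (a, a)) ^ 2)) :=
        Finset.sum_le_sum (fun a _ => by nlinarith [sq_nonneg (S.dv j' C (a, a) - 1)])
      refine h4.trans (le_of_eq ?_)
      rw [← Finset.mul_sum, Finset.sum_add_distrib]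
      simp
    linarith
  · rw [Finset.not_nonempty_iff_eq_empty] at hne
    unfold Yst
    rw [if_neg (by rw [← hW, hne]; simp)]
    unfold Sys.Yy
    simp [hne]

lemma wc_anti_stage (t c j : ℕ) (q : D × D) : S.wc (t + 1) c j q ≤ S.wc t c j q := by
  unfold Sys.wc
  by_cases h1 : q.1 ∈ WW S.y c
  · simp only [h1, if_true]
    refine add_le_add ?_ le_rfl
    by_cases h2 : q.2 ∈ HH S.y (t + 1)
    · simp [h2, HH_anti S.y t h2]
    · simp only [h2, if_false]
      split_ifs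
      · exact (S.ux_pos _ _).le
      · exact le_rfl
  · simp [h1]

lemma w1_anti_stage (t j : ℕ) (q : D × D) : S.w1 (t + 1) j q ≤ S.w1 t j q := by
  unfold Sys.w1
  by_cases h1 : q.1 ∈ HH S.y (t + 1) ∧ q.2 ∈ HH S.y (t + 1)
  · rw [if_pos h1, if_pos ⟨HH_anti S.y t h1.1, HH_anti S.y t h1.2⟩]
  · rw [if_neg h1]
    split_ifs
    · exact mul_nonneg (S.vx_pos _ _).le (S.vx_pos _ _).le
    · exact le_rfl

lemma qf_mono_w' {w w' : D × D → ℝ} (h : ∀ q, w' q ≤ w q) (f : D × D → ℝ) : qf w' f ≤ qf w f := by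
  unfold qf
  refine Finset.sum_le_sum (fun q _ => ?_)
  exact mul_le_mul_of_nonneg_right (h q) (sq_nonneg _)

/-- Recurrence of the slack. -/
lemma bt_succ (t : ℕ) : bt S (t + 1) = 3 / 4 * bt S t + (EJ S.y t : ℝ) := rfl

/-- **The invariants across the end of a stage.** -/
theorem inv_cross {t : ℕ} {C : Finset I} {Yh u : ℝ} (hI : InvC S t (jj S.y (t + 1)) C Yh u)
    (hu : u ≤ 7 + (EJ S.y t : ℝ)) (hu0 : 0 ≤ u) :
    Inv S (t + 1) (jj S.y (t + 1)) C (Yh + Yst S t) := by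
  set j' := jj S.y (t + 1) with hj'
  refine ⟨le_rfl, ?_, ?_, ?_, ?_⟩
  · rw [jj_succ]
    have := JJ_pos S.y (t + 1)
    omega
  · exact (qf_mono_w' (w1_anti_stage t j') _).trans hI.i1
  · intro c hc
    refine (qf_mono_w' (wc_anti_stage t c j') _).trans ?_
    refine (hI.i2 c (by omega)).trans ?_
    have hδ : (1 : ℝ) ≤ (c : ℝ) - t := by
      have : ((t + 1 : ℕ) : ℝ) ≤ c := by exact_mod_cast hc
      push_cast at this
      linarith
    have hn : (0 : ℝ) ≤ (WW S.y c).card := by positivity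
    have hb := bt_nonneg S t
    unfold Xc
    rw [bt_succ]
    push_cast
    norm_num
    norm_num at hu
    nlinarith
  · have hE : qf (S.wc t t j') (S.dv j' C) ≤
        2 ^ 43 * (((WW S.y t).card : ℝ) + 2 ^ 88 + bt S t + (JJ S.y t : ℝ)) := by
      refine (hI.i2 t le_rfl).trans ?_
      have hn : (0 : ℝ) ≤ (WW S.y t).card := by positivity
      have hb := bt_nonneg S t
      have hEJ : (EJ S.y t : ℝ) ≤ JJ S.y t := by
        unfold EJ
        split_ifs
        · exact le_rfl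
        · simp
      have hJ : (0 : ℝ) ≤ JJ S.y t := by positivity
      unfold Xc
      norm_num
      norm_num at hu
      nlinarith
    have hW := Y_W_le hE
    have e : TF S.y (t + 1) = TF S.y t ∪ WW S.y t := rfl
    rw [e]
    have h1 : S.Yy (TF S.y t ∪ WW S.y t) C = S.Yy (TF S.y t) C + S.Yy (WW S.y t) C := by
      unfold Sys.Yy
      rw [← Finset.sum_add_distrib]
      refine Finset.sum_congr rfl (fun i _ => ?_)
      exact Finset.sum_union (TF_WW_disj S.y t)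
    rw [h1]
    have := hI.i3
    linarith

/-- **The bound across the end of a stage.** -/
theorem TB_cross {t : ℕ} {C : Finset I} {Yh ρ : ℝ} {w : D → ℝ} (hb : TB S t (jj S.y (t + 1)) C Yh w ρ)
    (hY : S.Yy (WW S.y t) C ≤ Yst S t) :
    TB S (t + 1) (jj S.y (t + 1)) C (Yh + Yst S t) w
      (ρ + 2 ^ 130 * ((Lv S.y (t + 1)).card : ℝ) + 2 ^ 71 * Yst S t) := by
  intro r
  have h := hb (r + (Lv S.y (t + 1)).card)
  rw [pre_succ] at h
  set T := TF S.y t with hT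
  set W := WW S.y t with hW
  set P := PP S.y t with hP
  set L := Lv S.y (t + 1) with hL
  set j' := jj S.y (t + 1) with hj'
  set Ys := Yst S t with hYs
  have hd1 : Disjoint L (pre S.y (HH S.y (t + 1)) r) := by
    refine Finset.disjoint_of_subset_right (Finset.filter_subset _ _) ?_
    exact Lv_HH_disj S.y (t + 1)
  rw [Finset.sum_union hd1] at h
  -- the weights before
  have e1 : Bn S t j' w = 2 * ∑ a ∈ W, w a ^ 2 + 3 * ∑ a ∈ P, w a ^ 2 := by
    unfold Bn NN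
    rw [Finset.sum_union (WW_PP_disj S.y t), Finset.mul_sum, Finset.mul_sum]
    congr 1
    · refine Finset.sum_congr rfl (fun a ha => ?_)
      rw [hj', Aw_end, if_pos ha]
    · refine Finset.sum_congr rfl (fun a ha => ?_)
      have h2 : a ∉ W := Finset.disjoint_right.mp (WW_PP_disj S.y t) ha
      rw [hj', Aw_end, if_neg h2]
  -- the weights after
  have e2 : Bn S (t + 1) j' w = 3 * ∑ a ∈ P, w a ^ 2 + 5 * ∑ a ∈ L, w a ^ 2 := by
    unfold Bn
    rw [NN_succ, Finset.sum_union (by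
      have := st_P_Lv_disj S.y (t + 1)
      exact this), Finset.mul_sum, Finset.mul_sum]
    congr 1
    · refine Finset.sum_congr rfl (fun a ha => ?_)
      have h2 : a ∈ (st S.y (t + 1)).P := ha
      rw [hj', Aw_start, if_pos h2]
    · refine Finset.sum_congr rfl (fun a ha => ?_)
      have h2 : a ∉ (st S.y (t + 1)).P :=
        Finset.disjoint_right.mp (st_P_Lv_disj S.y (t + 1)) ha
      rw [hj', Aw_start, if_neg h2]
  -- the potential
  have e3 : TF S.y (t + 1) = T ∪ W := rfl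
  have hdTW : Disjoint T W := TF_WW_disj S.y t
  have hN : S.Nn (T ∪ W) C w ≤ S.Nn T C w + S.Nn W C w := by
    unfold Sys.Nn
    have : (fun i => ∑ a ∈ T ∪ W, w a * S.z i a) =
        fun i => (∑ a ∈ T, w a * S.z i a) + ∑ a ∈ W, w a * S.z i a := by
      funext i
      exact Finset.sum_union hdTW
    rw [this]
    exact nm_add_le _ _ _
  set A := ∑ a ∈ W, w a ^ 2 with hA
  have hA0 : 0 ≤ A := Finset.sum_nonneg (fun _ _ => sq_nonneg _)
  have hYs0 : 0 ≤ Ys := Yst_nonneg t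
  have hNW : 2 ^ 36 * S.Nn W C w ≤ A + 2 ^ 70 * Ys := by
    have h1 := S.Nn_le W C w
    have h2 : S.Nn W C w ^ 2 ≤ A * Ys := h1.trans (by
      exact mul_le_mul_of_nonneg_left hY hA0)
    refine (abs_le.mp (abs_le_of_sq_le_sq ?_ (by positivity))).2
    have h3 : (2 ^ 36 * S.Nn W C w) ^ 2 = 2 ^ 72 * S.Nn W C w ^ 2 := by ring
    rw [h3]
    have h4 : (A + 2 ^ 70 * Ys) ^ 2 - 2 ^ 72 * (A * Ys) = (A - 2 ^ 70 * Ys) ^ 2 := by ring
    nlinarith [sq_nonneg (A - 2 ^ 70 * Ys)]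
  unfold Pot at h ⊢
  rw [e3, Finset.sum_union hdTW, e2]
  rw [e1] at h
  have hr : ((r + L.card : ℕ) : ℝ) = (r : ℝ) + L.card := by push_cast; ring
  rw [hr] at h
  nlinarith

end

end Vale.Agent.Lib.P262S
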